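import Vale.Agent.P101.Copies

/-! A unital `*`-homomorphism from an inductive limit to `F_ω(A)`. -/

open Filter Topology BoundedContinuousFunction TopologicalSpace

noncomputable section

namespace Vale.Agent.P101

variable {ω : Ultrafilter ℕ} {A : Type*} [CStarAlgebra A]

/-- Reindexing of bounded functions on discrete spaces. -/
def reindexG {X Y : Type*} [TopologicalSpace X] [DiscreteTopology X] [TopologicalSpace Y]
    (g : X → Y) (A : Type*) [CStarAlgebra A] : (Y →ᵇ A) →⋆ₐ[ℂ] (X →ᵇ A) where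
  toFun := fun a => a.compContinuous ⟨g, continuous_of_discreteTopology⟩
  map_one' := rfl
  map_mul' := fun _ _ => rfl
  map_zero' := rfl
  map_add' := fun _ _ => rfl
  commutes' := fun _ => rfl
  map_star' := fun _ => rfl

theorem reindexG_apply {X Y : Type*} [TopologicalSpace X] [DiscreteTopology X]
    [TopologicalSpace Y] (g : X → Y) (a : Y →ᵇ A) (x : X) : reindexG g A a x = a (g x) := rfl

/-- The `n`-th row of a double sequence. -/
def rowHom (A : Type*) [CStarAlgebra A] (n : ℕ) : ((ℕ × ℕ) →ᵇ A) →⋆ₐ[ℂ] (ℕ →ᵇ A) :=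
  reindexG (fun k => (n, k)) A

theorem rowHom_apply (n : ℕ) (f : (ℕ × ℕ) →ᵇ A) (k : ℕ) : rowHom A n f k = f (n, k) := rfl

section limit

variable {Z : Type*} [CStarAlgebra Z] {D : ℕ → StarSubalgebra ℂ Z}

/-- the double sequence `f` represents `z` at level `n` -/
def Good (ψ : ∀ n, D n →⋆ₐ[ℂ] centralSeq A ω) (n : ℕ) (d : Z × ((ℕ × ℕ) →ᵇ A)) : Prop :=
  ∃ h : d.1 ∈ D n, ((ψ n ⟨d.1, h⟩ : centralSeq A ω) : SeqAlg A ω) = clsHom A ω (rowHom A n d.2)

theorem good_adjoin (ψ : ∀ n, D n →⋆ₐ[ℂ] centralSeq A ω) (S : Set (Z × ((ℕ × ℕ) →ᵇ A)))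
    (hS : ∀ d ∈ S, ∀ᶠ n in atTop, Good ψ n d) :
    ∀ d ∈ StarAlgebra.adjoin ℂ S, ∀ᶠ n in atTop, Good ψ n d := by
  intro d hd
  induction hd using StarAlgebra.adjoin_induction with
  | mem d hd => exact hS d hd
  | algebraMap r =>
    refine Filter.Eventually.of_forall fun n => ⟨(D n).algebraMap_mem r, ?_⟩
    have e1 : (⟨(algebraMap ℂ (Z × ((ℕ × ℕ) →ᵇ A)) r).1, (D n).algebraMap_mem r⟩ : D n)
        = algebraMap ℂ (D n) r := rfl
    rw [e1, AlgHomClass.commutes]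
    change _ = clsHom A ω (rowHom A n (algebraMap ℂ ((ℕ × ℕ) →ᵇ A) r))
    rw [AlgHomClass.commutes, AlgHomClass.commutes]
    rfl
  | add x y _ _ hx hy =>
    filter_upwards [hx, hy] with n ⟨h1, h2⟩ ⟨h3, h4⟩
    refine ⟨add_mem h1 h3, ?_⟩
    have e1 : (⟨(x + y).1, add_mem h1 h3⟩ : D n) = ⟨x.1, h1⟩ + ⟨y.1, h3⟩ := rfl
    rw [e1, map_add, Prod.snd_add, map_add, map_add, ← h2, ← h4]
    rfl
  | mul x y _ _ hx hy =>
    filter_upwards [hx, hy] with n ⟨h1, h2⟩ ⟨h3, h4⟩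
    refine ⟨mul_mem h1 h3, ?_⟩
    have e1 : (⟨(x * y).1, mul_mem h1 h3⟩ : D n) = ⟨x.1, h1⟩ * ⟨y.1, h3⟩ := rfl
    rw [e1, map_mul, Prod.snd_mul, map_mul, map_mul, ← h2, ← h4]
    rfl
  | star x _ hx =>
    filter_upwards [hx] with n ⟨h1, h2⟩
    refine ⟨star_mem h1, ?_⟩
    have e1 : (⟨(star x).1, star_mem h1⟩ : D n) = star ⟨x.1, h1⟩ := rfl
    rw [e1, map_star, Prod.snd_star, map_star, map_star, ← h2]
    rfl

theorem exists_good_lift (hD : Monotone D) (ψ : ∀ n, D n →⋆ₐ[ℂ] centralSeq A ω)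
    (hψ : ∀ n (x : D n), ‖ψ n x‖ ≤ ‖(x : Z)‖) (z : Z) (hz : z ∈ ⋃ n, (D n : Set Z)) :
    ∃ f : (ℕ × ℕ) →ᵇ A, ∀ᶠ n in atTop, Good ψ n (z, f) := by
  classical
  obtain ⟨N, hN⟩ := Set.mem_iUnion.1 hz
  let y : ℕ → SeqAlg A ω := fun n => if h : z ∈ D n then ((ψ n ⟨z, h⟩ : centralSeq A ω) :
    SeqAlg A ω) else 0
  have hy : ∀ n, ‖y n‖ ≤ ‖z‖ := by
    intro n
    simp only [y]
    split_ifs with h
    · exact hψ n ⟨z, h⟩
    · rw [norm_zero]; exact norm_nonneg _
  choose l hl hln using fun n => exists_lift_norm_lt (y n) (show (0:ℝ) < 1 by norm_num)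
  let f : (ℕ × ℕ) →ᵇ A := BoundedContinuousFunction.ofNormedAddCommGroup
    (fun p => l p.1 p.2) continuous_of_discreteTopology (‖z‖ + 1) (fun p =>
      ((l p.1).norm_coe_le_norm p.2).trans ((hln p.1).le.trans (by linarith [hy p.1])))
  refine ⟨f, ?_⟩
  filter_upwards [eventually_ge_atTop N] with n hn
  have hzn : z ∈ D n := hD hn hN
  refine ⟨hzn, ?_⟩
  have e1 : rowHom A n f = l n := rfl
  change _ = clsHom A ω (rowHom A n f)
  rw [e1, clsHom_apply, hl]
  simp only [y]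
  rw [dif_pos hzn]

/-- **U6.** -/
theorem exists_hom_of_limit [SeparableSpace A] (hω : (ω : Filter ℕ) ≤ cofinite)
    [SeparableSpace Z] (hD : Monotone D) (hdense : Dense (⋃ n, (D n : Set Z)))
    (ψ : ∀ n, D n →⋆ₐ[ℂ] centralSeq A ω) (hψ : ∀ n (x : D n), ‖ψ n x‖ ≤ ‖(x : Z)‖) :
    Nonempty (Z →⋆ₐ[ℂ] centralSeq A ω) := by
  classical
  rw [Nat.cofinite_eq_atTop] at hω
  -- countable dense subset of the union
  obtain ⟨Y, hYD, hY, hDY⟩ := (IsSeparable.of_separableSpace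
    (⋃ n, (D n : Set Z))).exists_countable_dense_subset
  have hlift : ∀ y : Z, ∃ f : (ℕ × ℕ) →ᵇ A, y ∈ Y → ∀ᶠ n in atTop, Good ψ n (y, f) := by
    intro y
    by_cases hy : y ∈ Y
    · obtain ⟨f, hf⟩ := exists_good_lift hD ψ hψ y (hYD hy)
      exact ⟨f, fun _ => hf⟩
    · exact ⟨0, fun h => absurd h hy⟩
  choose F hF using hlift
  let R := Z × ((ℕ × ℕ) →ᵇ A)
  let S : Set R := (fun y => (y, F y)) '' Y
  have hS : S.Countable := hY.image _
  let D' : StarSubalgebra ℂ R := StarAlgebra.adjoin ℂ S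
  have hgood : ∀ d ∈ D', ∀ᶠ n in atTop, Good ψ n d := good_adjoin ψ S (by
    rintro _ ⟨y, hy, rfl⟩
    exact hF y hy)
  obtain ⟨X, hXD, hX, hDX⟩ := (isSeparable_adjoin hS).exists_countable_dense_subset
  have hXne : X.Nonempty := by
    have h1 : (1 : R) ∈ closure X := hDX (one_mem D')
    exact closure_nonempty_iff.1 ⟨_, h1⟩
  obtain ⟨x, rfl⟩ := hX.exists_eq_range hXne
  let a := denseSeq A
  obtain ⟨m, hm⟩ := exists_diag (ω := ω) (fun i n k =>
    ‖(x i.unpair.1).2 (n, k)‖ ≤ ‖cls ω (rowHom A n (x i.unpair.1).2)‖ + 1 / (n + 1 : ℝ) ∧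
    ‖(x i.unpair.1).2 (n, k) * a i.unpair.2 - a i.unpair.2 * (x i.unpair.1).2 (n, k)‖ ≤
      ‖cls ω (rowHom A n (x i.unpair.1).2 * BoundedContinuousFunction.const ℕ (a i.unpair.2)
        - BoundedContinuousFunction.const ℕ (a i.unpair.2) * rowHom A n (x i.unpair.1).2)‖
        + 1 / (n + 1 : ℝ)) (by
      intro i n
      have hpos : (0:ℝ) < 1 / (n + 1 : ℝ) := by positivity
      refine Filter.Eventually.and ?_ ?_
      · filter_upwards [(tendsto_norm_cls (ω := ω) (rowHom A n (x i.unpair.1).2)).eventually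
          (gt_mem_nhds (lt_add_of_pos_right _ hpos))] with k hk using hk.le
      · filter_upwards [(tendsto_norm_cls (ω := ω) (rowHom A n (x i.unpair.1).2
          * BoundedContinuousFunction.const ℕ (a i.unpair.2)
          - BoundedContinuousFunction.const ℕ (a i.unpair.2)
            * rowHom A n (x i.unpair.1).2)).eventually
          (gt_mem_nhds (lt_add_of_pos_right _ hpos))] with k hk using hk.le)
  have hlim : Tendsto (fun n : ℕ => 1 / (n + 1 : ℝ)) ω (𝓝 0) :=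
    tendsto_one_div_add_atTop_nhds_zero_nat.mono_left hω
  let dg : ((ℕ × ℕ) →ᵇ A) →⋆ₐ[ℂ] (ℕ →ᵇ A) := reindexG (fun n => (n, m n)) A
  let π : R →⋆ₐ[ℂ] Z := StarAlgHom.fst ℂ Z ((ℕ × ℕ) →ᵇ A)
  let Φ : R →⋆ₐ[ℂ] SeqAlg A ω := ((clsHom A ω).comp dg).comp
    (StarAlgHom.snd ℂ Z ((ℕ × ℕ) →ᵇ A))
  have hΦc : Continuous Φ := by
    refine AddMonoidHomClass.continuous_of_bound Φ 1 fun d => ?_
    rw [one_mul]
    exact NonUnitalStarAlgHom.norm_apply_le Φ d
  have hπc : Continuous π := continuous_fst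
  -- norm estimate on the dense set
  have hx1 : ∀ i, ‖Φ (x i)‖ ≤ ‖π (x i)‖ := by
    intro i
    have hev : ∀ᶠ n in (ω : Filter ℕ), ‖dg (x i).2 n‖ ≤ ‖π (x i)‖ + 1 / (n + 1 : ℝ) := by
      filter_upwards [hω (eventually_ge_atTop (Nat.pair i 0)),
        hω (hgood (x i) (hXD ⟨i, rfl⟩))] with n hn ⟨h1, h2⟩
      have h3 := (hm (Nat.pair i 0) n hn).1
      rw [Nat.unpair_pair] at h3
      refine h3.trans ?_
      have h4 : ‖cls ω (rowHom A n (x i).2)‖ ≤ ‖π (x i)‖ := by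
        rw [clsHom_apply] at h2
        rw [← h2]
        exact hψ n ⟨(x i).1, h1⟩
      gcongr
    refine le_of_tendsto_of_tendsto (tendsto_norm_cls (ω := ω) (dg (x i).2)) ?_ hev
    simpa using hlim.const_add ‖π (x i)‖
  have hΦn : ∀ d ∈ D', ‖Φ d‖ ≤ ‖π d‖ := by
    intro d hd
    have hcl : IsClosed {d | ‖Φ d‖ ≤ ‖π d‖} :=
      isClosed_le (continuous_norm.comp hΦc) (continuous_norm.comp hπc)
    refine closure_minimal ?_ hcl (hDX hd)
    rintro _ ⟨i, rfl⟩
    exact hx1 i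
  -- centrality
  have hx2 : ∀ i, Φ (x i) ∈ centralSeq A ω := by
    intro i
    rw [mem_centralSeq]
    have hcc : Continuous (constSeq A ω) := by
      refine AddMonoidHomClass.continuous_of_bound (constSeq A ω) 1 fun a => ?_
      rw [one_mul]
      exact (norm_cls_le _).trans (BoundedContinuousFunction.norm_const_le a)
    intro b
    have hcl : IsClosed {b : A | constSeq A ω b * Φ (x i) = Φ (x i) * constSeq A ω b} :=
      isClosed_eq (hcc.mul continuous_const) (continuous_const.mul hcc)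
    have hsub : Set.range a ⊆ {b : A | constSeq A ω b * Φ (x i) = Φ (x i) * constSeq A ω b} := by
      rintro _ ⟨j, rfl⟩
      refine Eq.symm (a := Φ (x i) * constSeq A ω (a j)) ?_
      change cls ω (dg (x i).2) * cls ω (BoundedContinuousFunction.const ℕ (a j))
        = cls ω (BoundedContinuousFunction.const ℕ (a j)) * cls ω (dg (x i).2)
      rw [← map_mul, ← map_mul, cls_eq_cls]
      refine squeeze_zero' (Filter.Eventually.of_forall fun n => norm_nonneg _) ?_ hlim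
      filter_upwards [hω (eventually_ge_atTop (Nat.pair i j)),
        hω (hgood (x i) (hXD ⟨i, rfl⟩))] with n hn ⟨h1, h2⟩
      have h3 := (hm (Nat.pair i j) n hn).2
      rw [Nat.unpair_pair] at h3
      have h4 : cls ω (rowHom A n (x i).2 * BoundedContinuousFunction.const ℕ (a j)
        - BoundedContinuousFunction.const ℕ (a j) * rowHom A n (x i).2) = 0 := by
        rw [clsHom_apply] at h2
        have h5 := mem_centralSeq.1 (ψ n ⟨(x i).1, h1⟩).2 (a j)
        rw [h2, constSeq_apply] at h5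
        rw [map_sub, map_mul, map_mul, h5.eq, sub_self]
      rw [h4, norm_zero, zero_add] at h3
      exact h3
    have := closure_minimal hsub hcl
    rw [(denseRange_denseSeq A).closure_range] at this
    exact this (Set.mem_univ b)
  have hΦF : ∀ d ∈ D', Φ d ∈ centralSeq A ω := by
    intro d hd
    have hcl : IsClosed {d | Φ d ∈ centralSeq A ω} := centralSeq.isClosed.preimage hΦc
    refine closure_minimal ?_ hcl (hDX hd)
    rintro _ ⟨i, rfl⟩
    exact hx2 i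
  have hC : ((⊤ : StarSubalgebra ℂ Z) : Set Z) ⊆ closure (π '' D') := by
    intro z _
    have h1 : z ∈ closure (⋃ n, (D n : Set Z)) := hdense z
    have h2 : closure (⋃ n, (D n : Set Z)) ⊆ closure Y := closure_minimal hDY isClosed_closure
    refine closure_mono ?_ (h2 h1)
    intro y hy
    exact ⟨(y, F y), StarAlgebra.subset_adjoin ℂ S ⟨y, hy, rfl⟩, rfl⟩
  obtain ⟨θ, -, -, hθ⟩ := exists_hom_of_norm_le π Φ D' hΦn ⊤ hC
  have hθF : ∀ c, θ c ∈ centralSeq A ω := by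
    intro c
    refine closure_minimal ?_ (centralSeq.isClosed (A := A) (ω := ω)) (hθ c)
    rintro _ ⟨d, hd, rfl⟩
    exact hΦF d hd
  let j : Z →⋆ₐ[ℂ] (⊤ : StarSubalgebra ℂ Z) := (StarAlgHom.id ℂ Z).codRestrict ⊤
    (fun _ => StarSubalgebra.mem_top)
  exact ⟨(θ.comp j).codRestrict (centralSeq A ω) (fun z => hθF _)⟩

end limit

end Vale.Agent.P101
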