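import Vale.Agent.P101.Basic

/-! # A C⋆-algebra without characters is generated, as an ideal, by its commutators -/

open Filter Topology

noncomputable section

namespace Vale.Agent.P101

theorem genOne_iff {E : Type*} [Ring E] {S : Set E} :
    GenOne S ↔ (1 : E) ∈ Ideal.span {z : E | ∃ s ∈ S, ∃ b, z = s * b} := by
  constructor
  · rintro ⟨n, a, s, b, hs, h⟩
    rw [← h]
    refine sum_mem fun i _ => ?_
    rw [mul_assoc]
    exact Ideal.mul_mem_left _ _ (Ideal.subset_span ⟨s i, hs i, b i, rfl⟩)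
  · intro h
    obtain ⟨n, f, g, h1⟩ := (Submodule.mem_span_set' ).1 h
    choose s hs b hb using fun i => (g i).2
    refine ⟨n, f, s, b, hs, ?_⟩
    rw [← h1]
    refine Finset.sum_congr rfl fun i _ => ?_
    rw [smul_eq_mul, hb i, mul_assoc]

section Quot

variable {E : Type*} [NormedRing E] [NormedAlgebra ℂ E] [CompleteSpace E]

/-- The quotient of a Banach algebra by a closed two-sided ideal is a normed ring. -/
@[instance_reducible]
def quotNormedRing (M : Ideal E) [M.IsTwoSided] [IsClosed (M : Set E)] : NormedRing (E ⧸ M) where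
  __ := Submodule.Quotient.normedAddCommGroup M
  __ := Ideal.Quotient.ring M
  dist_eq := dist_eq_norm_neg_add
  norm_mul_le := by
    intro x y
    have hlim : Tendsto (fun ε : ℝ => (‖x‖ + ε) * (‖y‖ + ε)) (𝓝[>] 0) (𝓝 (‖x‖ * ‖y‖)) := by
      have hc : Continuous (fun ε : ℝ => (‖x‖ + ε) * (‖y‖ + ε)) := by fun_prop
      simpa using (hc.tendsto 0).mono_left nhdsWithin_le_nhds
    refine ge_of_tendsto hlim ?_
    filter_upwards [self_mem_nhdsWithin] with ε hε
    obtain ⟨a, ha, ha2⟩ := Submodule.Quotient.norm_mk_lt x hε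
    obtain ⟨b, hb, hb2⟩ := Submodule.Quotient.norm_mk_lt y hε
    have h1 : x * y = Submodule.Quotient.mk (a * b) := by
      rw [← ha, ← hb]; rfl
    rw [h1]
    refine (Submodule.Quotient.norm_mk_le M (a * b)).trans ((norm_mul_le a b).trans ?_)
    exact mul_le_mul ha2.le hb2.le (norm_nonneg _) (add_nonneg (norm_nonneg x) (le_of_lt hε))

/-- A two-sided ideal, maximal as a left ideal and containing all commutators, is the kernel of
a complex homomorphism. -/
theorem exists_algHom_of_maximal (M : Ideal E) [M.IsTwoSided] [hM : M.IsMaximal]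
    (hcomm : ∀ x y : E, x * y - y * x ∈ M) : Nonempty (E →ₐ[ℂ] ℂ) := by
  let _ : NormedRing (E ⧸ M) := quotNormedRing M
  let _ : NormedAlgebra ℂ (E ⧸ M) :=
    { Submodule.Quotient.normedSpace M ℂ, Ideal.Quotient.algebra ℂ with }
  have _ : CompleteSpace (E ⧸ M) := Submodule.Quotient.completeSpace M
  have hunit : ∀ {a : E ⧸ M}, IsUnit a ↔ a ≠ 0 := by
    intro a
    obtain ⟨x, rfl⟩ := Ideal.Quotient.mk_surjective a
    constructor
    · intro h h0
      rw [h0] at h
      have h1 : (1 : E ⧸ M) = 0 := by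
        obtain ⟨u, hu⟩ := h
        calc (1 : E ⧸ M) = ↑u * ↑u⁻¹ := by simp
          _ = 0 := by rw [hu, zero_mul]
      have h2 : (1 : E) ∈ M := Ideal.Quotient.eq_zero_iff_mem.1 (by rw [map_one]; exact h1)
      exact hM.ne_top ((Ideal.eq_top_iff_one M).2 h2)
    · intro h
      have hx : x ∉ M := fun hx => h (Ideal.Quotient.eq_zero_iff_mem.2 hx)
      have htop : M ⊔ Ideal.span {x} = ⊤ := by
        refine hM.out.2 _ (lt_of_le_of_ne le_sup_left fun heq => hx ?_)
        rw [heq]
        exact Ideal.mem_sup_right (Ideal.mem_span_singleton_self x)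
      have h1 : (1 : E) ∈ M ⊔ Ideal.span {x} := by rw [htop]; trivial
      obtain ⟨m, hm, z, hz, hmz⟩ := Submodule.mem_sup.1 h1
      obtain ⟨y, rfl⟩ := Submodule.mem_span_singleton.1 hz
      have h2 : Ideal.Quotient.mk M y * Ideal.Quotient.mk M x = 1 := by
        rw [← map_mul, ← map_one (Ideal.Quotient.mk M), Ideal.Quotient.eq, ← neg_mem_iff]
        rw [← hmz, smul_eq_mul]
        simpa using hm
      have h3 : Ideal.Quotient.mk M x * Ideal.Quotient.mk M y = 1 := by
        rw [← h2, ← map_mul, ← map_mul, Ideal.Quotient.eq]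
        exact hcomm x y
      exact ⟨⟨_, _, h3, h2⟩, rfl⟩
  exact ⟨((NormedRing.algEquivComplexOfComplete (A := E ⧸ M) hunit).symm : (E ⧸ M) →ₐ[ℂ] ℂ).comp
    (Ideal.Quotient.mkₐ ℂ M)⟩

end Quot

/-- In a C⋆-algebra without characters the commutators generate the whole algebra as an ideal. -/
theorem genOne_commutators {E : Type*} [CStarAlgebra E] (h : IsEmpty (E →⋆ₐ[ℂ] ℂ)) :
    GenOne {z : E | ∃ x y, z = x * y - y * x} := by
  rw [genOne_iff]
  by_contra hJ
  have hJ' := (Ideal.ne_top_iff_one _).2 hJ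
  obtain ⟨M, hM, hJM⟩ := Ideal.exists_le_maximal _ hJ'
  have hcomm : ∀ x y b : E, (x * y - y * x) * b ∈ M := fun x y b =>
    hJM (Ideal.subset_span ⟨_, ⟨x, y, rfl⟩, b, rfl⟩)
  have hcomm1 : ∀ x y : E, x * y - y * x ∈ M := fun x y => by simpa using hcomm x y 1
  have _ : M.IsTwoSided := ⟨fun {a} b ha => by
    have h1 : a * b = (a * b - b * a) + b * a := by abel
    rw [h1]
    exact add_mem (hcomm1 a b) (Ideal.mul_mem_left _ _ ha)⟩
  obtain ⟨φ⟩ := exists_algHom_of_maximal M hcomm1
  have _ : StarHomClass (E →ₐ[ℂ] ℂ) E ℂ := WeakDual.Complex.instStarHomClass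
  exact h.false { φ with map_star' := fun x => map_star φ x }

end Vale.Agent.P101
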