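import Vale.Agent.P101.Copies

/-! # Lifting unitaries from `B_ω` -/

open Filter Topology TopologicalSpace BoundedContinuousFunction

noncomputable section

namespace Vale.Agent.P101

/-- An almost unitary element is close to a unitary. -/
theorem exists_unitary_near_js {B : Type*} [CStarAlgebra B] (w : B) (h1 : ‖star w * w - 1‖ ≤ 1 / 2)
    (h2 : ‖w * star w - 1‖ ≤ 1 / 2) :
    ∃ v ∈ unitary B, ‖v - w‖ ≤ ‖w‖ * ‖star w * w - 1‖ := by
  set h := star w * w with hh
  have hsa : IsSelfAdjoint h := IsSelfAdjoint.star_mul_self w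
  have hspec : ∀ t ∈ spectrum ℝ h, |t - 1| ≤ ‖h - 1‖ := by
    intro t ht
    have h3 : cfc (fun t : ℝ => t - 1) h = h - 1 := by
      rw [cfc_sub (fun t : ℝ => t) (fun _ => (1:ℝ)) h, cfc_id' ℝ h, cfc_const_one ℝ h]
    have h4 := norm_apply_le_norm_cfc (fun t : ℝ => t - 1) h ht
    rw [h3] at h4
    exact h4
  have hpos : ∀ t ∈ spectrum ℝ h, 1 / 2 ≤ t := by
    intro t ht
    have := (abs_le.1 ((hspec t ht).trans h1)).1
    linarith
  have hcont : ContinuousOn (fun t : ℝ => (√t)⁻¹) (spectrum ℝ h) := by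
    refine ContinuousOn.inv₀ Real.continuous_sqrt.continuousOn fun t ht => ?_
    have := hpos t ht
    exact (Real.sqrt_pos.2 (by linarith)).ne'
  have hcont2 : ContinuousOn (fun t : ℝ => √t) (spectrum ℝ h) := Real.continuous_sqrt.continuousOn
  set r := cfc (fun t : ℝ => (√t)⁻¹) h with hr
  set s := cfc (fun t : ℝ => √t) h with hs
  have hrsa : IsSelfAdjoint r := cfc_predicate _ _
  have hrs : r * s = 1 := by
    rw [hr, hs, ← cfc_mul _ _ h hcont hcont2, ← cfc_const_one ℝ h]
    refine cfc_congr fun t ht => ?_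
    have := hpos t ht
    exact inv_mul_cancel₀ (Real.sqrt_pos.2 (by linarith)).ne'
  have hsr : s * r = 1 := by
    rw [hr, hs, ← cfc_mul _ _ h hcont2 hcont, ← cfc_const_one ℝ h]
    refine cfc_congr fun t ht => ?_
    have := hpos t ht
    exact mul_inv_cancel₀ (Real.sqrt_pos.2 (by linarith)).ne'
  have hrhr : r * h * r = 1 := by
    have h5 : r * h * r = cfc (fun t : ℝ => (√t)⁻¹ * t * (√t)⁻¹) h := by
      rw [cfc_mul (fun t : ℝ => (√t)⁻¹ * t) (fun t : ℝ => (√t)⁻¹) h (hcont.mul continuousOn_id) hcont,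
        cfc_mul (fun t : ℝ => (√t)⁻¹) (fun t : ℝ => t) h hcont continuousOn_id, cfc_id' ℝ h]
    rw [h5, ← cfc_const_one ℝ h]
    refine cfc_congr fun t ht => ?_
    have ht' := hpos t ht
    have h6 : √t ≠ 0 := (Real.sqrt_pos.2 (by linarith)).ne'
    have h7 : √t * √t = t := Real.mul_self_sqrt (by linarith)
    change (√t)⁻¹ * t * (√t)⁻¹ = 1
    field_simp
    rw [sq, h7]
  have hunit : ∀ x : B, ‖x - 1‖ ≤ 1 / 2 → IsUnit x := by
    intro x hx
    have : ‖1 - x‖ < 1 := by rw [norm_sub_rev]; linarith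
    simpa using isUnit_one_sub_of_norm_lt_one this
  have hw : IsUnit w := by
    obtain ⟨a, ha⟩ := (hunit _ h1).exists_left_inv
    obtain ⟨b, hb⟩ := (hunit _ h2).exists_right_inv
    rw [isUnit_iff_exists_and_exists]
    exact ⟨⟨star w * b, by rw [← mul_assoc, hb]⟩, ⟨a * star w, by rw [mul_assoc, ← hh, ha]⟩⟩
  have hru : IsUnit r := ⟨⟨r, s, hrs, hsr⟩, rfl⟩
  refine ⟨w * r, ?_, ?_⟩
  · refine (hw.mul hru).mem_unitary_of_star_mul_self ?_
    rw [star_mul, hrsa.star_eq, mul_assoc, ← mul_assoc (star w), ← hh, ← mul_assoc, hrhr]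
  · have h8 : w * r - w = w * (r - 1) := by rw [mul_sub, mul_one]
    rw [h8]
    refine (norm_mul_le _ _).trans (mul_le_mul_of_nonneg_left ?_ (norm_nonneg _))
    have h9 : r - 1 = cfc (fun t : ℝ => (√t)⁻¹ - 1) h := by
      rw [cfc_sub (fun t : ℝ => (√t)⁻¹) (fun _ => (1:ℝ)) h hcont continuousOn_const,
        cfc_const_one ℝ h]
    rw [h9]
    refine norm_cfc_le (norm_nonneg _) fun t ht => ?_
    refine le_trans ?_ (hspec t ht)
    have ht' := hpos t ht
    have h10 : 0 < √t := Real.sqrt_pos.2 (by linarith)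
    have h11 : √t * √t = t := Real.mul_self_sqrt (by linarith)
    have h12 : (√t)⁻¹ - 1 = (1 - t) / (√t * (1 + √t)) := by
      field_simp
      nlinarith
    rw [Real.norm_eq_abs, h12, abs_div, abs_sub_comm 1 t, abs_of_pos (by positivity : 0 < √t * (1 + √t))]
    refine div_le_self (abs_nonneg _) ?_
    have h13 : (7:ℝ)/10 ≤ √t := by
      rw [Real.le_sqrt (by norm_num) (by linarith)]
      linarith
    nlinarith

variable {B : Type*} [CStarAlgebra B] {ω : Ultrafilter ℕ}

/-- Unitaries of `B_ω` lift to sequences of unitaries. -/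
theorem exists_unitary_lift (V : SeqAlg B ω) (hV : V ∈ unitary (SeqAlg B ω)) :
    ∃ v : ℕ →ᵇ B, (∀ n, v n ∈ unitary B) ∧ cls ω v = V := by
  classical
  obtain ⟨w, rfl⟩ := Ideal.Quotient.mk_surjective V
  have h1 : Tendsto (fun n => ‖star (w n) * w n - 1‖) ω (𝓝 0) := by
    have := Unitary.star_mul_self_of_mem hV
    rw [star_cls, ← map_mul, ← map_one (cls ω), cls_eq_cls] at this
    exact this
  have h2 : Tendsto (fun n => ‖w n * star (w n) - 1‖) ω (𝓝 0) := by
    have := Unitary.mul_star_self_of_mem hV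
    rw [star_cls, ← map_mul, ← map_one (cls ω), cls_eq_cls] at this
    exact this
  have hex : ∀ n, ∃ v ∈ unitary B, (‖star (w n) * w n - 1‖ ≤ 1 / 2 → ‖w n * star (w n) - 1‖ ≤ 1 / 2 →
      ‖v - w n‖ ≤ ‖w n‖ * ‖star (w n) * w n - 1‖) := by
    intro n
    by_cases ha : ‖star (w n) * w n - 1‖ ≤ 1 / 2
    · by_cases hb : ‖w n * star (w n) - 1‖ ≤ 1 / 2
      · obtain ⟨v, hv, hv'⟩ := exists_unitary_near_js (w n) ha hb
        exact ⟨v, hv, fun _ _ => hv'⟩
      · exact ⟨1, one_mem _, fun _ h => absurd h hb⟩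
    · exact ⟨1, one_mem _, fun h => absurd h ha⟩
  choose v hv hvw using hex
  let v' : ℕ →ᵇ B := BoundedContinuousFunction.ofNormedAddCommGroup v
    continuous_of_discreteTopology 1 (fun n => by
      rcases subsingleton_or_nontrivial B with hB | hB
      · rw [Subsingleton.elim (v n) 0, norm_zero]; norm_num
      · exact (CStarRing.norm_of_mem_unitary (hv n)).le)
  refine ⟨v', hv, ?_⟩
  rw [cls_eq_cls]
  have h3 : Tendsto (fun n => ‖w‖ * ‖star (w n) * w n - 1‖) ω (𝓝 0) := by
    simpa using h1.const_mul ‖w‖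
  refine squeeze_zero' (Eventually.of_forall fun _ => norm_nonneg _) ?_ h3
  filter_upwards [h1.eventually (gt_mem_nhds (show (0:ℝ) < 1 / 2 by norm_num)),
    h2.eventually (gt_mem_nhds (show (0:ℝ) < 1 / 2 by norm_num))] with n hn1 hn2
  exact (hvw n hn1.le hn2.le).trans (mul_le_mul_of_nonneg_right (w.norm_coe_le_norm n) (norm_nonneg _))

theorem norm_constSeq (b : B) : ‖constSeq B ω b‖ = ‖b‖ := by
  have := tendsto_norm_cls (ω := ω) (BoundedContinuousFunction.const ℕ b)
  exact tendsto_nhds_unique this tendsto_const_nhds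

theorem constSeq_injective : Function.Injective (constSeq B ω) := by
  rw [injective_iff_map_eq_zero]
  intro b hb
  rw [← norm_eq_zero, ← norm_constSeq (ω := ω) b, hb, norm_zero]

end Vale.Agent.P101
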