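import Vale.Agent.P101.Tensor
import Vale.Agent.P101.JSIntertwine
import Vale.Agent.P101.UnitaryLift

/-! # From a central copy of `Z` to `A ≅ A ⊗ Z` -/

open Filter Topology TopologicalSpace BoundedContinuousFunction
open scoped TensorProduct

noncomputable section

universe u

namespace Vale.Agent.P101

section functor

variable {A B : Type*} [CStarAlgebra A] [CStarAlgebra B] {ω : Ultrafilter ℕ}

/-- The homomorphism of sequence spaces induced by a homomorphism. -/
def mapSeq (φ : A →⋆ₐ[ℂ] B) : (ℕ →ᵇ A) →⋆ₐ[ℂ] (ℕ →ᵇ B) where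
  toFun := fun a => BoundedContinuousFunction.ofNormedAddCommGroup (fun n => φ (a n))
    continuous_of_discreteTopology ‖a‖
    (fun n => (NonUnitalStarAlgHom.norm_apply_le φ (a n)).trans (a.norm_coe_le_norm n))
  map_one' := by ext n; exact map_one φ
  map_mul' := fun a b => by ext n; exact map_mul φ _ _
  map_zero' := by ext n; exact map_zero φ
  map_add' := fun a b => by ext n; exact map_add φ _ _
  commutes' := fun r => by ext n; exact AlgHomClass.commutes φ r
  map_star' := fun a => by ext n; exact map_star φ _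

@[simp] theorem mapSeq_apply (φ : A →⋆ₐ[ℂ] B) (a : ℕ →ᵇ A) (n : ℕ) : mapSeq φ a n = φ (a n) := rfl

theorem exists_seqMap (φ : A →⋆ₐ[ℂ] B) (ω : Ultrafilter ℕ) :
    ∃ κ : SeqAlg A ω →⋆ₐ[ℂ] SeqAlg B ω, ∀ a, κ (cls ω a) = cls ω (mapSeq φ a) := by
  obtain ⟨κ, h1, -⟩ := exists_ext (clsHom A ω) ((clsHom B ω).comp (mapSeq φ)) (by
      intro x
      obtain ⟨a, rfl⟩ := Ideal.Quotient.mk_surjective x
      exact subset_closure ⟨a, rfl⟩) (by
      intro a
      refine le_of_tendsto_of_tendsto (tendsto_norm_cls (ω := ω) (mapSeq φ a))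
        (tendsto_norm_cls (ω := ω) a) (Eventually.of_forall fun n => ?_)
      exact NonUnitalStarAlgHom.norm_apply_le φ (a n))
  exact ⟨κ, h1⟩

end functor

section separable

variable {A Z Q : Type u} [CStarAlgebra A] [CStarAlgebra Z] [CStarAlgebra Q]

theorem isSeparable_tensorRange [SeparableSpace A] [SeparableSpace Z] (i : A →⋆ₐ[ℂ] Q)
    (j : Z →⋆ₐ[ℂ] Q) (h : ∀ a z, Commute (i a) (j z)) :
    SeparableSpace (tensorRange i j h) := by
  let S : Set Q := Set.range (fun n => i (denseSeq A n)) ∪ Set.range (fun n => j (denseSeq Z n))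
  let D : StarSubalgebra ℂ Q := (StarAlgebra.adjoin ℂ S).topologicalClosure
  have hDcl : IsClosed (D : Set Q) := isClosed_closure
  have hic : Continuous i := AddMonoidHomClass.continuous_of_bound i 1 fun a => by
    rw [one_mul]; exact NonUnitalStarAlgHom.norm_apply_le i a
  have hjc : Continuous j := AddMonoidHomClass.continuous_of_bound j 1 fun a => by
    rw [one_mul]; exact NonUnitalStarAlgHom.norm_apply_le j a
  have hi : ∀ a, i a ∈ D := by
    intro a
    have h1 : closure (Set.range (denseSeq A)) ⊆ i ⁻¹' (D : Set Q) := by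
      refine closure_minimal ?_ (hDcl.preimage hic)
      rintro _ ⟨n, rfl⟩
      exact subset_closure (StarAlgebra.subset_adjoin ℂ S (Or.inl ⟨n, rfl⟩))
    exact h1 (denseRange_denseSeq A a)
  have hj : ∀ a, j a ∈ D := by
    intro a
    have h1 : closure (Set.range (denseSeq Z)) ⊆ j ⁻¹' (D : Set Q) := by
      refine closure_minimal ?_ (hDcl.preimage hjc)
      rintro _ ⟨n, rfl⟩
      exact subset_closure (StarAlgebra.subset_adjoin ℂ S (Or.inr ⟨n, rfl⟩))
    exact h1 (denseRange_denseSeq Z a)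
  have hsub : (tensorRange i j h : Set Q) ⊆ D := by
    refine closure_minimal ?_ hDcl
    rintro _ ⟨x, rfl⟩
    change tensorMap i j h x ∈ D
    induction x with
    | zero => rw [map_zero]; exact zero_mem D
    | add x y hx hy => rw [map_add]; exact add_mem hx hy
    | tmul a b => rw [tensorMap_tmul]; exact mul_mem (hi a) (hj b)
  have hsep : IsSeparable (D : Set Q) :=
    (isSeparable_adjoin ((Set.countable_range _).union (Set.countable_range _))).closure
  exact (hsep.mono hsub).separableSpace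

end separable

section transfer

variable {A Z : Type u} [CStarAlgebra A] [CStarAlgebra Z] {ω : Ultrafilter ℕ}

theorem map_mem_unitary {B Q : Type*} [CStarAlgebra B] [CStarAlgebra Q] (Ψ : B →⋆ₐ[ℂ] Q) {u : B}
    (hu : u ∈ unitary B) : Ψ u ∈ unitary Q := by
  rw [Unitary.mem_iff] at hu ⊢
  rw [← map_star, ← map_mul, ← map_mul, hu.1, hu.2, map_one]
  exact ⟨rfl, rfl⟩

/-- The half flip argument, abstract form. -/
theorem transfer_abs {B Q S : Type u} [CStarAlgebra B] [CStarAlgebra Q] [CStarAlgebra S]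
    [Nontrivial Q]
    (hs : IsSimpleRing Z) (hn : IsNuclear Z) (hf : HasApproxInnerHalfFlip Z)
    (φ : A →⋆ₐ[ℂ] B) (j₁ : Z →⋆ₐ[ℂ] B) (hB : IsTensorCompletion φ j₁)
    (c : B →⋆ₐ[ℂ] Q) (hc : ∀ b, ‖c b‖ = ‖b‖) (hφ : ∀ a, ‖φ a‖ = ‖a‖)
    (κ : S →⋆ₐ[ℂ] Q) (k : A →⋆ₐ[ℂ] S) (hκ : ∀ a, κ (k a) = c (φ a))
    (jS : Z →⋆ₐ[ℂ] S) (hk : ∀ a z, Commute (k a) (jS z))
    (hcom : ∀ z s, Commute (c (j₁ z)) (κ s)) (b : B) (ε : ℝ) (hε : 0 < ε) :
    ∃ U ∈ unitary Q, (∀ a, Commute (c (φ a)) U) ∧ ∃ y : S, ‖U * c b * star U - κ y‖ < ε := by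
  classical
  let σ₁ : Z →⋆ₐ[ℂ] Q := c.comp j₁
  let σ₂ : Z →⋆ₐ[ℂ] Q := κ.comp jS
  have hσ₁ : Function.Injective σ₁ := RingHom.injective (σ₁ : Z →+* Q)
  obtain ⟨T, _, i₀, j₀, hT, hflip⟩ := hf
  have hσcom : ∀ z z', Commute (σ₁ z) (σ₂ z') := fun z z' => hcom z (jS z')
  obtain ⟨Ψ, hΨ1, hΨ2, hΨ3⟩ := exists_hom_of_nuclear hn i₀ j₀ hT.toIsTensorCompletion σ₁ σ₂
    hσcom hσ₁
  -- Ψ commutes with A
  have hΨA : ∀ a t, Commute (c (φ a)) (Ψ t) := by
    intro a t
    have hcl : IsClosed {x : Q | c (φ a) * x = x * c (φ a)} :=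
      isClosed_eq (continuous_const_mul _) (continuous_mul_const _)
    refine closure_minimal ?_ hcl (hΨ3 t)
    rintro _ ⟨x, rfl⟩
    change Commute (c (φ a)) _
    induction x with
    | zero => rw [map_zero]; exact Commute.zero_right _
    | add x y hx hy => rw [map_add]; exact hx.add_right hy
    | tmul z w =>
      rw [tensorMap_tmul]
      refine Commute.mul_right ?_ ?_
      · change Commute (c (φ a)) (c (j₁ z))
        exact (hB.comm a z).map c
      · change Commute (c (φ a)) (κ (jS w))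
        rw [← hκ]
        exact (hk a w).map κ
  -- approximate conjugation of elementary elements
  have key : ∀ (x : A ⊗[ℂ] Z) (δ : ℝ), 0 < δ → ∃ (G : Finset Z) (η : ℝ), 0 < η ∧
      ∀ u ∈ unitary T, (∀ z ∈ G, ‖u * i₀ z * star u - j₀ z‖ < η) →
        ∃ y : S, ‖Ψ u * c (tensorMap φ j₁ hB.comm x) * star (Ψ u) - κ y‖ < δ := by
    intro x
    induction x with
    | zero =>
      intro δ hδ
      refine ⟨∅, 1, one_pos, fun u hu _ => ⟨0, ?_⟩⟩
      rw [map_zero, map_zero, map_zero, mul_zero, zero_mul, sub_zero, norm_zero]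
      exact hδ
    | add x y hx hy =>
      intro δ hδ
      obtain ⟨G₁, η₁, hη₁, h1⟩ := hx (δ / 2) (half_pos hδ)
      obtain ⟨G₂, η₂, hη₂, h2⟩ := hy (δ / 2) (half_pos hδ)
      refine ⟨G₁ ∪ G₂, min η₁ η₂, lt_min hη₁ hη₂, fun u hu hG => ?_⟩
      obtain ⟨y₁, hy₁⟩ := h1 u hu fun z hz =>
        (hG z (Finset.mem_union_left _ hz)).trans_le (min_le_left _ _)
      obtain ⟨y₂, hy₂⟩ := h2 u hu fun z hz =>
        (hG z (Finset.mem_union_right _ hz)).trans_le (min_le_right _ _)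
      refine ⟨y₁ + y₂, ?_⟩
      have h3 : Ψ u * c (tensorMap φ j₁ hB.comm (x + y)) * star (Ψ u) - κ (y₁ + y₂) =
          (Ψ u * c (tensorMap φ j₁ hB.comm x) * star (Ψ u) - κ y₁) +
            (Ψ u * c (tensorMap φ j₁ hB.comm y) * star (Ψ u) - κ y₂) := by
        rw [map_add, map_add, map_add]
        noncomm_ring
      rw [h3]
      refine (norm_add_le _ _).trans_lt ?_
      linarith
    | tmul a z =>
      intro δ hδ
      refine ⟨{z}, δ / (‖a‖ + 1), by positivity, fun u hu hG => ?_⟩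
      refine ⟨k a * jS z, ?_⟩
      have h3 : Ψ u * c (tensorMap φ j₁ hB.comm (a ⊗ₜ z)) * star (Ψ u) - κ (k a * jS z) =
          c (φ a) * Ψ (u * i₀ z * star u - j₀ z) := by
        rw [tensorMap_tmul, map_mul c, ← mul_assoc, ← (hΨA a u).eq, map_mul κ, hκ, map_sub,
          map_mul Ψ, map_mul Ψ, map_star, hΨ1, hΨ2]
        change c (φ a) * Ψ u * c (j₁ z) * star (Ψ u) - c (φ a) * κ (jS z) = c (φ a) *
            (Ψ u * c (j₁ z) * star (Ψ u) - κ (jS z))
        noncomm_ring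
      rw [h3]
      refine (norm_mul_le _ _).trans_lt ?_
      have h4 : ‖Ψ (u * i₀ z * star u - j₀ z)‖ ≤ ‖u * i₀ z * star u - j₀ z‖ :=
        NonUnitalStarAlgHom.norm_apply_le Ψ _
      have h5 := hG z (Finset.mem_singleton_self z)
      rw [hc, hφ]
      calc ‖a‖ * ‖Ψ (u * i₀ z * star u - j₀ z)‖ ≤ ‖a‖ * (δ / (‖a‖ + 1)) :=
            mul_le_mul_of_nonneg_left (h4.trans h5.le) (norm_nonneg _)
        _ < (‖a‖ + 1) * (δ / (‖a‖ + 1)) := by
            refine mul_lt_mul_of_pos_right (lt_add_one _) (by positivity)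
        _ = δ := by field_simp
  -- approximate b
  obtain ⟨_, ⟨x, rfl⟩, hx⟩ := Metric.mem_closure_iff.1 (hB.denseRange b) (ε / 2) (half_pos hε)
  obtain ⟨G, η, hη, hG⟩ := key x (ε / 2) (half_pos hε)
  obtain ⟨u, hu, hu'⟩ := hflip G η hη
  obtain ⟨y, hy⟩ := hG u hu hu'
  have hu1 : Ψ u ∈ unitary Q := map_mem_unitary Ψ hu
  refine ⟨Ψ u, hu1, fun a => hΨA a u, y, ?_⟩
  have h3 : Ψ u * c b * star (Ψ u) - κ y =
      Ψ u * c (b - tensorMap φ j₁ hB.comm x) * star (Ψ u) +
      (Ψ u * c (tensorMap φ j₁ hB.comm x) * star (Ψ u) - κ y) := by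
    rw [map_sub]
    noncomm_ring
  rw [h3]
  refine (norm_add_le _ _).trans_lt ?_
  rw [norm_unitary_conj _ hu1, hc, ← dist_eq_norm]
  linarith

/-- Passing from `B_ω` to `B`. -/
theorem transfer_lift {A B : Type*} [CStarAlgebra A] [CStarAlgebra B] (φ : A →⋆ₐ[ℂ] B)
    (κ : SeqAlg A ω →⋆ₐ[ℂ] SeqAlg B ω) (hκ : ∀ a, κ (cls ω a) = cls ω (mapSeq φ a))
    (U : SeqAlg B ω) (hU : U ∈ unitary (SeqAlg B ω))
    (hUA : ∀ a, Commute (constSeq B ω (φ a)) U) (b : B) (ε : ℝ) (hε : 0 < ε) (y : SeqAlg A ω)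
    (hy : ‖U * constSeq B ω b * star U - κ y‖ < ε) (F : Finset A) :
    ∃ v ∈ unitary B, (∀ a ∈ F, ‖v * φ a - φ a * v‖ < ε) ∧ (∃ a, ‖star v * b * v - φ a‖ < ε) := by
  obtain ⟨v, hv, rfl⟩ := exists_unitary_lift U hU
  obtain ⟨a, rfl⟩ := Ideal.Quotient.mk_surjective y
  rw [hκ, constSeq_apply, star_cls, ← map_mul, ← map_mul, ← map_sub] at hy
  have h1 := (tendsto_norm_cls (ω := ω) (v * BoundedContinuousFunction.const ℕ b * star v -
    mapSeq φ a)).eventually (gt_mem_nhds hy)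
  have h2 : ∀ᶠ n in (ω : Filter ℕ), ∀ c ∈ F, ‖φ c * v n - v n * φ c‖ < ε := by
    rw [Filter.eventually_all_finset]
    intro c _
    have h3 := hUA c
    rw [constSeq_apply, commute_iff_eq, ← map_mul, ← map_mul, cls_eq_cls] at h3
    exact h3.eventually (gt_mem_nhds hε)
  obtain ⟨n, hn1, hn2⟩ := (h1.and h2).exists
  refine ⟨star (v n), Unitary.star_mem (hv n), fun c hc => ?_, ⟨a n, ?_⟩⟩
  · have h4 : star (v n) * φ c - φ c * star (v n) =
        star (v n) * (φ c * v n - v n * φ c) * star (v n) := by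
      have h5 : star (v n) * v n = 1 := Unitary.star_mul_self_of_mem (hv n)
      have h6 : v n * star (v n) = 1 := Unitary.mul_star_self_of_mem (hv n)
      calc star (v n) * φ c - φ c * star (v n) = star (v n) * φ c * 1 - 1 * φ c * star (v n) := by
            rw [mul_one, one_mul]
        _ = star (v n) * φ c * (v n * star (v n)) - (star (v n) * v n) * φ c * star (v n) := by
            rw [h5, h6]
        _ = _ := by noncomm_ring
    rw [h4, CStarRing.norm_mul_mem_unitary _ (Unitary.star_mem (hv n)),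
      CStarRing.norm_mem_unitary_mul _ (Unitary.star_mem (hv n))]
    exact hn2 c hc
  · rw [star_star]
    exact hn1

theorem transfer {B : Type u} [CStarAlgebra B] [Nontrivial B] (hs : IsSimpleRing Z)
    (hn : IsNuclear Z) (hf : HasApproxInnerHalfFlip Z)
    (φ : A →⋆ₐ[ℂ] B) (j₁ : Z →⋆ₐ[ℂ] B) (hB : IsTensorCompletion φ j₁)
    (hφ : ∀ a, ‖φ a‖ = ‖a‖) (jS : Z →⋆ₐ[ℂ] SeqAlg A ω)
    (hk : ∀ a z, Commute (constSeq A ω a) (jS z)) (F : Finset A) (b : B) (ε : ℝ) (hε : 0 < ε) :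
    ∃ v ∈ unitary B, (∀ a ∈ F, ‖v * φ a - φ a * v‖ < ε) ∧ (∃ a, ‖star v * b * v - φ a‖ < ε) := by
  obtain ⟨κ, hκ⟩ := exists_seqMap φ ω
  have hnt : Nontrivial (SeqAlg B ω) := (constSeq_injective (B := B) (ω := ω)).nontrivial
  have hcom : ∀ z x, Commute (constSeq B ω (j₁ z)) (κ x) := by
    intro z x
    obtain ⟨a, rfl⟩ := Ideal.Quotient.mk_surjective x
    rw [hκ, constSeq_apply, commute_iff_eq, ← map_mul, ← map_mul]
    congr 1
    ext n : 1
    exact (hB.comm (a n) z).symm.eq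
  have hκconst : ∀ a, κ (constSeq A ω a) = constSeq B ω (φ a) := by
    intro a
    rw [constSeq_apply, hκ]
    rfl
  obtain ⟨U, hU, hUA, y, hy⟩ := transfer_abs hs hn hf φ j₁ hB (constSeq B ω) norm_constSeq hφ κ
    (constSeq A ω) hκconst jS hk hcom b ε hε
  exact transfer_lift φ κ hκ U hU hUA b ε hε y hy F

/-- A unital central copy of a `Z` with the right properties makes `A` absorb `Z`. -/
theorem tensorAbsorbs_of_hom [Nontrivial A] [SeparableSpace A] (hsep : SeparableSpace Z)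
    (hs : IsSimpleRing Z) (hn : IsNuclear Z) (hf : HasApproxInnerHalfFlip Z)
    (σ : Z →⋆ₐ[ℂ] centralSeq A ω) : CompletionAbsorbs A Z := by
  have h : ∀ a z, Commute (constSeq A ω a) (((centralSeq A ω).subtype.comp σ) z) :=
    fun a z => mem_centralSeq.1 (σ z).2 a
  have hB : SeparableSpace (tensorRange (constSeq A ω) ((centralSeq A ω).subtype.comp σ) h) :=
    isSeparable_tensorRange _ _ h
  have hmin := isMinTensor_range hn (constSeq A ω)
    ((centralSeq A ω).subtype.comp σ) h constSeq_injective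
  have hnorm : ∀ a, ‖tensorRangeLeft (constSeq A ω) ((centralSeq A ω).subtype.comp σ) h a‖ = ‖a‖ :=
    fun a => norm_constSeq a
  have hinj : Function.Injective
      (tensorRangeLeft (constSeq A ω) ((centralSeq A ω).subtype.comp σ) h) := fun x y hxy =>
    constSeq_injective (ω := ω) (congrArg Subtype.val hxy)
  have hnt : Nontrivial (tensorRange (constSeq A ω) ((centralSeq A ω).subtype.comp σ) h) :=
    hinj.nontrivial
  refine ⟨_, inferInstance, _, _, hmin, ?_⟩
  refine exists_equiv_of_intertwining _ hinj fun F b ε hε => ?_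
  exact transfer hs hn hf _ _ hmin.toIsTensorCompletion hnorm _ h F b ε hε

end transfer

end Vale.Agent.P101
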