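import Vale.Agent.P101.CliffOne

/-! Several fermionic modes from a full square zero element in an algebra with copies. -/

namespace Vale.Agent.P101

section multi

variable {E : Type*} [CStarAlgebra E] [PartialOrder E] [StarOrderedRing E]

theorem cl_multi (hcp : HasCopies E) (z : E) (hz : z * z = 0) (hg : GenOne {z}) (k : ℕ) :
    ∃ (ι : Type) (_ : Fintype ι) (a : Fin (k + 1) → E) (r Γ g w : E) (V : ι → E),
      Cl a r Γ g w V ∧ 0 ≤ 1 - r * r := by
  obtain ⟨K, a, r, Γ, g, w, q, V, hcl, hq⟩ := cl_one z hz hg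
  obtain ⟨S, hS⟩ : ∃ S : Set E, S = {a 0, r, Γ, g, w, q} ∪ Set.range V := ⟨_, rfl⟩
  have hSfin : S.Finite := by
    rw [hS]
    exact (Set.toFinite _).union (Set.finite_range V)
  obtain ⟨ρ, hρ⟩ := hcp S hSfin
  have sub : ∀ x ∈ S, x ∈ StarAlgebra.adjoin ℂ S := fun x hx => StarAlgebra.subset_adjoin ℂ S hx
  have ma : a 0 ∈ S := by rw [hS]; simp
  have mr : r ∈ S := by rw [hS]; simp
  have mΓ : Γ ∈ S := by rw [hS]; simp
  have mg : g ∈ S := by rw [hS]; simp
  have mw : w ∈ S := by rw [hS]; simp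
  have mq : q ∈ S := by rw [hS]; simp
  have mV : ∀ l, V l ∈ S := by intro l; rw [hS]; exact Or.inr ⟨l, rfl⟩
  have hD : Cl (Q := StarAlgebra.adjoin ℂ S) (fun _ : Fin 1 => ⟨a 0, sub _ ma⟩) ⟨r, sub _ mr⟩
      ⟨Γ, sub _ mΓ⟩ ⟨g, sub _ mg⟩ ⟨w, sub _ mw⟩ (fun l => ⟨V l, sub _ (mV l)⟩) := by
    refine Cl.of_injective (StarAlgebra.adjoin ℂ S).subtype Subtype.val_injective ?_
    have e : a = fun _ => a 0 := by
      ext i
      rw [Subsingleton.elim i 0]
    rw [e] at hcl
    exact hcl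
  have hqD : star (⟨q, sub _ mq⟩ : StarAlgebra.adjoin ℂ S) * ⟨q, sub _ mq⟩ =
      1 - (⟨r, sub _ mr⟩ : StarAlgebra.adjoin ℂ S) * ⟨r, sub _ mr⟩ := Subtype.ext hq
  generalize (fun _ : Fin 1 => (⟨a 0, sub _ ma⟩ : StarAlgebra.adjoin ℂ S)) = aD at hD
  generalize (⟨r, sub _ mr⟩ : StarAlgebra.adjoin ℂ S) = rD at hD hqD
  generalize (⟨Γ, sub _ mΓ⟩ : StarAlgebra.adjoin ℂ S) = ΓD at hD
  generalize (⟨g, sub _ mg⟩ : StarAlgebra.adjoin ℂ S) = gD at hD
  generalize (⟨w, sub _ mw⟩ : StarAlgebra.adjoin ℂ S) = wD at hD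
  generalize (⟨q, sub _ mq⟩ : StarAlgebra.adjoin ℂ S) = qD at hqD
  generalize (fun l => (⟨V l, sub _ (mV l)⟩ : StarAlgebra.adjoin ℂ S)) = VD at hD
  suffices h : ∀ k : ℕ, ∃ (ι : Type) (_ : Fintype ι) (a : Fin (k + 1) → E) (r Γ g w : E)
      (V : ι → E), Cl a r Γ g w V ∧ 0 ≤ 1 - r * r ∧ ∀ j, k < j → ∀ y, (∀ i, Commute (a i) (ρ j y))
        ∧ Commute r (ρ j y) ∧ Commute Γ (ρ j y) ∧ Commute g (ρ j y) ∧ Commute w (ρ j y) ∧
        (∀ l, Commute (V l) (ρ j y)) by
    obtain ⟨ι, hι, a, r, Γ, g, w, V, h1, h2, -⟩ := h k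
    exact ⟨ι, hι, a, r, Γ, g, w, V, h1, h2⟩
  intro k
  induction k with
  | zero =>
    refine ⟨Fin K, inferInstance, fun i => ρ 0 (aD i), ρ 0 rD, ρ 0 ΓD, ρ 0 gD, ρ 0 wD,
      fun l => ρ 0 (VD l), hD.map (ρ 0), ?_, ?_⟩
    · rw [← map_mul, ← map_one (ρ 0), ← map_sub, ← hqD, map_mul, map_star]
      exact star_mul_self_nonneg _
    · intro j hj y
      have : (0 : ℕ) ≠ j := by omega
      exact ⟨fun i => hρ _ _ this _ _, hρ _ _ this _ _, hρ _ _ this _ _, hρ _ _ this _ _,
        hρ _ _ this _ _, fun l => hρ _ _ this _ _⟩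
  | succ k ih =>
    obtain ⟨ι, hι, a, r, Γ, g, w, V, h1, h2, h3⟩ := ih
    have h4 := hD.map (ρ (k + 1))
    refine ⟨ι × Fin K, inferInstance, _, _, _, _, _, _, h1.combine h4 (Set.range (ρ (k + 1)))
      ?_ ⟨_, rfl⟩ ⟨_, rfl⟩ ⟨_, rfl⟩ ⟨_, rfl⟩ ⟨_, rfl⟩ (fun l => ⟨_, rfl⟩) ?_ ?_ ?_ ?_ ?_ ?_, ?_, ?_⟩
    · rintro _ ⟨y, rfl⟩
      exact ⟨star y, map_star _ _⟩
    · rintro i _ ⟨y, rfl⟩
      exact (h3 (k + 1) (by omega) y).1 i
    · rintro _ ⟨y, rfl⟩
      exact (h3 (k + 1) (by omega) y).2.1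
    · rintro _ ⟨y, rfl⟩
      exact (h3 (k + 1) (by omega) y).2.2.1
    · rintro _ ⟨y, rfl⟩
      exact (h3 (k + 1) (by omega) y).2.2.2.1
    · rintro _ ⟨y, rfl⟩
      exact (h3 (k + 1) (by omega) y).2.2.2.2.1
    · rintro l _ ⟨y, rfl⟩
      exact (h3 (k + 1) (by omega) y).2.2.2.2.2 l
    · have cr : ∀ y, Commute r (ρ (k + 1) y) := fun y => (h3 (k + 1) (by omega) y).2.1
      have e1 : 1 - r * ρ (k + 1) rD * (r * ρ (k + 1) rD) =
          (1 - r * r) + star (ρ (k + 1) qD * r) * (ρ (k + 1) qD * r) := by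
        have e2 : star (ρ (k + 1) qD * r) * (ρ (k + 1) qD * r) =
            r * r * (1 - ρ (k + 1) rD * ρ (k + 1) rD) := by
          rw [← map_mul, ← map_one (ρ (k + 1)), ← map_sub, ← hqD, star_mul, h1.r_sa, ← map_star]
          rw [mul_assoc, ← mul_assoc (ρ (k + 1) (star qD)), ← map_mul, ← (cr _).eq, mul_assoc]
        rw [e2, (cr _).symm.mul_mul_mul_comm, mul_sub, mul_one]
        abel
      rw [e1]
      exact add_nonneg h2 (star_mul_self_nonneg _)
    · intro j hj y
      have hj' : k + 1 ≠ j := by omega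
      obtain ⟨c1, c2, c3, c4, c5, c6⟩ := h3 j (by omega) y
      refine ⟨?_, c2.mul_left (hρ _ _ hj' _ _), c3.mul_left (hρ _ _ hj' _ _),
        c4.mul_left (hρ _ _ hj' _ _), c5.mul_left (hρ _ _ hj' _ _),
        fun l => (c6 _).mul_left (hρ _ _ hj' _ _)⟩
      intro i
      induction i using Fin.lastCases with
      | last =>
        rw [Fin.snoc_last]
        exact c3.mul_left (hρ _ _ hj' _ _)
      | cast i =>
        rw [Fin.snoc_castSucc]
        exact (c1 i).mul_left (hρ _ _ hj' _ _)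

end multi

section ender

noncomputable def eC (t : ℝ) : ℝ := 1 - ramp (1 / 3) 1 t
noncomputable def eS (t : ℝ) : ℝ := √(1 - eC t * eC t)
noncomputable def eH (t : ℝ) : ℝ := eC t / min (t - 1) (-(1 / 3))
noncomputable def eH2 (t : ℝ) : ℝ := (eS t - 1) / min (t - 1) (-(1 / 3))
noncomputable def eH3 (t : ℝ) : ℝ := eS t / max t (1 / 3)

theorem min_ne' (t : ℝ) : min (t - 1) (-(1 / 3) : ℝ) ≠ 0 :=
  (min_lt_of_right_lt (by norm_num)).ne

theorem eC_cont : Continuous eC := continuous_const.sub (ramp_cont _ _)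
theorem eS_cont : Continuous eS := (continuous_const.sub (eC_cont.mul eC_cont)).sqrt
theorem eH_cont : Continuous eH :=
  eC_cont.div ((continuous_id.sub continuous_const).min continuous_const) min_ne'
theorem eH2_cont : Continuous eH2 :=
  (eS_cont.sub continuous_const).div
    ((continuous_id.sub continuous_const).min continuous_const) min_ne'
theorem eH3_cont : Continuous eH3 :=
  eS_cont.div (continuous_id.max continuous_const) (max_ne (by norm_num))

theorem eC_zero {t : ℝ} (h : 2 / 3 ≤ t) : eC t = 0 := by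
  unfold eC
  rw [ramp_eq_one (by norm_num) (by linarith), sub_self]

theorem eC_one {t : ℝ} (h : t ≤ 1 / 3) : eC t = 1 := by
  unfold eC
  rw [ramp_eq_zero (by norm_num) (by linarith), sub_zero]

theorem id_CS (t : ℝ) : eC t * eC t + eS t * eS t = 1 := by
  unfold eS
  have h1 : 0 ≤ eC t := by unfold eC; linarith [ramp_le_one (1 / 3) 1 t]
  have h2 : eC t ≤ 1 := by unfold eC; linarith [ramp_nonneg (1 / 3) 1 t]
  rw [Real.mul_self_sqrt (by nlinarith)]
  ring

theorem id_H (t : ℝ) : (t - 1) * eH t = eC t := by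
  unfold eH
  rcases le_total t (2 / 3) with h | h
  · rw [min_eq_left (by linarith)]
    have : t - 1 ≠ 0 := by linarith
    field_simp
  · rw [eC_zero h]
    simp

theorem id_H2 (t : ℝ) : (t - 1) * eH2 t = eS t - 1 := by
  unfold eH2
  rcases le_total t (2 / 3) with h | h
  · rw [min_eq_left (by linarith)]
    have : t - 1 ≠ 0 := by linarith
    field_simp
  · have : eS t = 1 := by
      unfold eS
      rw [eC_zero h]
      simp
    rw [this]
    simp

theorem id_H3 (t : ℝ) : t * eH3 t = eS t := by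
  unfold eH3
  rcases le_total t (1 / 3) with h | h
  · have : eS t = 0 := by
      unfold eS
      rw [eC_one h]
      simp
    rw [this]
    simp
  · rw [max_eq_left h]
    have : t ≠ 0 := by linarith
    field_simp

variable {E : Type*} [CStarAlgebra E] [PartialOrder E] [StarOrderedRing E]

theorem cliff_end {m : ℕ} {ι : Type*} [Fintype ι] {a : Fin m → E} {r Γ g w : E} {V : ι → E}
    (h : Cl a r Γ g w V) (hr : 0 ≤ 1 - r * r) :
    ∃ b : E, star b * b = 1 - r * r ∧ b * star b = 1 - r * r ∧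
      (∀ i, a i * b + b * a i = 0) ∧ (∀ i, star (a i) * b + b * star (a i) = 0) := by
  have hw : IsSelfAdjoint w := h.w_sa
  obtain ⟨C, hC⟩ : ∃ C, C = cfc eC w := ⟨_, rfl⟩
  obtain ⟨S, hS⟩ : ∃ S, S = cfc eS w := ⟨_, rfl⟩
  obtain ⟨y, hy⟩ : ∃ y, y = CFC.sqrt (1 - r * r) := ⟨_, rfl⟩
  have hCsa : star C = C := by rw [hC]; exact (cfc_predicate eC w : IsSelfAdjoint _)
  have hSsa : star S = S := by rw [hS]; exact (cfc_predicate eS w : IsSelfAdjoint _)
  have hysa : star y = y := by rw [hy]; exact (CFC.sqrt_nonneg _).isSelfAdjoint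
  have hyy : y * y = 1 - r * r := by rw [hy]; exact CFC.sqrt_mul_sqrt_self _ hr
  have hCH : C = (w - 1) * cfc eH w := by
    rw [hC]
    have e1 : w - 1 = cfc (fun t : ℝ => t - 1) w := by
      rw [cfc_sub (fun t : ℝ => t) (fun _ => (1 : ℝ)) w, cfc_id' ℝ w, cfc_const_one ℝ w]
    rw [e1, ← cfc_mul (fun t : ℝ => t - 1) eH w (by fun_prop) eH_cont.continuousOn]
    exact cfc_congr fun t _ => (id_H t).symm
  have hSH : S - 1 = (w - 1) * cfc eH2 w := by
    rw [hS]
    have e1 : w - 1 = cfc (fun t : ℝ => t - 1) w := by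
      rw [cfc_sub (fun t : ℝ => t) (fun _ => (1 : ℝ)) w, cfc_id' ℝ w, cfc_const_one ℝ w]
    have e2 : cfc eS w - 1 = cfc (fun t : ℝ => eS t - 1) w := by
      rw [cfc_sub (fun t : ℝ => eS t) (fun _ => (1 : ℝ)) w eS_cont.continuousOn
        continuousOn_const, cfc_const_one ℝ w]
    rw [e1, e2, ← cfc_mul (fun t : ℝ => t - 1) eH2 w (by fun_prop) eH2_cont.continuousOn]
    exact cfc_congr fun t _ => (id_H2 t).symm
  have hSH3 : S = w * cfc eH3 w := by
    rw [hS]
    conv_rhs => rw [← cfc_id' ℝ w]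
    rw [cfc_id' ℝ w]
    nth_rewrite 2 [← cfc_id' ℝ w]
    rw [← cfc_mul (fun t : ℝ => t) eH3 w (by fun_prop) eH3_cont.continuousOn]
    exact cfc_congr fun t _ => (id_H3 t).symm
  have hCS : C * C + S * S = 1 := by
    rw [hC, hS, ← cfc_mul eC eC w eC_cont.continuousOn eC_cont.continuousOn,
      ← cfc_mul eS eS w eS_cont.continuousOn eS_cont.continuousOn,
      ← cfc_add w (fun t => eC t * eC t) (fun t => eS t * eS t)
        (eC_cont.mul eC_cont).continuousOn (eS_cont.mul eS_cont).continuousOn]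
    rw [← cfc_const_one ℝ w]
    exact cfc_congr fun t _ => id_CS t
  have wf : ∀ (f : ℝ → ℝ) (x : E), Commute w x → Commute (cfc f w) x :=
    fun f x hx => hx.cfc_real f
  have cSC : Commute C S := by
    rw [hC, hS]
    exact wf _ _ ((wf _ _ (Commute.refl w)).symm)
  have cgC : Commute C g := by rw [hC]; exact wf _ _ (show Commute w g from h.gw.symm)
  have cgS : Commute S g := by rw [hS]; exact wf _ _ (show Commute w g from h.gw.symm)
  have ggS : g * g * S = S := by
    rw [hSH3, ← mul_assoc, h.ggw]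
  have rw' : r * w = r := by
    have := congrArg star h.wr
    rwa [star_mul, h.r_sa, h.w_sa] at this
  have cwr : Commute w r := by
    show w * r = r * w
    rw [h.wr, rw']
  have cyr : ∀ x, Commute r x → Commute y x := by
    intro x hx
    rw [hy]
    have : Commute (1 - r * r) x := (Commute.one_left x).sub_left (hx.mul_left hx)
    exact this.cfcₙ_nnreal _
  have cyg : Commute y g := cyr _ (show Commute r g from h.gr.symm)
  have cyw : Commute y w := cyr _ cwr.symm
  have cyC : Commute y C := by rw [hC]; exact (wf _ _ cyw.symm).symm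
  have cyS : Commute y S := by rw [hS]; exact (wf _ _ cyw.symm).symm
  obtain ⟨b0, hb0⟩ : ∃ b0, b0 = C - Complex.I • (g * S) := ⟨_, rfl⟩
  have cyb0 : Commute y b0 := by
    rw [hb0]
    exact cyC.sub_right ((cyg.mul_right cyS).smul_right _)
  have sb0 : star b0 = C + Complex.I • (g * S) := by
    rw [hb0, star_sub, star_smul, star_mul, hCsa, hSsa, h.g_sa, ← cgS.eq]
    simp
  have hgs : (g * S) * (g * S) = S * S := by
    rw [cgS.mul_mul_mul_comm, ← mul_assoc, ggS]
  have cCgS : Commute C (g * S) := cgC.mul_right cSC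
  have b01 : b0 * star b0 = 1 := by
    rw [sb0, hb0, ← hCS, ← hgs]
    rw [sub_mul, mul_add, mul_add, mul_smul_comm, smul_mul_assoc, smul_mul_assoc,
      mul_smul_comm, smul_smul, Complex.I_mul_I, cCgS.eq, neg_one_smul]
    abel
  have b02 : star b0 * b0 = 1 := by
    rw [sb0, hb0, ← hCS, ← hgs]
    rw [add_mul, mul_sub, mul_sub, mul_smul_comm, smul_mul_assoc, smul_mul_assoc,
      mul_smul_comm, smul_smul, Complex.I_mul_I, cCgS.eq, neg_one_smul]
    abel
  have key : ∀ x : E, w * x = x → x * w = x → g * x + x * g = 0 → r * x = x * r →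
      x * (y * b0) + (y * b0) * x = 0 := by
    intro x h1 h2 h3 h4
    have k1 : C * x = 0 := by
      rw [hCH]
      have : Commute (cfc eH w) (w - 1) := wf _ _ ((Commute.refl w).sub_right (Commute.one_right w))
      rw [← this.eq, mul_assoc, sub_mul, h1, one_mul, sub_self, mul_zero]
    have k2 : x * C = 0 := by
      rw [hCH, ← mul_assoc, mul_sub, h2, mul_one, sub_self, zero_mul]
    have k3 : S * x = x := by
      have : (S - 1) * x = 0 := by
        rw [hSH]
        have : Commute (cfc eH2 w) (w - 1) :=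
          wf _ _ ((Commute.refl w).sub_right (Commute.one_right w))
        rw [← this.eq, mul_assoc, sub_mul, h1, one_mul, sub_self, mul_zero]
      rwa [sub_mul, one_mul, sub_eq_zero] at this
    have k4 : x * S = x := by
      have : x * (S - 1) = 0 := by
        rw [hSH, ← mul_assoc, mul_sub, h2, mul_one, sub_self, zero_mul]
      rwa [mul_sub, mul_one, sub_eq_zero] at this
    have k5 : x * b0 = -(Complex.I • (x * g)) := by
      rw [hb0, mul_sub, k2, mul_smul_comm, cgS.symm.eq, ← mul_assoc, k4, zero_sub]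
    have k6 : b0 * x = -(Complex.I • (g * x)) := by
      rw [hb0, sub_mul, k1, smul_mul_assoc, mul_assoc, k3, zero_sub]
    have k7 : x * y = y * x := (cyr _ h4).eq.symm
    rw [← mul_assoc, k7, mul_assoc, k5, mul_assoc, k6, ← mul_add, ← neg_add, ← smul_add,
      add_comm, h3]
    simp
  refine ⟨y * b0, ?_, ?_, ?_, ?_⟩
  · rw [star_mul, hysa, mul_assoc, ← mul_assoc y, hyy]
    have : Commute (1 - r * r) b0 := by rw [← hyy]; exact cyb0.mul_left cyb0
    rw [this.eq, ← mul_assoc, b02, one_mul]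
  · rw [star_mul, hysa, mul_assoc, ← mul_assoc b0, b01, one_mul, hyy]
  · intro i
    exact key _ (h.wa i) (h.aw i) (h.ga i) (h.ra i)
  · intro i
    refine key _ ?_ ?_ ?_ ?_
    · have := congrArg star (h.aw i)
      rwa [star_mul, h.w_sa] at this
    · have := congrArg star (h.wa i)
      rwa [star_mul, h.w_sa] at this
    · have := congrArg star (h.ga i)
      rwa [star_add, star_mul, star_mul, h.g_sa, star_zero, add_comm] at this
    · have := congrArg star (h.ra i)
      rw [star_mul, star_mul, h.r_sa] at this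
      exact this.symm

/-- Clifford data from a full square zero element in an algebra with copies. -/
theorem cliffordData (hcp : HasCopies E) (z : E) (hz : z * z = 0) (hg : GenOne {z}) (k : ℕ) :
    ∃ (K : ℕ) (a : Fin (k + 1) → E) (b : E) (V : Fin K → E),
      (∀ i j, a i * a j + a j * a i = 0) ∧
      (∀ i j, a i * star (a j) + star (a j) * a i = if i = j then 1 - star b * b else 0) ∧
      (∀ i, a i * b + b * a i = 0) ∧
      (∀ i, star (a i) * b + b * star (a i) = 0) ∧
      b * star b = star b * b ∧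
      (∀ i l, a i * V l = 0) ∧
      (∀ i l, a i * star (a i) * V l = V l) ∧
      ∑ l, star (V l) * V l = 1 := by
  obtain ⟨ι, hι, a, r, Γ, g, w, V, h, hr⟩ := cl_multi hcp z hz hg k
  obtain ⟨b, h1, h2, h3, h4⟩ := cliff_end h hr
  refine ⟨Fintype.card ι, a, b, fun l => V ((Fintype.equivFin ι).symm l), h.aa, ?_, h3, h4,
    by rw [h1, h2], fun i l => h.aV i _, fun i l => h.aaV i _, ?_⟩
  · intro i j
    rw [h.asa, h1, sub_sub_cancel]
  · rw [← h.VV]
    exact (Fintype.equivFin ι).symm.sum_comp (fun l => star (V l) * V l)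

end ender

end Vale.Agent.P101
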