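import Mathlib

/-!
# The dimension drop algebra `I(2,3)`

`I(2,3)` is the star algebra of all continuous functions `f : [0,1] → M_2 ⊗ M_3` with
`f 0 ∈ M_2 ⊗ 1` and `f 1 ∈ 1 ⊗ M_3`.
-/

open scoped Kronecker

noncomputable section

namespace Vale.Agent.P101

/-- The dimension drop algebra `I(2,3)`: continuous functions `f` on the unit interval with values
in `M_2(ℂ) ⊗ M_3(ℂ)` (realised as complex matrices indexed by `Fin 2 × Fin 3`, with `x ⊗ y` the
Kronecker product) such that `f 0 = x ⊗ 1` for some `x` and `f 1 = 1 ⊗ y` for some `y`. The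
operations are pointwise. -/
def dimDrop23 :
    StarSubalgebra ℂ C(unitInterval, Matrix (Fin 2 × Fin 3) (Fin 2 × Fin 3) ℂ) where
  carrier := {f | (∃ x : Matrix (Fin 2) (Fin 2) ℂ, f 0 = x ⊗ₖ (1 : Matrix (Fin 3) (Fin 3) ℂ)) ∧
    (∃ y : Matrix (Fin 3) (Fin 3) ℂ, f 1 = (1 : Matrix (Fin 2) (Fin 2) ℂ) ⊗ₖ y)}
  mul_mem' := by
    rintro f g ⟨⟨x, hx⟩, ⟨y, hy⟩⟩ ⟨⟨x', hx'⟩, ⟨y', hy'⟩⟩
    refine ⟨⟨x * x', ?_⟩, ⟨y * y', ?_⟩⟩
    · rw [ContinuousMap.mul_apply, hx, hx', ← Matrix.mul_kronecker_mul, one_mul]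
    · rw [ContinuousMap.mul_apply, hy, hy', ← Matrix.mul_kronecker_mul, one_mul]
  one_mem' := ⟨⟨1, by rw [ContinuousMap.one_apply, Matrix.one_kronecker_one]⟩,
    ⟨1, by rw [ContinuousMap.one_apply, Matrix.one_kronecker_one]⟩⟩
  add_mem' := by
    rintro f g ⟨⟨x, hx⟩, ⟨y, hy⟩⟩ ⟨⟨x', hx'⟩, ⟨y', hy'⟩⟩
    refine ⟨⟨x + x', ?_⟩, ⟨y + y', ?_⟩⟩
    · rw [ContinuousMap.add_apply, hx, hx', ← Matrix.add_kronecker]
    · rw [ContinuousMap.add_apply, hy, hy', ← Matrix.kronecker_add]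
  zero_mem' := ⟨⟨0, by rw [ContinuousMap.zero_apply, Matrix.zero_kronecker]⟩,
    ⟨0, by rw [ContinuousMap.zero_apply, Matrix.kronecker_zero]⟩⟩
  algebraMap_mem' := by
    intro r
    refine ⟨⟨r • 1, ?_⟩, ⟨r • 1, ?_⟩⟩
    · rw [Matrix.smul_kronecker, Matrix.one_kronecker_one, Algebra.algebraMap_eq_smul_one,
        ContinuousMap.smul_apply, ContinuousMap.one_apply]
    · rw [Matrix.kronecker_smul, Matrix.one_kronecker_one, Algebra.algebraMap_eq_smul_one,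
        ContinuousMap.smul_apply, ContinuousMap.one_apply]
  star_mem' := by
    rintro f ⟨⟨x, hx⟩, ⟨y, hy⟩⟩
    refine ⟨⟨star x, ?_⟩, ⟨star y, ?_⟩⟩
    · rw [ContinuousMap.star_apply, hx, Matrix.star_eq_conjTranspose,
        Matrix.conjTranspose_kronecker, Matrix.conjTranspose_one, Matrix.star_eq_conjTranspose]
    · rw [ContinuousMap.star_apply, hy, Matrix.star_eq_conjTranspose,
        Matrix.conjTranspose_kronecker, Matrix.conjTranspose_one, Matrix.star_eq_conjTranspose]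

end Vale.Agent.P101
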