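import Mathlib
import Vale.Agent.P101.DimDropGen

/-! Amplification homomorphisms between dimension drop algebras. -/

open scoped Kronecker Matrix

noncomputable section

namespace Vale.Agent.P101

namespace DA

variable (p q a b : ℕ)

/-- Rearrangement of indices. -/
def e : Fin (p * a) × Fin (q * b) ≃ (Fin p × Fin q) × (Fin a × Fin b) :=
  (Equiv.prodCongr finProdFinEquiv.symm finProdFinEquiv.symm).trans
    (Equiv.prodProdProdComm _ _ _ _)

/-- Amplification of matrices, as a star homomorphism. -/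
def amp : Matrix (Fin p × Fin q) (Fin p × Fin q) ℂ →⋆ₐ[ℂ]
    Matrix (Fin (p * a) × Fin (q * b)) (Fin (p * a) × Fin (q * b)) ℂ where
  toFun M := (M ⊗ₖ (1 : Matrix (Fin a × Fin b) (Fin a × Fin b) ℂ)).submatrix (e p q a b) (e p q a b)
  map_one' := by
    rw [Matrix.one_kronecker_one, Matrix.submatrix_one_equiv]
  map_mul' M N := by
    rw [Matrix.submatrix_mul_equiv, ← Matrix.mul_kronecker_mul, one_mul]
  map_zero' := by
    rw [Matrix.zero_kronecker]
    rfl
  map_add' M N := by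
    rw [Matrix.add_kronecker]
    rfl
  commutes' r := by
    rw [Algebra.algebraMap_eq_smul_one, Algebra.algebraMap_eq_smul_one, Matrix.smul_kronecker,
      Matrix.one_kronecker_one, Matrix.submatrix_smul]
    simp only [Pi.smul_apply]
    rw [Matrix.submatrix_one_equiv]
  map_star' M := by
    rw [Matrix.star_eq_conjTranspose, Matrix.star_eq_conjTranspose, Matrix.conjTranspose_submatrix,
      Matrix.conjTranspose_kronecker, Matrix.conjTranspose_one]

theorem continuous_amp : Continuous (amp p q a b) := by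
  refine continuous_matrix fun i j => ?_
  exact (continuous_id.matrix_elem _ _).mul continuous_const

theorem amp_left (x : Matrix (Fin p) (Fin p) ℂ) :
    amp p q a b (x ⊗ₖ (1 : Matrix (Fin q) (Fin q) ℂ)) =
      ((x ⊗ₖ (1 : Matrix (Fin a) (Fin a) ℂ)).submatrix finProdFinEquiv.symm finProdFinEquiv.symm)
        ⊗ₖ (1 : Matrix (Fin (q * b)) (Fin (q * b)) ℂ) := by
  ext ⟨i, j⟩ ⟨i', j'⟩
  obtain ⟨⟨i1, i2⟩, rfl⟩ := finProdFinEquiv.surjective i
  obtain ⟨⟨j1, j2⟩, rfl⟩ := finProdFinEquiv.surjective j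
  obtain ⟨⟨i1', i2'⟩, rfl⟩ := finProdFinEquiv.surjective i'
  obtain ⟨⟨j1', j2'⟩, rfl⟩ := finProdFinEquiv.surjective j'
  have h1 : amp p q a b (x ⊗ₖ (1 : Matrix (Fin q) (Fin q) ℂ))
      (finProdFinEquiv (i1, i2), finProdFinEquiv (j1, j2))
      (finProdFinEquiv (i1', i2'), finProdFinEquiv (j1', j2')) =
      (x i1 i1' * (if j1 = j1' then 1 else 0)) * (if (i2, j2) = (i2', j2') then 1 else 0) := by
    simp [amp, e, Matrix.kroneckerMap_apply, Matrix.one_apply]
  rw [h1]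
  simp only [Matrix.kroneckerMap_apply, Matrix.submatrix_apply, Equiv.symm_apply_apply,
    Matrix.one_apply, finProdFinEquiv.injective.eq_iff, Prod.mk.injEq]
  by_cases h2 : j1 = j1' <;> by_cases h3 : i2 = i2' <;> by_cases h4 : j2 = j2' <;>
    simp [h2, h3, h4]

theorem amp_right (y : Matrix (Fin q) (Fin q) ℂ) :
    amp p q a b ((1 : Matrix (Fin p) (Fin p) ℂ) ⊗ₖ y) =
      (1 : Matrix (Fin (p * a)) (Fin (p * a)) ℂ) ⊗ₖ
      ((y ⊗ₖ (1 : Matrix (Fin b) (Fin b) ℂ)).submatrix finProdFinEquiv.symm finProdFinEquiv.symm)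
        := by
  ext ⟨i, j⟩ ⟨i', j'⟩
  obtain ⟨⟨i1, i2⟩, rfl⟩ := finProdFinEquiv.surjective i
  obtain ⟨⟨j1, j2⟩, rfl⟩ := finProdFinEquiv.surjective j
  obtain ⟨⟨i1', i2'⟩, rfl⟩ := finProdFinEquiv.surjective i'
  obtain ⟨⟨j1', j2'⟩, rfl⟩ := finProdFinEquiv.surjective j'
  have h1 : amp p q a b ((1 : Matrix (Fin p) (Fin p) ℂ) ⊗ₖ y)
      (finProdFinEquiv (i1, i2), finProdFinEquiv (j1, j2))
      (finProdFinEquiv (i1', i2'), finProdFinEquiv (j1', j2')) =
      ((if i1 = i1' then 1 else 0) * y j1 j1') * (if (i2, j2) = (i2', j2') then 1 else 0) := by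
    simp [amp, e, Matrix.kroneckerMap_apply, Matrix.one_apply]
  rw [h1]
  simp only [Matrix.kroneckerMap_apply, Matrix.submatrix_apply, Equiv.symm_apply_apply,
    Matrix.one_apply, finProdFinEquiv.injective.eq_iff, Prod.mk.injEq]
  by_cases h2 : i1 = i1' <;> by_cases h3 : i2 = i2' <;> by_cases h4 : j2 = j2' <;>
    simp [h2, h3, h4]

end DA

open DA in
/-- The amplification `I(p,q) → I(pa,qb)`. -/
def dimDropAmp (p q a b : ℕ) : dimDrop p q →⋆ₐ[ℂ] dimDrop (p * a) (q * b) :=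
  (((ContinuousMap.compStarAlgHom unitInterval (amp p q a b) (continuous_amp p q a b)).comp
    (dimDrop p q).subtype).codRestrict (dimDrop (p * a) (q * b)) (by
      rintro ⟨f, ⟨x, hx⟩, ⟨y, hy⟩⟩
      exact ⟨⟨_, (congrArg (amp p q a b) hx).trans (amp_left p q a b x)⟩,
        ⟨_, (congrArg (amp p q a b) hy).trans (amp_right p q a b y)⟩⟩))

/-- Every prime dimension drop algebra maps unitally into some `I(n+1,n+2)`. -/
theorem exists_dimDrop_map (p q : ℕ) (hp : 0 < p) (hq : 0 < q) (hpq : p.Coprime q) :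
    ∃ N : ℕ, Nonempty (dimDrop p q →⋆ₐ[ℂ] dimDrop (N + 1) (N + 2)) := by
  obtain ⟨n, hn1, hn2⟩ : ∃ n : ℕ, p ∣ n + 1 ∧ q ∣ n + 2 := by
    obtain ⟨m, hm1, hm2⟩ := Nat.chineseRemainder hpq 0 (q - 1)
    have h1 : p ∣ m := (Nat.modEq_zero_iff_dvd).1 hm1
    have h2 : q ∣ m + 1 := by
      have h3 : m + 1 ≡ q - 1 + 1 [MOD q] := Nat.ModEq.add_right 1 hm2
      rw [Nat.sub_add_cancel hq] at h3
      exact (Nat.modEq_zero_iff_dvd).1 (h3.trans (by simp [Nat.ModEq]))
    have h4 : 0 < p * q := Nat.mul_pos hp hq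
    refine ⟨m + p * q - 1, ?_, ?_⟩
    · rw [show m + p * q - 1 + 1 = m + p * q by omega]
      exact dvd_add h1 (dvd_mul_right p q)
    · rw [show m + p * q - 1 + 2 = (m + 1) + p * q by omega]
      exact dvd_add h2 (dvd_mul_left q p)
  obtain ⟨a, ha⟩ := hn1
  obtain ⟨b, hb⟩ := hn2
  refine ⟨n, ?_⟩
  rw [ha, hb]
  exact ⟨dimDropAmp p q a b⟩

end Vale.Agent.P101
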