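import Mathlib
import Vale.Agent.P101.DimDropSuccAlg
import Vale.Agent.P101.DimDropGen

/-! Matrix valued functions attached to an element of `I(2,3)`. -/

open scoped Kronecker Matrix
open Complex

noncomputable section

namespace Vale.Agent.P101.DG

variable {N : ℕ}

/-- Index set. -/
abbrev I6 (N : ℕ) := Fin (N+1) × Fin (N+2)

/-- The swap of indices. -/
def swp (a : I6 N) : I6 N := if h : a.2.val < N + 1 then (⟨a.2.val, h⟩, Fin.castSucc a.1) else a

theorem swp_c (j i : Fin (N+1)) : swp (j, i.castSucc) = (i, j.castSucc) := by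
  rw [swp, dif_pos (show ((j, i.castSucc) : I6 N).2.val < N + 1 from i.isLt)]
  rfl

theorem swp_l (j : Fin (N+1)) : swp (j, Fin.last (N+1)) = (j, Fin.last (N+1)) := by
  rw [swp, dif_neg (show ¬ ((j, Fin.last (N+1)) : I6 N).2.val < N + 1 from lt_irrefl _)]

theorem swp_swp (a : I6 N) : swp (swp a) = a := by
  obtain ⟨j, i⟩ := a
  induction i using Fin.lastCases with
  | last => rw [swp_l, swp_l]
  | cast i => rw [swp_c, swp_c]

section generic

variable {C : Type*} [CommRing C]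

/-- The swap matrix. -/
def Sw (N : ℕ) (C : Type*) [CommRing C] : Matrix (I6 N) (I6 N) C := Matrix.of fun a b => if a = swp b then 1 else 0

theorem Sw_mul (X : Matrix (I6 N) (I6 N) C) : Sw N C * X = Matrix.of fun a b => X (swp a) b := by
  ext1 a b
  simp only [Sw, Matrix.mul_apply, Matrix.of_apply, ite_mul, one_mul, zero_mul]
  rw [Finset.sum_eq_single (swp a)]
  · rw [if_pos (swp_swp a).symm]
  · intro c _ hc
    rw [if_neg]
    intro h
    apply hc
    rw [h, swp_swp]
  · simp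

theorem mul_Sw (X : Matrix (I6 N) (I6 N) C) : X * Sw N C = Matrix.of fun a b => X a (swp b) := by
  ext1 a b
  simp only [Sw, Matrix.mul_apply, Matrix.of_apply, mul_ite, mul_one, mul_zero]
  rw [Finset.sum_ite_eq']
  simp

theorem Sw_Sw : Sw N C * Sw N C = 1 := by
  rw [Sw_mul]
  ext1 a b
  simp only [Sw, Matrix.of_apply, Matrix.one_apply]
  by_cases h : a = b
  · rw [if_pos (by rw [h]), if_pos h]
  · rw [if_neg, if_neg h]
    intro h'
    apply h
    rw [← swp_swp a, h', swp_swp]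

theorem Sw_map {C' : Type*} [CommRing C'] (f : C →+* C') : (Sw N C).map f = Sw N C' := by
  ext1 a b
  simp only [Sw, Matrix.map_apply, Matrix.of_apply]
  split_ifs <;> simp

theorem Sw_conj (x : Matrix (Fin (N+1)) (Fin (N+1)) C) :
    Sw N C * (x ⊗ₖ (1 : Matrix (Fin (N+2)) (Fin (N+2)) C)) * Sw N C = i0 x := by
  rw [Sw_mul, mul_Sw]
  ext1 ⟨j, i⟩ ⟨j', i'⟩
  simp only [Matrix.of_apply, i0, Matrix.add_apply, Matrix.kroneckerMap_apply]
  induction i using Fin.lastCases with
  | last =>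
    have h1 : swp (j, Fin.last (N+1)) = (j, Fin.last (N+1)) := swp_l _
    rw [h1]
    induction i' using Fin.lastCases with
    | last =>
      have h2 : swp (j', Fin.last (N+1)) = (j', Fin.last (N+1)) := swp_l _
      rw [h2]
      simp
    | cast i' =>
      have h2 : swp (j', i'.castSucc) = (i', j'.castSucc) := swp_c _ _
      have h3 : ¬ Fin.last (N+1) = j'.castSucc := (Fin.castSucc_lt_last j').ne'
      rw [h2]
      simp [Matrix.one_apply, h3]
  | cast i =>
    have h1 : swp (j, i.castSucc) = (i, j.castSucc) := swp_c _ _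
    rw [h1]
    induction i' using Fin.lastCases with
    | last =>
      have h2 : swp (j', Fin.last (N+1)) = (j', Fin.last (N+1)) := swp_l _
      have h3 : ¬ j.castSucc = Fin.last (N+1) := (Fin.castSucc_lt_last j).ne
      rw [h2]
      simp [Matrix.one_apply, h3]
    | cast i' =>
      have h2 : swp (j', i'.castSucc) = (i', j'.castSucc) := swp_c _ _
      rw [h2]
      simp [Matrix.one_apply]

/-- A path of unitary matrices. -/
def W (N : ℕ) (h u : C) : Matrix (I6 N) (I6 N) C := (h * (1 + u)) • 1 + (h * (1 - u)) • Sw N C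

theorem W_map {C' : Type*} [CommRing C'] (f : C →+* C') (h u : C) :
    (W N h u).map f = W N (f h) (f u) := by
  ext1 a b
  simp only [W, Sw, Matrix.map_apply, Matrix.add_apply, Matrix.smul_apply, Matrix.of_apply,
    Matrix.one_apply, smul_eq_mul, map_add, map_mul, map_sub, map_one]
  split_ifs <;> simp

theorem W_left {h : C} (hh : h + h = 1) : W N h (-1) = Sw N C := by
  have e : h * (1 - -1) = 1 := by rw [sub_neg_eq_add, mul_add, mul_one, hh]
  rw [W, e, add_neg_cancel, mul_zero, zero_smul, zero_add, one_smul]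

theorem W_right {h : C} (hh : h + h = 1) : W N h 1 = 1 := by
  have e : h * (1 + 1) = 1 := by rw [mul_add, mul_one, hh]
  rw [W, e, sub_self, mul_zero, zero_smul, add_zero, one_smul]

theorem lemA (τ r0 r1 : C) (F A B : Matrix (I6 N) (I6 N) C) (h0 : (τ * r0) • (F - A) = F - A)
    (h1 : ((1 - τ) * r1) • (F - B) = F - B) :
    F = (1 - τ) • A + τ • B + (τ * (1 - τ)) • (r0 • (F - A) + r1 • (F - B)) := by
  have e : (τ * (1 - τ)) • (r0 • (F - A) + r1 • (F - B)) =
      (1 - τ) • ((τ * r0) • (F - A)) + τ • (((1 - τ) * r1) • (F - B)) := by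
    module
  rw [e, h0, h1]
  module

theorem lemB (τ : C) (x x' : Matrix (Fin (N+1)) (Fin (N+1)) C)
    (y y' : Matrix (Fin (N+2)) (Fin (N+2)) C) (X X' F F' : Matrix (I6 N) (I6 N) C)
    (hF : F = (1 - τ) • i0 x + τ • i1 y + (τ * (1 - τ)) • X)
    (hF' : F' = (1 - τ) • i0 x' + τ • i1 y' + (τ * (1 - τ)) • X') :
    F * F' = (1 - τ) • i0 (x * x') + τ • i1 (y * y') +
      (τ * (1 - τ)) • Frame.prd τ x x' y y' X X' := by
  rw [hF, hF']
  simp only [Frame.prd, mul_add, add_mul, smul_mul_assoc, mul_smul_comm, i0_mul, i1_mul]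
  module

theorem conj_smul (c : C) (A X B : Matrix (I6 N) (I6 N) C) : A * (c • X) * B = c • (A * X * B) := by
  rw [Matrix.mul_smul, Matrix.smul_mul]

theorem map_smul' {C' : Type*} [CommRing C'] {m n : Type*} (f : C →+* C') (c : C)
    (X : Matrix m n C) : (c • X).map f = f c • X.map f := by
  ext a b
  simp

variable [StarRing C]

theorem conjT_smul {m n : Type*} (c : C) (X : Matrix m n C) : (c • X)ᴴ = star c • Xᴴ :=
  Matrix.conjTranspose_smul c X

theorem Sw_star : (Sw N C)ᴴ = Sw N C := by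
  ext1 a b
  simp only [Sw, Matrix.conjTranspose_apply, Matrix.of_apply]
  by_cases h : b = swp a
  · rw [if_pos h, if_pos (by rw [h, swp_swp]), star_one]
  · rw [if_neg h, if_neg, star_zero]
    intro h'
    apply h
    rw [h', swp_swp]

theorem W_star {h : C} (hs : star h = h) (u : C) : (W N h u)ᴴ = W N h (star u) := by
  rw [W, Matrix.conjTranspose_add, Matrix.conjTranspose_smul, Matrix.conjTranspose_smul,
    Matrix.conjTranspose_one, Sw_star, star_mul, star_mul, star_add, star_sub, star_one, hs, W,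
    mul_comm h, mul_comm h]

omit [StarRing C] in
theorem W_mul_W {h u u' : C} (hh : h + h = 1) (hu : u * u' = 1) : W N h u * W N h u' = 1 := by
  have key : ∀ p q p' q' : C, (p • (1 : Matrix (I6 N) (I6 N) C) + q • Sw N C) * (p' • 1 + q' • Sw N C) =
      (p * p' + q * q') • 1 + (p * q' + q * p') • Sw N C := by
    intro p q p' q'
    simp only [add_mul, mul_add, smul_mul_assoc, mul_smul_comm, one_mul, mul_one, Sw_Sw]
    module
  have h4 : h * h * 4 = 1 := by
    have : h * h * 4 = (h + h) * (h + h) := by ring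
    rw [this, hh, one_mul]
  have e1 : h * (1 + u) * (h * (1 + u')) + h * (1 - u) * (h * (1 - u')) = 1 := by
    linear_combination (2 * h * h) * hu + h4
  have e2 : h * (1 + u) * (h * (1 - u')) + h * (1 - u) * (h * (1 + u')) = 0 := by
    linear_combination (-2 * h * h) * hu
  rw [W, W, key, e1, e2]
  simp

end generic

section concrete

/-- The coordinate function. -/
def tau : C(ℝ, ℂ) := ⟨fun x => (x : ℂ), Complex.continuous_ofReal⟩

/-- The reparametrisation. -/
def rr : C(ℝ, unitInterval) :=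
  ⟨fun x => Set.projIcc 0 1 zero_le_one (3 * x - 1), by fun_prop⟩

theorem rr_left {x : ℝ} (hx : x ≤ 1 / 3) : rr x = 0 := by
  have : rr x = Set.projIcc 0 1 zero_le_one (3 * x - 1) := rfl
  rw [this, Set.projIcc_of_le_left _ (by linarith)]
  rfl

theorem rr_right {x : ℝ} (hx : 2 / 3 ≤ x) : rr x = 1 := by
  have : rr x = Set.projIcc 0 1 zero_le_one (3 * x - 1) := rfl
  rw [this, Set.projIcc_of_right_le _ (by linarith)]
  rfl

/-- A path on the circle from `-1` to `1`. -/
def uu : C(ℝ, ℂ) := ⟨fun x => cexp ((((rr x : ℝ) - 1) * Real.pi : ℝ) * I), by fun_prop⟩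

theorem uu_left {x : ℝ} (hx : x ≤ 1 / 3) : uu x = -1 := by
  have : uu x = cexp ((((rr x : ℝ) - 1) * Real.pi : ℝ) * I) := rfl
  rw [this, rr_left hx]
  have e : (((((0 : unitInterval) : ℝ) - 1) * Real.pi : ℝ) * I : ℂ) = -(Real.pi * I) := by
    simp
  rw [e, Complex.exp_neg, Complex.exp_pi_mul_I]
  norm_num

theorem uu_right {x : ℝ} (hx : 2 / 3 ≤ x) : uu x = 1 := by
  have : uu x = cexp ((((rr x : ℝ) - 1) * Real.pi : ℝ) * I) := rfl
  rw [this, rr_right hx]
  simp

theorem star_uu_mul : star uu * uu = 1 := by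
  ext x
  have : uu x = cexp ((((rr x : ℝ) - 1) * Real.pi : ℝ) * I) := rfl
  rw [ContinuousMap.mul_apply, ContinuousMap.star_apply, ContinuousMap.one_apply, this,
    Complex.star_def, ← Complex.normSq_eq_conj_mul_self, Complex.normSq_eq_norm_sq,
    Complex.norm_exp_ofReal_mul_I]
  simp

/-- The constant function `1/2`. -/
def hf : C(ℝ, ℂ) := algebraMap ℂ C(ℝ, ℂ) (1 / 2)

theorem hf_add : hf + hf = 1 := by
  rw [hf, ← map_add]
  norm_num

theorem star_hf : star hf = hf := by
  ext x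
  have h : hf x = 1 / 2 := rfl
  rw [ContinuousMap.star_apply, h]
  simp

/-- Evaluation at a point. -/
def ev (x : ℝ) : C(ℝ, ℂ) →+* ℂ where
  toFun f := f x
  map_one' := rfl
  map_mul' _ _ := rfl
  map_zero' := rfl
  map_add' _ _ := rfl

theorem ev_apply (x : ℝ) (f : C(ℝ, ℂ)) : ev x f = f x := rfl

theorem mext {m n : Type*} {M N : Matrix m n C(ℝ, ℂ)}
    (h : ∀ x, M.map (ev x) = N.map (ev x)) : M = N := by
  ext a b x
  exact congrFun (congrFun (h x) a) b

/-- Constant matrices. -/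
def K {m n : Type*} (X : Matrix m n ℂ) : Matrix m n C(ℝ, ℂ) := X.map (algebraMap ℂ C(ℝ, ℂ))

theorem K_ev {m n : Type*} (X : Matrix m n ℂ) (x : ℝ) : (K X).map (ev x) = X := by
  ext a b
  rfl

/-- The matrix valued function `f ∘ rr`. -/
def tl (f : C(unitInterval, Matrix (I6 N) (I6 N) ℂ)) : Matrix (I6 N) (I6 N) C(ℝ, ℂ) :=
  Matrix.of fun a b => ⟨fun x => f (rr x) a b, (f.continuous.comp rr.continuous).matrix_elem a b⟩

theorem tl_ev (f : C(unitInterval, Matrix (I6 N) (I6 N) ℂ)) (x : ℝ) : (tl f).map (ev x) = f (rr x) := by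
  ext a b
  rfl

theorem tl_mul (f g : C(unitInterval, Matrix (I6 N) (I6 N) ℂ)) : tl (f * g) = tl f * tl g := by
  apply mext
  intro x
  rw [Matrix.map_mul, tl_ev, tl_ev, tl_ev]
  rfl

theorem tl_add (f g : C(unitInterval, Matrix (I6 N) (I6 N) ℂ)) : tl (f + g) = tl f + tl g := by
  ext a b
  rfl

theorem tl_smul (r : ℂ) (f : C(unitInterval, Matrix (I6 N) (I6 N) ℂ)) :
    tl (r • f) = (algebraMap ℂ C(ℝ, ℂ) r) • tl f := by
  ext a b
  rfl

theorem tl_one : tl (1 : C(unitInterval, Matrix (I6 N) (I6 N) ℂ)) = 1 := by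
  apply mext
  intro x
  rw [tl_ev, Matrix.map_one _ (map_zero _) (map_one _)]
  rfl

theorem tl_star (f : C(unitInterval, Matrix (I6 N) (I6 N) ℂ)) : tl (star f) = (tl f)ᴴ := by
  ext a b
  rfl

/-- The matrix valued function attached to `f`. -/
def FF (f : C(unitInterval, Matrix (I6 N) (I6 N) ℂ)) : Matrix (I6 N) (I6 N) C(ℝ, ℂ) :=
  W N hf uu * tl f * W N hf (star uu)

theorem FF_mul (f g : C(unitInterval, Matrix (I6 N) (I6 N) ℂ)) : FF (f * g) = FF f * FF g := by
  have h : W N hf (star uu) * W N hf uu = 1 := W_mul_W hf_add star_uu_mul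
  calc FF (f * g) = W N hf uu * tl f * 1 * tl g * W N hf (star uu) := by
        rw [FF, tl_mul, mul_one]; simp only [mul_assoc]
    _ = FF f * FF g := by rw [← h, FF, FF]; simp only [mul_assoc]

theorem FF_one : FF (1 : C(unitInterval, Matrix (I6 N) (I6 N) ℂ)) = 1 := by
  rw [FF, tl_one, mul_one]
  exact W_mul_W hf_add (by rw [mul_comm]; exact star_uu_mul)

theorem FF_add (f g : C(unitInterval, Matrix (I6 N) (I6 N) ℂ)) : FF (f + g) = FF f + FF g := by
  rw [FF, tl_add, mul_add, add_mul]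
  rfl

theorem FF_smul (r : ℂ) (f : C(unitInterval, Matrix (I6 N) (I6 N) ℂ)) :
    FF (r • f) = (algebraMap ℂ C(ℝ, ℂ) r) • FF f := by
  rw [FF, tl_smul]
  exact conj_smul _ _ _ _

theorem FF_star (f : C(unitInterval, Matrix (I6 N) (I6 N) ℂ)) : FF (star f) = (FF f)ᴴ := by
  rw [FF, tl_star, FF, Matrix.conjTranspose_mul, Matrix.conjTranspose_mul, W_star star_hf,
    W_star star_hf, star_star, mul_assoc]

/-- The `2 × 2` matrix at the left end. -/
def xx (f : C(unitInterval, Matrix (I6 N) (I6 N) ℂ)) : Matrix (Fin (N+1)) (Fin (N+1)) ℂ :=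
  Matrix.of fun j j' => f 0 (j, 0) (j', 0)

/-- The `3 × 3` matrix at the right end. -/
def yy (f : C(unitInterval, Matrix (I6 N) (I6 N) ℂ)) : Matrix (Fin (N+2)) (Fin (N+2)) ℂ :=
  Matrix.of fun i i' => f 1 (0, i) (0, i')

theorem xx_of {f : C(unitInterval, Matrix (I6 N) (I6 N) ℂ)} {x : Matrix (Fin (N+1)) (Fin (N+1)) ℂ}
    (h : f 0 = x ⊗ₖ (1 : Matrix (Fin (N+2)) (Fin (N+2)) ℂ)) : xx f = x := by
  ext j j'
  simp [xx, h]

theorem yy_of {f : C(unitInterval, Matrix (I6 N) (I6 N) ℂ)} {y : Matrix (Fin (N+2)) (Fin (N+2)) ℂ}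
    (h : f 1 = (1 : Matrix (Fin (N+1)) (Fin (N+1)) ℂ) ⊗ₖ y) : yy f = y := by
  ext j j'
  simp [yy, h]

theorem left_eq {f : C(unitInterval, Matrix (I6 N) (I6 N) ℂ)} (hf : f ∈ dimDrop (N+1) (N+2)) :
    f 0 = xx f ⊗ₖ (1 : Matrix (Fin (N+2)) (Fin (N+2)) ℂ) := by
  obtain ⟨⟨x, hx⟩, -⟩ := hf
  rw [xx_of hx, hx]

theorem right_eq {f : C(unitInterval, Matrix (I6 N) (I6 N) ℂ)} (hf : f ∈ dimDrop (N+1) (N+2)) :
    f 1 = (1 : Matrix (Fin (N+1)) (Fin (N+1)) ℂ) ⊗ₖ yy f := by
  obtain ⟨-, ⟨y, hy⟩⟩ := hf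
  rw [yy_of hy, hy]

theorem xx_mul {f g : C(unitInterval, Matrix (I6 N) (I6 N) ℂ)} (hf : f ∈ dimDrop (N+1) (N+2))
    (hg : g ∈ dimDrop (N+1) (N+2)) : xx (f * g) = xx f * xx g := by
  apply xx_of
  rw [ContinuousMap.mul_apply, left_eq hf, left_eq hg, ← Matrix.mul_kronecker_mul, one_mul]

theorem yy_mul {f g : C(unitInterval, Matrix (I6 N) (I6 N) ℂ)} (hf : f ∈ dimDrop (N+1) (N+2))
    (hg : g ∈ dimDrop (N+1) (N+2)) : yy (f * g) = yy f * yy g := by
  apply yy_of
  rw [ContinuousMap.mul_apply, right_eq hf, right_eq hg, ← Matrix.mul_kronecker_mul, one_mul]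

theorem xx_add (f g : C(unitInterval, Matrix (I6 N) (I6 N) ℂ)) : xx (f + g) = xx f + xx g := by
  ext a b
  rfl

theorem yy_add (f g : C(unitInterval, Matrix (I6 N) (I6 N) ℂ)) : yy (f + g) = yy f + yy g := by
  ext a b
  rfl

theorem xx_smul (r : ℂ) (f : C(unitInterval, Matrix (I6 N) (I6 N) ℂ)) : xx (r • f) = r • xx f := by
  ext a b
  rfl

theorem yy_smul (r : ℂ) (f : C(unitInterval, Matrix (I6 N) (I6 N) ℂ)) : yy (r • f) = r • yy f := by
  ext a b
  rfl

theorem xx_star (f : C(unitInterval, Matrix (I6 N) (I6 N) ℂ)) : xx (star f) = (xx f)ᴴ := by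
  ext a b
  rfl

theorem yy_star (f : C(unitInterval, Matrix (I6 N) (I6 N) ℂ)) : yy (star f) = (yy f)ᴴ := by
  ext a b
  rfl

theorem xx_one : xx (1 : C(unitInterval, Matrix (I6 N) (I6 N) ℂ)) = 1 := by
  apply xx_of
  rw [ContinuousMap.one_apply, Matrix.one_kronecker_one]

theorem yy_one : yy (1 : C(unitInterval, Matrix (I6 N) (I6 N) ℂ)) = 1 := by
  apply yy_of
  rw [ContinuousMap.one_apply, Matrix.one_kronecker_one]

/-- Cut-off of `1 / x`. -/
def r0 : C(ℝ, ℂ) := ⟨fun x => (((max x (1 / 3))⁻¹ : ℝ) : ℂ), by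
  refine Complex.continuous_ofReal.comp (Continuous.inv₀ (by fun_prop) fun x => ?_)
  exact (lt_of_lt_of_le (by norm_num) (le_max_right x (1 / 3))).ne'⟩

/-- Cut-off of `1 / (1 - x)`. -/
def r1 : C(ℝ, ℂ) := ⟨fun x => (((max (1 - x) (1 / 3))⁻¹ : ℝ) : ℂ), by
  refine Complex.continuous_ofReal.comp (Continuous.inv₀ (by fun_prop) fun x => ?_)
  exact (lt_of_lt_of_le (by norm_num) (le_max_right (1 - x) (1 / 3))).ne'⟩

theorem tau_r0 {x : ℝ} (hx : 1 / 3 ≤ x) : ev x (tau * r0) = 1 := by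
  have h : ev x (tau * r0) = (x : ℂ) * (((max x (1 / 3))⁻¹ : ℝ) : ℂ) := rfl
  rw [h, max_eq_left hx, Complex.ofReal_inv, mul_inv_cancel₀]
  have : x ≠ 0 := by linarith
  exact_mod_cast this

theorem tau_r1 {x : ℝ} (hx : x ≤ 2 / 3) : ev x ((1 - tau) * r1) = 1 := by
  have h : ev x ((1 - tau) * r1) = (1 - (x : ℂ)) * (((max (1 - x) (1 / 3))⁻¹ : ℝ) : ℂ) := rfl
  rw [h, max_eq_left (by linarith), Complex.ofReal_inv]
  push_cast
  rw [mul_inv_cancel₀]
  have : 1 - x ≠ 0 := by linarith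
  exact_mod_cast this

theorem FF_left {f : C(unitInterval, Matrix (I6 N) (I6 N) ℂ)} (h : f ∈ dimDrop (N+1) (N+2)) {x : ℝ}
    (hx : x ≤ 1 / 3) : (FF f).map (ev x) = i0 (xx f) := by
  have h1 : ev x uu = -1 := uu_left hx
  have h2 : ev x (star uu) = -1 := by
    have : ev x (star uu) = star (ev x uu) := rfl
    rw [this, h1]
    simp
  have h3 : ev x hf + ev x hf = 1 := by
    rw [← map_add, hf_add, map_one]
  rw [FF, Matrix.map_mul, Matrix.map_mul, W_map, W_map, h1, h2, W_left h3, tl_ev, rr_left hx,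
    left_eq h, Sw_conj]

theorem FF_right {f : C(unitInterval, Matrix (I6 N) (I6 N) ℂ)} (h : f ∈ dimDrop (N+1) (N+2)) {x : ℝ}
    (hx : 2 / 3 ≤ x) : (FF f).map (ev x) = i1 (yy f) := by
  have h1 : ev x uu = 1 := uu_right hx
  have h2 : ev x (star uu) = 1 := by
    have : ev x (star uu) = star (ev x uu) := rfl
    rw [this, h1]
    simp
  have h3 : ev x hf + ev x hf = 1 := by
    rw [← map_add, hf_add, map_one]
  rw [FF, Matrix.map_mul, Matrix.map_mul, W_map, W_map, h1, h2, W_right h3, tl_ev, rr_right hx,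
    right_eq h, one_mul, mul_one]
  rfl

theorem i0_map {C C' : Type*} [CommRing C] [CommRing C'] (f : C →+* C')
    (x : Matrix (Fin (N+1)) (Fin (N+1)) C) : (i0 x).map f = i0 (x.map f) := by
  ext ⟨j, i⟩ ⟨j', i'⟩
  simp only [i0, Matrix.map_apply, Matrix.add_apply, Matrix.kroneckerMap_apply, map_add, map_mul,
    hat, e33, Matrix.of_apply, Matrix.single_apply, Matrix.one_apply]
  congr 2 <;> split_ifs <;> simp

theorem i1_map {C C' : Type*} [CommRing C] [CommRing C'] (f : C →+* C')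
    (x : Matrix (Fin (N+2)) (Fin (N+2)) C) : (i1 x).map f = i1 (x.map f) := by
  ext ⟨j, i⟩ ⟨j', i'⟩
  simp only [i1, Matrix.map_apply, Matrix.kroneckerMap_apply, map_mul, Matrix.one_apply]
  congr 1
  split_ifs <;> simp

/-- The remainder. -/
def XX (f : C(unitInterval, Matrix (I6 N) (I6 N) ℂ)) : Matrix (I6 N) (I6 N) C(ℝ, ℂ) :=
  r0 • (FF f - i0 (K (xx f))) + r1 • (FF f - i1 (K (yy f)))

theorem FF_eq {f : C(unitInterval, Matrix (I6 N) (I6 N) ℂ)} (h : f ∈ dimDrop (N+1) (N+2)) :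
    FF f = (1 - tau) • i0 (K (xx f)) + tau • i1 (K (yy f)) + (tau * (1 - tau)) • XX f := by
  apply lemA
  · apply mext
    intro x
    rw [map_smul']
    rcases le_total x (1 / 3) with hx | hx
    · have : (FF f - i0 (K (xx f))).map (ev x) = 0 := by
        rw [Matrix.map_sub _ (map_sub _), FF_left h hx, i0_map, K_ev, sub_self]
      rw [this, smul_zero]
    · rw [tau_r0 hx, one_smul]
  · apply mext
    intro x
    rw [map_smul']
    rcases le_total (2 / 3) x with hx | hx
    · have : (FF f - i1 (K (yy f))).map (ev x) = 0 := by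
        rw [Matrix.map_sub _ (map_sub _), FF_right h hx, i1_map, K_ev, sub_self]
      rw [this, smul_zero]
    · rw [tau_r1 hx, one_smul]

theorem cancel {A B : Matrix (I6 N) (I6 N) C(ℝ, ℂ)}
    (h : (tau * (1 - tau)) • A = (tau * (1 - tau)) • B) : A = B := by
  ext1 a b
  have hd : Dense (({0, 1} : Set ℝ)ᶜ) :=
    Set.Countable.dense_compl ℝ (Set.Finite.countable (by simp))
  apply ContinuousMap.ext
  have : (⇑(A a b) : ℝ → ℂ) = ⇑(B a b) := by
    refine Continuous.ext_on hd (A a b).continuous (B a b).continuous ?_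
    intro x hx
    have h1 := congrArg (fun M : Matrix (I6 N) (I6 N) C(ℝ, ℂ) => ev x (M a b)) h
    simp only [Matrix.smul_apply, smul_eq_mul, map_mul, map_sub, map_one] at h1
    have h2 : ev x tau = (x : ℂ) := rfl
    rw [h2] at h1
    simp only [Set.mem_compl_iff, Set.mem_insert_iff, Set.mem_singleton_iff, not_or] at hx
    have h3 : (x : ℂ) * (1 - (x : ℂ)) ≠ 0 := by
      apply mul_ne_zero
      · exact_mod_cast hx.1
      · have : 1 - x ≠ 0 := by
          intro h4
          apply hx.2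
          linarith
        exact_mod_cast this
    exact mul_left_cancel₀ h3 h1
  exact congrFun this

theorem K_mul {l m n : Type*} [Fintype m] (X : Matrix l m ℂ) (Y : Matrix m n ℂ) :
    K (X * Y) = K X * K Y := by
  simp only [K]
  exact Matrix.map_mul

theorem K_star {m n : Type*} (X : Matrix m n ℂ) : K Xᴴ = (K X)ᴴ := by
  ext a b
  rfl

theorem K_add {m n : Type*} (X Y : Matrix m n ℂ) : K (X + Y) = K X + K Y := by
  ext a b
  rfl

theorem K_smul {m n : Type*} (r : ℂ) (X : Matrix m n ℂ) :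
    K (r • X) = (algebraMap ℂ C(ℝ, ℂ) r) • K X := by
  ext a b
  rfl

theorem K_one {m : Type*} [DecidableEq m] : K (1 : Matrix m m ℂ) = 1 := by
  simp only [K]
  exact Matrix.map_one _ (map_zero _) (map_one _)

theorem XX_mul {f g : C(unitInterval, Matrix (I6 N) (I6 N) ℂ)} (hf : f ∈ dimDrop (N+1) (N+2))
    (hg : g ∈ dimDrop (N+1) (N+2)) :
    XX (f * g) = Frame.prd tau (K (xx f)) (K (xx g)) (K (yy f)) (K (yy g)) (XX f) (XX g) := by
  apply cancel
  have h1 := FF_eq (mul_mem hf hg)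
  rw [FF_mul, xx_mul hf hg, yy_mul hf hg, K_mul, K_mul] at h1
  have h2 := lemB tau _ _ _ _ _ _ _ _ (FF_eq hf) (FF_eq hg)
  rw [h2] at h1
  exact (add_left_cancel h1).symm

theorem star_tau : star tau = tau := by
  ext x
  have h : tau x = (x : ℂ) := rfl
  rw [ContinuousMap.star_apply, h, Complex.star_def, Complex.conj_ofReal]

theorem star_r0 : star r0 = r0 := by
  ext x
  have h : r0 x = (((max x (1 / 3))⁻¹ : ℝ) : ℂ) := rfl
  rw [ContinuousMap.star_apply, h, Complex.star_def, Complex.conj_ofReal]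

theorem star_r1 : star r1 = r1 := by
  ext x
  have h : r1 x = (((max (1 - x) (1 / 3))⁻¹ : ℝ) : ℂ) := rfl
  rw [ContinuousMap.star_apply, h, Complex.star_def, Complex.conj_ofReal]

theorem XX_star (f : C(unitInterval, Matrix (I6 N) (I6 N) ℂ)) : XX (star f) = (XX f)ᴴ := by
  rw [XX, XX, Matrix.conjTranspose_add, conjT_smul, conjT_smul, Matrix.conjTranspose_sub,
    Matrix.conjTranspose_sub, star_r0, star_r1, i0_star, i1_star, FF_star, xx_star, yy_star,
    K_star, K_star]

theorem i0_add {C : Type*} [CommRing C] (x x' : Matrix (Fin (N+1)) (Fin (N+1)) C) :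
    i0 (x + x') = i0 x + i0 x' := by
  have : hat (x + x') = hat x + hat x' := by
    ext i i'
    induction i using Fin.lastCases with
    | last => simp
    | cast i =>
      induction i' using Fin.lastCases with
      | last => simp
      | cast i' => simp
  rw [i0, this, Matrix.kronecker_add, Matrix.add_kronecker, i0, i0]
  abel

theorem i1_add {C : Type*} [CommRing C] (x x' : Matrix (Fin (N+2)) (Fin (N+2)) C) :
    i1 (x + x') = i1 x + i1 x' := by
  rw [i1, Matrix.kronecker_add]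
  rfl

theorem i0_smul {C : Type*} [CommRing C] (r : C) (x : Matrix (Fin (N+1)) (Fin (N+1)) C) :
    i0 (r • x) = r • i0 x := by
  rw [i0, hat_smul, Matrix.kronecker_smul, Matrix.smul_kronecker, ← smul_add]
  rfl

theorem i1_smul {C : Type*} [CommRing C] (r : C) (x : Matrix (Fin (N+2)) (Fin (N+2)) C) :
    i1 (r • x) = r • i1 x := by
  rw [i1, Matrix.kronecker_smul]
  rfl

theorem lin_add {C : Type*} [CommRing C] {m n : Type*} (r s : C)
    (F A B F' A' B' : Matrix m n C) :
    r • ((F + F') - (A + A')) + s • ((F + F') - (B + B')) =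
      (r • (F - A) + s • (F - B)) + (r • (F' - A') + s • (F' - B')) := by
  module

theorem lin_smul {C : Type*} [CommRing C] {m n : Type*} (c r s : C)
    (F A B : Matrix m n C) :
    r • (c • F - c • A) + s • (c • F - c • B) = c • (r • (F - A) + s • (F - B)) := by
  module

theorem lin_zero {C : Type*} [CommRing C] {m n : Type*} (r s : C) :
    r • (0 : Matrix m n C) + s • (0 : Matrix m n C) = 0 := by
  simp

theorem XX_add (f g : C(unitInterval, Matrix (I6 N) (I6 N) ℂ)) : XX (f + g) = XX f + XX g := by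
  rw [XX, FF_add, xx_add, yy_add, K_add, K_add, i0_add, i1_add]
  exact lin_add _ _ _ _ _ _ _ _

theorem XX_smul (r : ℂ) (f : C(unitInterval, Matrix (I6 N) (I6 N) ℂ)) :
    XX (r • f) = (algebraMap ℂ C(ℝ, ℂ) r) • XX f := by
  rw [XX, FF_smul, xx_smul, yy_smul, K_smul, K_smul, i0_smul, i1_smul]
  exact lin_smul _ _ _ _ _ _

theorem XX_one : XX (1 : C(unitInterval, Matrix (I6 N) (I6 N) ℂ)) = 0 := by
  rw [XX, FF_one, xx_one, yy_one, K_one, K_one, i0_one, i1_one, sub_self]
  exact lin_zero _ _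

end concrete

end Vale.Agent.P101.DG
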