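import Mathlib
import Vale.Agent.P101.DimDropGen
import Vale.Agent.P101.DimDropSuccAlg
import Vale.Agent.P101.DimDropSuccCoef

/-! A unital star homomorphism from `I(N+1,N+2)` out of its relations. -/

open scoped Kronecker Matrix

noncomputable section

namespace Vale.Agent.P101

namespace DG

theorem exists_root {E : Type*} [CStarAlgebra E] (x : E) : ∃ r : E, star r = r ∧ r * r = star x * x ∧
    (∀ y, Commute (star x * x) y → Commute r y) ∧ (∀ y, r * y = - y → y = 0) := by
  let _ := CStarAlgebra.spectralOrder E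
  let _ := CStarAlgebra.spectralOrderedRing E
  have hx : 0 ≤ star x * x := star_mul_self_nonneg x
  have hr : 0 ≤ CFC.sqrt (star x * x) := CFC.sqrt_nonneg _
  refine ⟨CFC.sqrt (star x * x), (IsSelfAdjoint.of_nonneg hr).star_eq,
    CFC.sqrt_mul_sqrt_self _ hx, ?_, ?_⟩
  · intro y hy
    exact Commute.cfcₙ_nnreal hy _
  · intro y hy
    have h1 : 0 ≤ star y * CFC.sqrt (star x * x) * y := star_left_conjugate_nonneg hr y
    rw [mul_assoc, hy, mul_neg] at h1
    have h2 : star y * y ≤ 0 := by simpa using h1
    have h3 : star y * y = 0 := le_antisymm h2 (star_mul_self_nonneg y)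
    exact CStarRing.star_mul_self_eq_zero_iff y |>.1 h3

theorem eq_zero_of_star_mul {E : Type*} [CStarAlgebra E] {y : E} (h : star y * y = 0) : y = 0 :=
  (CStarRing.star_mul_self_eq_zero_iff y).1 h

theorem eq_zero_of_mul_star {E : Type*} [CStarAlgebra E] {y : E} (h : y * star y = 0) : y = 0 :=
  (CStarRing.mul_star_self_eq_zero_iff y).1 h

variable {N : ℕ}

/-- The frame relations inside the C⋆-algebra, with `t` in place of the scalar. -/
structure Rel {E : Type*} [CStarAlgebra E] (t c P s : E) (v : Fin (N+1) → E)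
    (w : Fin (N+2) → E) : Prop where
  ww : ∀ i i', star (w i) * w i' = if i = i' then c else 0
  vv : ∀ j j', star (v j) * v j' = if j = j' then P else 0
  wc : ∀ i, w i * c = t * w i
  vsum : ∑ j, v j * star (v j) = 1 - c
  comm : ∀ j, w (Fin.last (N+1)) * v j = v j * w (Fin.last (N+1))
  sa : star (w (Fin.last (N+1))) = w (Fin.last (N+1))
  vP : ∀ j, v j * P = (1 - c) * v j
  vs : ∀ j, v j * s = w j.castSucc
  vw : ∀ j i, star (v j) * w (Fin.castSucc i) = if j = i then s else 0
  tv : ∀ j, t * v j = c * v j + w j.castSucc * star s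
  cv : ∀ j, c * v j = v j * c
  csa : star c = c
  wsum : ∑ i, w i * star (w i) = t
  tsa : star t = t
  t_w : ∀ i, Commute t (w i)
  t_v : ∀ j, Commute t (v j)
  t_s : Commute t s
  t_P : Commute t P
  t_c : Commute t c

theorem exists_rel {E : Type*} [CStarAlgebra E] (v : Fin (N + 1) → E) (s : E)
    (h0 : IsSelfAdjoint (v 0)) (hv : ∀ i j, star (v i) * v j = if i = j then v 0 * v 0 else 0)
    (hz : ∀ i j, j ≠ 0 → v i * v j = 0) (hs : ∑ i, v i * star (v i) + star s * s = 1)
    (hvs : v 0 * s = s) : ∃ (t c P : E) (w : Fin (N+2) → E), Rel t c P s v w := by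
  obtain ⟨rc, rc1, rc2, rc3, -⟩ := exists_root s
  obtain ⟨c, hc⟩ : ∃ c : E, c = star s * s := ⟨_, rfl⟩
  obtain ⟨P, hP⟩ : ∃ P : E, P = v 0 * v 0 := ⟨_, rfl⟩
  rw [← hP] at hv
  rw [← hc] at rc2 rc3 hs
  have h0' : star (v 0) = v 0 := h0.star_eq
  have csa : star c = c := by rw [hc, star_mul, star_star]
  have c_eq : c = 1 - ∑ i, v i * star (v i) := by rw [← hs]; abel
  have Ps : P * s = s := by rw [hP, mul_assoc, hvs, hvs]
  have s'v0 : star s * v 0 = star s := by
    have := congrArg star hvs
    rwa [star_mul, h0'] at this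
  have s'P : star s * P = star s := by rw [hP, ← mul_assoc, s'v0, s'v0]
  have vjs : ∀ j, star (v j) * s = if j = 0 then s else 0 := by
    intro j
    conv_lhs => rw [← hvs]
    rw [← mul_assoc, hv]
    split_ifs with h
    · rw [Ps]
    · rw [zero_mul]
  have hs' : (∑ i, v i * star (v i)) * s = s := by
    rw [Finset.sum_mul]
    simp only [mul_assoc, vjs, mul_ite, mul_zero, Finset.sum_ite_eq', Finset.mem_univ, if_true]
    exact hvs
  have cs : c * s = 0 := by rw [c_eq, sub_mul, one_mul, hs', sub_self]
  have s'c : star s * c = 0 := by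
    have := congrArg star cs
    rwa [star_mul, csa, star_zero] at this
  have hvj : ∀ j, (∑ i, v i * star (v i)) * v j = v j * P := by
    intro j
    rw [Finset.sum_mul]
    simp only [mul_assoc, hv, mul_ite, mul_zero, Finset.sum_ite_eq', Finset.mem_univ, if_true]
  have vjh : ∀ j, v j * (∑ i, v i * star (v i)) = v j * P := by
    intro j
    rw [Finset.mul_sum, Finset.sum_eq_single 0]
    · rw [h0', ← hP]
    · intro i _ hi
      rw [← mul_assoc, hz j i hi, zero_mul]
    · simp
  have cv : ∀ j, c * v j = v j * c := by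
    intro j
    rw [c_eq, sub_mul, mul_sub, one_mul, mul_one, hvj, vjh]
  have cv' : ∀ j, c * star (v j) = star (v j) * c := by
    intro j
    have := congrArg star (cv j)
    rw [star_mul, star_mul, csa] at this
    exact this.symm
  have cP : c * P = P * c := by
    rw [hP, ← mul_assoc, cv, mul_assoc, cv, mul_assoc]
  have svs : ∀ j, s * v j * s = 0 := by
    intro j
    apply eq_zero_of_star_mul
    have e : star (s * v j * s) = star s * star (v j) * star s := by
      rw [star_mul, star_mul, mul_assoc]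
    rw [e]
    calc star s * star (v j) * star s * (s * v j * s)
        = star s * star (v j) * ((star s * s) * v j) * s := by simp only [mul_assoc]
      _ = star s * star (v j) * v j * (c * s) := by rw [← hc, cv]; simp only [mul_assoc]
      _ = 0 := by rw [cs, mul_zero]
  obtain ⟨w, hw⟩ : ∃ w : Fin (N+2) → E, w = Fin.snoc (α := fun _ => E) (fun j => v j * s) rc :=
    ⟨_, rfl⟩
  have wl : w (Fin.last (N+1)) = rc := by rw [hw, Fin.snoc_last]
  have wj : ∀ j : Fin (N+1), w j.castSucc = v j * s := by
    intro j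
    rw [hw, Fin.snoc_castSucc]
  obtain ⟨t, ht⟩ : ∃ t : E, t = ∑ i, w i * star (w i) := ⟨_, rfl⟩
  have ht' : t = ∑ j, v j * s * star s * star (v j) + c := by
    rw [ht, Fin.sum_univ_castSucc, wl, rc1, rc2]
    congr 1
    refine Finset.sum_congr rfl fun j _ => ?_
    rw [wj, star_mul, ← mul_assoc]
  have tsa : star t = t := by
    rw [ht, star_sum]
    refine Finset.sum_congr rfl fun j _ => ?_
    rw [star_mul, star_star]
  have rcv : ∀ j, Commute rc (v j) := fun j => rc3 _ (cv j)
  have rcv' : ∀ j, Commute rc (star (v j)) := fun j => rc3 _ (cv' j)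
  have s'rc : star s * rc = 0 := by
    apply eq_zero_of_mul_star
    rw [star_mul, star_star, rc1, mul_assoc, ← mul_assoc rc, rc2, cs, mul_zero]
  have rcs : rc * s = 0 := by
    have := congrArg star s'rc
    rwa [star_mul, star_star, rc1, star_zero] at this
  have ww : ∀ i i', star (w i) * w i' = if i = i' then c else 0 := by
    intro i i'
    induction i using Fin.lastCases with
    | last =>
      rw [wl, rc1]
      induction i' using Fin.lastCases with
      | last => rw [wl, rc2, if_pos rfl]
      | cast i' =>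
        rw [wj, if_neg (Fin.castSucc_lt_last i').ne', ← mul_assoc, (rcv i').eq, mul_assoc, rcs,
          mul_zero]
    | cast i =>
      rw [wj, star_mul]
      induction i' using Fin.lastCases with
      | last =>
        rw [wl, if_neg (Fin.castSucc_lt_last i).ne, mul_assoc, ← (rcv' i).eq, ← mul_assoc, s'rc,
          zero_mul]
      | cast i' =>
        rw [wj, mul_assoc, ← mul_assoc (star (v i)), hv]
        by_cases h : i = i'
        · rw [if_pos h, if_pos (by rw [h]), Ps, hc]
        · rw [if_neg h, if_neg (fun h' => h (Fin.castSucc_injective _ h')), zero_mul, mul_zero]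
  have tw : ∀ i, t * w i = w i * c := by
    intro i
    rw [ht, Finset.sum_mul]
    simp only [mul_assoc, ww, mul_ite, mul_zero, Finset.sum_ite_eq', Finset.mem_univ, if_true]
  have tv : ∀ j, t * v j = c * v j + w j.castSucc * star s := by
    intro j
    rw [ht', add_mul, Finset.sum_mul, wj, add_comm]
    congr 1
    simp only [mul_assoc, hv, mul_ite, mul_zero, Finset.sum_ite_eq', Finset.mem_univ, if_true, s'P]
  have vt : ∀ j, v j * t = c * v j + w j.castSucc * star s := by
    intro j
    rw [ht', mul_add, Finset.mul_sum, wj, add_comm, cv]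
    congr 1
    rw [Finset.sum_eq_single 0]
    · rw [h0', hvs, mul_assoc s, s'v0, mul_assoc]
    · intro i _ hi
      simp only [← mul_assoc]
      rw [hz j i hi]
      simp
    · simp
  have t_v : ∀ j, Commute t (v j) := fun j => (tv j).trans (vt j).symm
  have t_v' : ∀ j, Commute t (star (v j)) := by
    intro j
    have := congrArg star (t_v j).eq
    rw [star_mul, star_mul, tsa] at this
    exact this.symm
  have ts : t * s = s * c := by
    rw [ht', add_mul, cs, add_zero, Finset.sum_mul]
    simp only [mul_assoc, vjs, mul_ite, mul_zero, Finset.sum_ite_eq', Finset.mem_univ, if_true]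
    rw [← hc, ← mul_assoc, hvs]
  have st : s * t = s * c := by
    rw [ht', mul_add, Finset.mul_sum]
    rw [Finset.sum_eq_zero, zero_add]
    intro i _
    have : s * (v i * s * star s * star (v i)) = (s * v i * s) * (star s * star (v i)) := by
      simp only [mul_assoc]
    rw [this, svs, zero_mul]
  have t_s : Commute t s := ts.trans st.symm
  have t_c : Commute t c := by
    rw [c_eq]
    refine (Commute.one_right t).sub_right ?_
    exact Commute.sum_right _ _ _ fun i _ => (t_v i).mul_right (t_v' i)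
  have t_P : Commute t P := by
    rw [hP]
    exact (t_v 0).mul_right (t_v 0)
  have t_rc : Commute t rc := (rc3 _ t_c.symm).symm
  refine ⟨t, c, P, w, ?_⟩
  constructor
  · exact ww
  · exact hv
  · exact fun i => (tw i).symm
  · rw [c_eq]
    abel
  · intro j
    rw [wl]
    exact (rcv j).eq
  · rw [wl, rc1]
  · intro j
    have e : (1 : E) - c = ∑ i, v i * star (v i) := by rw [c_eq]; abel
    rw [e, hvj]
  · exact fun j => (wj j).symm
  · intro j i
    rw [wj, ← mul_assoc, hv]
    split_ifs
    · rw [Ps]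
    · rw [zero_mul]
  · exact tv
  · exact cv
  · exact csa
  · exact ht.symm
  · exact tsa
  · intro i
    induction i using Fin.lastCases with
    | last =>
      rw [wl]
      exact t_rc
    | cast i =>
      rw [wj]
      exact (t_v i).mul_right t_s
  · exact t_v
  · exact t_s
  · exact t_P
  · exact t_c

/-- Continuous functional calculus of a selfadjoint element, on functions on the real line. -/
def psi {E : Type*} [CStarAlgebra E] (t : E) (ht : IsSelfAdjoint t) : C(ℝ, ℂ) →⋆ₐ[ℂ] E :=
  (cfcHom (R := ℂ) (p := IsStarNormal) ht.isStarNormal).comp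
    (ContinuousMap.compStarAlgHom' ℂ ℂ
      (⟨fun z : spectrum ℂ t => (z : ℂ).re, by fun_prop⟩ : C(spectrum ℂ t, ℝ)))

theorem psi_tau {E : Type*} [CStarAlgebra E] (t : E) (ht : IsSelfAdjoint t) :
    psi t ht tau = t := by
  have h := cfcHom_id (R := ℂ) (p := IsStarNormal) ht.isStarNormal
  rw [psi, StarAlgHom.comp_apply]
  conv_rhs => rw [← h]
  congr 1
  ext z
  exact (ht.mem_spectrum_eq_re z.2).symm

theorem psi_commute {E : Type*} [CStarAlgebra E] (t : E) (ht : IsSelfAdjoint t) (g : C(ℝ, ℂ))
    (y : E) (hy : Commute t y) : Commute (psi t ht g) y := by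
  rw [psi, StarAlgHom.comp_apply]
  exact ht.commute_cfcHom _ hy _

/-- The commutant of `t`. -/
abbrev cmt {E : Type*} [CStarAlgebra E] (t : E) : StarSubalgebra ℂ E :=
  StarSubalgebra.centralizer ℂ ({t} : Set E)

theorem mem_cmt {E : Type*} [CStarAlgebra E] {t : E} (ht : IsSelfAdjoint t) {y : E} :
    y ∈ cmt t ↔ Commute t y := by
  rw [StarSubalgebra.mem_centralizer_iff]
  constructor
  · intro h
    exact (h t rfl).1
  · rintro h g rfl
    refine ⟨h, ?_⟩
    rw [ht.star_eq]
    exact h

/-- The functional calculus with values in the commutant. -/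
def psiD {E : Type*} [CStarAlgebra E] (t : E) (ht : IsSelfAdjoint t) : C(ℝ, ℂ) →+* cmt t :=
  ((psi t ht : C(ℝ, ℂ) →⋆ₐ[ℂ] E) : C(ℝ, ℂ) →+* E).codRestrict (cmt t)
    (fun g => (mem_cmt ht).2 (psi_commute t ht g t (Commute.refl t)).symm)

theorem psiD_coe {E : Type*} [CStarAlgebra E] (t : E) (ht : IsSelfAdjoint t) (g : C(ℝ, ℂ)) :
    (psiD t ht g : E) = psi t ht g := rfl

theorem psiD_commute {E : Type*} [CStarAlgebra E] (t : E) (ht : IsSelfAdjoint t) (g : C(ℝ, ℂ))
    (y : cmt t) : psiD t ht g * y = y * psiD t ht g := by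
  apply Subtype.ext
  exact psi_commute t ht g y ((mem_cmt ht).1 y.2)

theorem psiD_star {E : Type*} [CStarAlgebra E] (t : E) (ht : IsSelfAdjoint t) (g : C(ℝ, ℂ)) :
    psiD t ht (star g) = star (psiD t ht g) := by
  apply Subtype.ext
  exact map_star (psi t ht) g

theorem psiD_tau {E : Type*} [CStarAlgebra E] (t : E) (ht : IsSelfAdjoint t) :
    (psiD t ht tau : E) = t := psi_tau t ht

/-- The algebra structure of the commutant over the continuous functions. -/
abbrev algD {E : Type*} [CStarAlgebra E] (t : E) (ht : IsSelfAdjoint t) :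
    Algebra C(ℝ, ℂ) (cmt t) := RingHom.toAlgebra' (psiD t ht) (psiD_commute t ht)

theorem starModD {E : Type*} [CStarAlgebra E] (t : E) (ht : IsSelfAdjoint t) :
    letI := algD t ht
    StarModule C(ℝ, ℂ) (cmt t) := by
  let _ := algD t ht
  refine ⟨fun g d => ?_⟩
  change star (psiD t ht g * d) = psiD t ht (star g) * star d
  rw [star_mul, psiD_star, ← psiD_star, psiD_commute]

theorem frameD {E : Type*} [CStarAlgebra E] {t c P s : E} {v : Fin (N+1) → E} {w : Fin (N+2) → E}
    (R : Rel t c P s v w) (ht : IsSelfAdjoint t) :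
    letI := algD t ht
    ∃ (c' P' s' : cmt t) (v' : Fin (N+1) → cmt t) (w' : Fin (N+2) → cmt t),
      Frame tau c' P' s' v' w' := by
  let _ := algD t ht
  have sm : ∀ (g : C(ℝ, ℂ)) (d : cmt t), ((g • d : cmt t) : E) = psi t ht g * (d : E) :=
    fun _ _ => rfl
  have st : ∀ (d : cmt t), ((tau • d : cmt t) : E) = t * (d : E) := by
    intro d
    rw [sm, psi_tau]
  refine ⟨⟨c, (mem_cmt ht).2 R.t_c⟩, ⟨P, (mem_cmt ht).2 R.t_P⟩, ⟨s, (mem_cmt ht).2 R.t_s⟩,
    fun j => ⟨v j, (mem_cmt ht).2 (R.t_v j)⟩, fun j => ⟨w j, (mem_cmt ht).2 (R.t_w j)⟩, ?_⟩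
  constructor
  · intro i i'
    apply Subtype.ext
    have := R.ww i i'
    split_ifs with h
    · rw [if_pos h] at this
      exact this
    · rw [if_neg h] at this
      exact this
  · intro i i'
    apply Subtype.ext
    have := R.vv i i'
    split_ifs with h
    · rw [if_pos h] at this
      exact this
    · rw [if_neg h] at this
      exact this
  · intro i
    apply Subtype.ext
    rw [st]
    exact R.wc i
  · apply Subtype.ext
    have := R.vsum
    push_cast
    exact this
  · intro j
    exact Subtype.ext (R.comm j)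
  · exact Subtype.ext R.sa
  · intro j
    exact Subtype.ext (R.vP j)
  · intro j
    exact Subtype.ext (R.vs j)
  · intro i i'
    apply Subtype.ext
    have := R.vw i i'
    split_ifs with h
    · rw [if_pos h] at this
      exact this
    · rw [if_neg h] at this
      exact this
  · intro j
    apply Subtype.ext
    rw [st]
    exact R.tv j
  · intro j
    exact Subtype.ext (R.cv j)
  · exact Subtype.ext R.csa
  · apply Subtype.ext
    rw [st]
    have := R.wsum
    push_cast
    rw [mul_one]
    exact this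
  · exact star_tau

end DG

open DG in
/-- The relations of `I(n+1,n+2)` give a unital star homomorphism from `I(n+1,n+2)`. -/
theorem dimDropHom_succ {E : Type*} [CStarAlgebra E] (N : ℕ) (v : Fin (N + 1) → E) (s : E)
    (h0 : IsSelfAdjoint (v 0)) (hv : ∀ i j, star (v i) * v j = if i = j then v 0 * v 0 else 0)
    (hz : ∀ i j, j ≠ 0 → v i * v j = 0) (hs : ∑ i, v i * star (v i) + star s * s = 1)
    (hvs : v 0 * s = s) : Nonempty (dimDrop (N + 1) (N + 2) →⋆ₐ[ℂ] E) := by
  obtain ⟨t, c, P, w, R⟩ := exists_rel v s h0 hv hz hs hvs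
  have ht : IsSelfAdjoint t := R.tsa
  let _ := algD t ht
  have _ := starModD t ht
  obtain ⟨c', P', s', v', w', F⟩ := frameD R ht
  have sm : ∀ (r : ℂ) (d : cmt t), (((algebraMap ℂ C(ℝ, ℂ) r) • d : cmt t) : E) = r • (d : E) := by
    intro r d
    change psi t ht (algebraMap ℂ C(ℝ, ℂ) r) * (d : E) = _
    rw [AlgHomClass.commutes, Algebra.smul_def]
  have hone : ((Frame.th v' w' (K (xx 1)) (K (yy 1)) (XX 1) : cmt t) : E) = 1 := by
    rw [xx_one, yy_one, XX_one, K_one, K_one, F.th_one]
    rfl
  have hsm : ∀ (r : ℂ) (f : C(unitInterval, Matrix (I6 N) (I6 N) ℂ)),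
      ((Frame.th v' w' (K (xx (r • f))) (K (yy (r • f))) (XX (r • f)) : cmt t) : E) =
      r • ((Frame.th v' w' (K (xx f)) (K (yy f)) (XX f) : cmt t) : E) := by
    intro r f
    rw [xx_smul, yy_smul, XX_smul, K_smul, K_smul, Frame.th_smul, sm]
  refine ⟨{
    toFun := fun f => ((Frame.th v' w' (K (xx f)) (K (yy f)) (XX f) : cmt t) : E)
    map_one' := hone
    map_mul' := ?_
    map_zero' := ?_
    map_add' := ?_
    commutes' := ?_
    map_star' := ?_ }⟩
  · intro f g
    have e : ((f * g : dimDrop (N+1) (N+2)) : C(unitInterval, Matrix (I6 N) (I6 N) ℂ)) = f * g := rfl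
    rw [e, xx_mul f.2 g.2, yy_mul f.2 g.2, XX_mul f.2 g.2, K_mul, K_mul, ← F.th_mul]
    rfl
  · have e : ((0 : dimDrop (N+1) (N+2)) : C(unitInterval, Matrix (I6 N) (I6 N) ℂ)) = (0 : ℂ) • 1 :=
      (zero_smul ℂ (1 : C(unitInterval, Matrix (I6 N) (I6 N) ℂ))).symm
    rw [e, hsm, zero_smul]
  · intro f g
    have e : ((f + g : dimDrop (N+1) (N+2)) : C(unitInterval, Matrix (I6 N) (I6 N) ℂ)) = f + g := rfl
    rw [e, xx_add, yy_add, XX_add, K_add, K_add, Frame.th_add]
    rfl
  · intro r
    have e : ((algebraMap ℂ (dimDrop (N+1) (N+2)) r : dimDrop (N+1) (N+2)) : C(unitInterval, Matrix (I6 N) (I6 N) ℂ)) =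
        r • 1 := by
      rw [← Algebra.algebraMap_eq_smul_one]
      rfl
    rw [e, hsm, hone, Algebra.algebraMap_eq_smul_one]
  · intro f
    have e : ((star f : dimDrop (N+1) (N+2)) : C(unitInterval, Matrix (I6 N) (I6 N) ℂ)) =
        star (f : C(unitInterval, Matrix (I6 N) (I6 N) ℂ)) := rfl
    rw [e, xx_star, yy_star, XX_star, K_star, K_star, ← Frame.th_star]
    rfl

end Vale.Agent.P101
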