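import Vale.Agent.P101.Absorption

/-! Gluing and absorption for several fermionic modes `a i`. -/

set_option linter.unusedSectionVars false

namespace Vale.Agent.P101

section glueK

variable {E : Type*} [Ring E] [StarRing E] {D : Type*} [Ring D] [StarRing D]
variable {φ : ℕ → D →+* E} {b : D}
  (hφ : ∀ i j, i ≠ j → ∀ x y, Commute (φ i x) (φ j y))
  (hs : ∀ n d, φ n (star d) = star (φ n d))

include hφ in
theorem Zs_anti2 {a a' : D} (h : a * a' + a' * a = 0) (hab : a * b + b * a = 0)
    (hab' : a' * b + b * a' = 0) :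
    ∀ n, Zs φ a b n * Zs φ a' b n + Zs φ a' b n * Zs φ a b n = 0
  | 0 => by simp [Zs]
  | n + 1 => by
    have ih := Zs_anti2 h hab hab' n
    have hz := Zg_anti hφ hab n
    have hz' := Zg_anti hφ hab' n
    rw [Zs, Zs]
    set Z := Zs φ a b n
    set Z' := Zs φ a' b n
    set g := gam φ b n
    have c1 : φ n a * g = g * φ n a := ((gam_comm hφ le_rfl a).eq).symm
    have c2 : φ n a * Z' = Z' * φ n a := ((Zs_comm hφ a n le_rfl).eq).symm
    have c1' : φ n a' * g = g * φ n a' := ((gam_comm hφ le_rfl a').eq).symm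
    have c2' : φ n a' * Z = Z * φ n a' := ((Zs_comm hφ a' n le_rfl).eq).symm
    have c4 : φ n a * φ n a' + φ n a' * φ n a = 0 := by
      rw [← map_mul, ← map_mul, ← map_add, h, map_zero]
    calc (Z + g * φ n a) * (Z' + g * φ n a') + (Z' + g * φ n a') * (Z + g * φ n a)
        = (Z * Z' + Z' * Z) + Z * g * φ n a' + g * (φ n a * Z') + g * (φ n a * g) * φ n a'
          + Z' * g * φ n a + g * (φ n a' * Z) + g * (φ n a' * g) * φ n a := by noncomm_ring
      _ = (Z * Z' + Z' * Z) + (Z * g + g * Z) * φ n a' + (Z' * g + g * Z') * φ n a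
          + g * g * (φ n a * φ n a' + φ n a' * φ n a) := by
          rw [c1, c2, c1', c2']; noncomm_ring
      _ = 0 := by rw [ih, hz, hz', c4]; simp

include hφ hs in
theorem Zs_santi2 {a a' : D} (h : a * star a' + star a' * a = 0)
    (hsab : star a * b + b * star a = 0) (hsab' : star a' * b + b * star a' = 0)
    (hnb : b * star b = star b * b) :
    ∀ n, Zs φ a b n * star (Zs φ a' b n) + star (Zs φ a' b n) * Zs φ a b n = 0
  | 0 => by simp [Zs]
  | n + 1 => by
    have ih := Zs_santi2 h hsab hsab' hnb n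
    have hn := gam_normal hφ hs hnb n
    have hz0 := sZg_anti hφ hs hsab hnb n
    have hz1 := sZg_anti hφ hs hsab' hnb n
    have hz : Zs φ a b n * star (gam φ b n) + star (gam φ b n) * Zs φ a b n = 0 := by
      have := congrArg star hz0
      simpa [add_comm] using this
    rw [Zs, Zs, star_add, star_mul, ← hs]
    set Z := Zs φ a b n
    set Z' := Zs φ a' b n
    set g := gam φ b n
    have c1 : φ n (star a') * star g = star g * φ n (star a') :=
      ((sgam_comm hφ hs le_rfl _).eq).symm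
    have c2 : φ n a * star Z' = star Z' * φ n a := ((sZs_comm hφ hs a le_rfl).eq).symm
    have c3 : φ n (star a') * Z = Z * φ n (star a') := ((Zs_comm hφ _ n le_rfl).eq).symm
    have c5 : φ n a * star g = star g * φ n a := ((sgam_comm hφ hs le_rfl _).eq).symm
    have c6 : φ n (star a') * g = g * φ n (star a') := ((gam_comm hφ le_rfl _).eq).symm
    have c4 : φ n a * φ n (star a') + φ n (star a') * φ n a = 0 := by
      rw [← map_mul, ← map_mul, ← map_add, h, map_zero]
    calc (Z + g * φ n a) * (star Z' + φ n (star a') * star g)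
          + (star Z' + φ n (star a') * star g) * (Z + g * φ n a)
        = (Z * star Z' + star Z' * Z) + Z * (φ n (star a') * star g) + g * (φ n a * star Z')
          + g * φ n a * (φ n (star a') * star g) + star Z' * g * φ n a
          + (φ n (star a') * star g) * Z + (φ n (star a') * star g) * g * φ n a := by
            noncomm_ring
      _ = (Z * star Z' + star Z' * Z) + Z * (star g * φ n (star a')) + g * (star Z' * φ n a)
          + g * (φ n a * star g) * φ n (star a') + star Z' * g * φ n a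
          + star g * (φ n (star a') * Z) + star g * (φ n (star a') * g) * φ n a := by
            rw [c1, c2]; noncomm_ring
      _ = (Z * star Z' + star Z' * Z) + Z * (star g * φ n (star a')) + g * (star Z' * φ n a)
          + g * (star g * φ n a) * φ n (star a') + star Z' * g * φ n a
          + star g * (Z * φ n (star a')) + star g * (g * φ n (star a')) * φ n a := by
            rw [c3, c5, c6]
      _ = (Z * star Z' + star Z' * Z) + (Z * star g + star g * Z) * φ n (star a')
          + (star Z' * g + g * star Z') * φ n a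
          + (g * star g) * (φ n a * φ n (star a')) + (star g * g) * (φ n (star a') * φ n a) := by
            noncomm_ring
      _ = (Z * star Z' + star Z' * Z)
          + (star g * g) * (φ n a * φ n (star a') + φ n (star a') * φ n a) := by
            rw [hz, hz1, hn]; noncomm_ring
      _ = 0 := by rw [ih, c4]; simp

/-- `Θ = ℓ_p* Z Z* + ℓ_q* Z` with `Z = Zs φ a b n` -/
def ThK (φ : ℕ → D →+* E) (l a b : D) (n p q : ℕ) : E :=
  φ p (star l) * (Zs φ a b n * star (Zs φ a b n)) + φ q (star l) * Zs φ a b n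

variable {a l : D} (haa : a * a = 0) (hab : a * b + b * a = 0)
  (hsab : star a * b + b * star a = 0)
  (hbb : star b * b = 1 - (star a * a + a * star a)) (hnb : b * star b = star b * b)

include hφ hs hab hsab hnb in
theorem slide_ThK (hl : ∃ d', star l * b = b * d') (m n p q : ℕ) :
    Slide φ b m (ThK φ l a b n p q) :=
  ((slide_of hφ _ hl).mul
    ((slide_Zs hφ hab m n).mul (slide_sZs hφ hs hsab hnb m n))).add
    ((slide_of hφ _ hl).mul (slide_Zs hφ hab m n))

include hφ hs hab hsab hnb in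
theorem slide_sThK (hl : ∃ d', l * b = b * d') (m n p q : ℕ) :
    Slide φ b m (star (ThK φ l a b n p q)) := by
  rw [ThK, star_add, star_mul, star_mul, star_mul, star_star, ← hs, ← hs, star_star]
  exact (((slide_Zs hφ hab m n).mul (slide_sZs hφ hs hsab hnb m n)).mul
    (slide_of hφ _ hl)).add
    ((slide_sZs hφ hs hsab hnb m n).mul (slide_of hφ _ hl))

include hφ hs hab hsab in
theorem ThK_kill {m n p q : ℕ} (hn : m < n) (hp : m < p) (hq : m < q) {X : E}
    (hX : Kill φ b m X) : Kill φ b m (ThK φ l a b n p q * X) := by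
  have h1 := ((hX.sZs_mul hφ hs hab hsab hn).Zs_mul hφ hs hab hsab hn).mul_left hφ
    (p := p) (by omega) (star l)
  have h2 := (hX.Zs_mul hφ hs hab hsab hn).mul_left hφ (p := q) (by omega) (star l)
  constructor
  · rw [ThK, add_mul, mul_add, mul_assoc, mul_assoc, mul_assoc, h1.1, h2.1, add_zero]
  · rw [ThK, add_mul, mul_add, mul_assoc, mul_assoc, mul_assoc, h1.2, h2.2, add_zero]

include hφ hs haa hab hsab hbb hnb in
theorem ThK_proj {m n p q : ℕ} (hn : m < n) (hp : m < p) (hq : m < q) {X : E}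
    (hX : Kill φ b m X) :
    Zs φ a b n * star (Zs φ a b n) * (ThK φ l a b n p q * X) = ThK φ l a b n p q * X := by
  have hZX := hX.Zs_mul hφ hs hab hsab hn
  have hsZX := hX.sZs_mul hφ hs hab hsab hn
  have hZsZX := hsZX.Zs_mul hφ hs hab hsab hn
  have hsZZX := hZX.sZs_mul hφ hs hab hsab hn
  have hsq := Zs_sq hφ haa hab n
  have hssq : star (Zs φ a b n) * star (Zs φ a b n) = 0 := by
    rw [← star_mul, hsq, star_zero]
  have u1 := Zs_unit hφ hs hsab hbb hnb hn hsZX
  have u2 := Zs_unit hφ hs hsab hbb hnb hn hZX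
  have p1 := sZs_pass (a := a) hφ hs hn hp hZsZX (star l)
  have p2 := Zs_pass (a := a) hφ hn hp (hZsZX.sZs_mul hφ hs hab hsab hn) (star l)
  have p3 := sZs_pass (a := a) hφ hs hn hq hZX (star l)
  have p4 := Zs_pass (a := a) hφ hn hq hsZZX (star l)
  rw [ThK]
  set Z := Zs φ a b n
  have e1 : star Z * (star Z * X) = 0 := by rw [← mul_assoc, hssq, zero_mul]
  have e2 : Z * (Z * X) = 0 := by rw [← mul_assoc, hsq, zero_mul]
  rw [e1, mul_zero, zero_add] at u1
  rw [e2, mul_zero, add_zero] at u2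
  simp only [add_mul, mul_add, mul_assoc]
  rw [p1, p2, p3, p4, u1, u2]

include hφ hs hab hsab in
/-- a letter of another copy passes through `Θ` -/
theorem ThK_letter {m n p q r : ℕ} (hn : m < n) (hr : m < r) (hrp : r ≠ p)
    (hrq : r ≠ q) {X : E} (hX : Kill φ b m X) (d : D) :
    φ r d * (ThK φ l a b n p q * X) = ThK φ l a b n p q * (φ r d * X) := by
  have hsZX := hX.sZs_mul hφ hs hab hsab hn
  rw [ThK, add_mul, mul_add, add_mul]
  congr 1
  · calc φ r d * (φ p (star l) * (Zs φ a b n * star (Zs φ a b n)) * X)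
        = (φ r d * φ p (star l)) * (Zs φ a b n * (star (Zs φ a b n) * X)) := by noncomm_ring
      _ = φ p (star l) * (φ r d * (Zs φ a b n * (star (Zs φ a b n) * X))) := by
        rw [(hφ r p hrp d (star l)).eq, mul_assoc]
      _ = φ p (star l) * (Zs φ a b n * (star (Zs φ a b n) * (φ r d * X))) := by
        rw [← Zs_pass hφ hn hr hsZX d, ← sZs_pass hφ hs hn hr hX d]
      _ = _ := by noncomm_ring
  · calc φ r d * (φ q (star l) * Zs φ a b n * X)
        = (φ r d * φ q (star l)) * (Zs φ a b n * X) := by noncomm_ring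
      _ = φ q (star l) * (φ r d * (Zs φ a b n * X)) := by
        rw [(hφ r q hrq d (star l)).eq, mul_assoc]
      _ = φ q (star l) * (Zs φ a b n * (φ r d * X)) := by rw [← Zs_pass hφ hn hr hX d]
      _ = _ := by noncomm_ring

include hφ hs hab hsab in
/-- the even element `Z' Z'*` of another mode passes through `Θ` -/
theorem ThK_even {a' : D} (hab' : a' * b + b * a' = 0) (hsab' : star a' * b + b * star a' = 0)
    {m n p q : ℕ} (hn : m < n) (hp : m < p) (hq : m < q) {X : E} (hX : Kill φ b m X)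
    (h1 : Zs φ a' b n * star (Zs φ a' b n) * Zs φ a b n
      = Zs φ a b n * (Zs φ a' b n * star (Zs φ a' b n)))
    (h2 : Zs φ a' b n * star (Zs φ a' b n) * star (Zs φ a b n)
      = star (Zs φ a b n) * (Zs φ a' b n * star (Zs φ a' b n))) :
    Zs φ a' b n * star (Zs φ a' b n) * (ThK φ l a b n p q * X)
      = ThK φ l a b n p q * (Zs φ a' b n * star (Zs φ a' b n) * X) := by
  have hsZX := hX.sZs_mul hφ hs hab hsab hn
  have hZX := hX.Zs_mul hφ hs hab hsab hn
  have hZsZX := hsZX.Zs_mul hφ hs hab hsab hn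
  have q1 := sZs_pass (a := a') hφ hs hn hp hZsZX (star l)
  have q2 := Zs_pass (a := a') hφ hn hp (hZsZX.sZs_mul hφ hs hab' hsab' hn) (star l)
  have q3 := sZs_pass (a := a') hφ hs hn hq hZX (star l)
  have q4 := Zs_pass (a := a') hφ hn hq (hZX.sZs_mul hφ hs hab' hsab' hn) (star l)
  rw [ThK]
  set Z := Zs φ a b n
  set Z' := Zs φ a' b n
  calc Z' * star Z' * ((φ p (star l) * (Z * star Z) + φ q (star l) * Z) * X)
      = Z' * (star Z' * (φ p (star l) * (Z * (star Z * X))))
        + Z' * (star Z' * (φ q (star l) * (Z * X))) := by noncomm_ring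
    _ = φ p (star l) * (Z' * (star Z' * (Z * (star Z * X))))
        + φ q (star l) * (Z' * (star Z' * (Z * X))) := by rw [q1, q2, q3, q4]
    _ = φ p (star l) * ((Z' * star Z' * Z) * (star Z * X))
        + φ q (star l) * ((Z' * star Z' * Z) * X) := by noncomm_ring
    _ = φ p (star l) * (Z * ((Z' * star Z' * star Z) * X))
        + φ q (star l) * (Z * ((Z' * star Z') * X)) := by rw [h1]; noncomm_ring
    _ = _ := by rw [h2]; noncomm_ring

include hφ hs haa hab hsab hbb hnb in
theorem ThK_gram_off {m n p q p' q' : ℕ} (hn : m < n) (hp : m < p) (hq : m < q)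
    {X X' : E} (hX' : Kill φ b m X')
    (hp' : p ≠ p') (hpq' : p ≠ q') (hqp' : q ≠ p') (hq' : q ≠ q')
    (ap : φ p l * X' = 0) (aq : φ q l * X' = 0) :
    star (ThK φ l a b n p q * X) * (ThK φ l a b n p' q' * X') = 0 := by
  have hsZX := hX'.sZs_mul hφ hs hab hsab hn
  have key : ∀ r, m < r → φ r l * X' = 0 → ∀ r', r ≠ r' →
      φ r l * (φ r' (star l) * (Zs φ a b n * (star (Zs φ a b n) * X'))) = 0 ∧
      φ r l * (φ r' (star l) * (Zs φ a b n * X')) = 0 := by
    intro r hr har r' hrr'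
    constructor
    · rw [← mul_assoc, (hφ r r' hrr' l (star l)).eq, mul_assoc, ← Zs_pass hφ hn hr hsZX l,
        ← sZs_pass hφ hs hn hr hX' l, har]
      simp
    · rw [← mul_assoc, (hφ r r' hrr' l (star l)).eq, mul_assoc, ← Zs_pass hφ hn hr hX' l, har]
      simp
  have hsTh : star (ThK φ l a b n p q * X)
      = star X * (Zs φ a b n * star (Zs φ a b n)) * φ p l
      + star X * star (Zs φ a b n) * φ q l := by
    rw [ThK, star_mul, star_add, star_mul, star_mul, star_mul, star_star, ← hs, ← hs, star_star]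
    noncomm_ring
  rw [hsTh, ThK]
  simp only [add_mul, mul_add, mul_assoc]
  rw [(key p hp ap p' hp').1, (key p hp ap q' hpq').2, (key q hq aq p' hqp').1,
    (key q hq aq q' hq').2]
  simp

include hφ hs haa hab hsab hbb hnb in
theorem ThK_gram_diag {m n p q : ℕ} (hn : m < n) (hp : m < p) (hq : m < q) (hpq : p ≠ q)
    {X : E} (hX : Kill φ b m X)
    (ap : φ p l * X = 0) (aq : φ q l * X = 0)
    (ap' : φ p (l * star l) * X = X) (aq' : φ q (l * star l) * X = X) :
    star (ThK φ l a b n p q * X) * (ThK φ l a b n p q * X) = star X * X := by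
  have hsZX := hX.sZs_mul hφ hs hab hsab hn
  have hsq := Zs_sq hφ haa hab n
  have hssq : star (Zs φ a b n) * star (Zs φ a b n) = 0 := by
    rw [← star_mul, hsq, star_zero]
  have k1 : φ p l * (φ p (star l) * (Zs φ a b n * (star (Zs φ a b n) * X)))
      = Zs φ a b n * (star (Zs φ a b n) * X) := by
    rw [← mul_assoc, ← map_mul, ← Zs_pass hφ hn hp hsZX, ← sZs_pass hφ hs hn hp hX, ap']
  have k2 : φ q l * (φ q (star l) * (Zs φ a b n * X)) = Zs φ a b n * X := by
    rw [← mul_assoc, ← map_mul, ← Zs_pass hφ hn hq hX, aq']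
  have k3 : φ p l * (φ q (star l) * (Zs φ a b n * X)) = 0 := by
    rw [← mul_assoc, (hφ p q hpq l (star l)).eq, mul_assoc, ← Zs_pass hφ hn hp hX l, ap]
    simp
  have k4 : φ q l * (φ p (star l) * (Zs φ a b n * (star (Zs φ a b n) * X))) = 0 := by
    rw [← mul_assoc, (hφ q p hpq.symm l (star l)).eq, mul_assoc, ← Zs_pass hφ hn hq hsZX l,
      ← sZs_pass hφ hs hn hq hX l, aq]
    simp
  have u1 := Zs_unit hφ hs hsab hbb hnb hn hsZX
  have u0 := Zs_unit hφ hs hsab hbb hnb hn hX
  have hsTh : star (ThK φ l a b n p q * X)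
      = star X * (Zs φ a b n * star (Zs φ a b n)) * φ p l
      + star X * star (Zs φ a b n) * φ q l := by
    rw [ThK, star_mul, star_add, star_mul, star_mul, star_mul, star_star, ← hs, ← hs, star_star]
    noncomm_ring
  rw [hsTh, ThK]
  set Z := Zs φ a b n
  have e1 : star Z * (star Z * X) = 0 := by rw [← mul_assoc, hssq, zero_mul]
  rw [e1, mul_zero, zero_add] at u1
  simp only [add_mul, mul_add, mul_assoc]
  rw [k1, k2, k3, k4, u1]
  simp only [mul_zero, add_zero, zero_add]
  rw [← mul_add, u0]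

end glueK

section modes

variable {E : Type*} [Ring E] [StarRing E] {D : Type*} [Ring D] [StarRing D]
variable {ι : Type*}

/-- the product of the operators `Θ` over a list of modes -/
def WL (φ : ℕ → D →+* E) (l : D) (a : ι → D) (b : D) (n : ℕ) (P Q : ι → ℕ) : List ι → E
  | [] => 1
  | i :: L => ThK φ l (a i) b n (P i) (Q i) * WL φ l a b n P Q L

/-- the standing relations of the modes -/
structure ModeRel (a : ι → D) (b : D) : Prop where
  sq : ∀ i, a i * a i = 0
  anti : ∀ i j, i ≠ j → a i * a j + a j * a i = 0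
  santi : ∀ i j, i ≠ j → a i * star (a j) + star (a j) * a i = 0
  ab : ∀ i, a i * b + b * a i = 0
  sab : ∀ i, star (a i) * b + b * star (a i) = 0
  bb : ∀ i, star b * b = 1 - (star (a i) * a i + a i * star (a i))
  nb : b * star b = star b * b

variable {φ : ℕ → D →+* E} {a : ι → D} {b : D}
  (hφ : ∀ i j, i ≠ j → ∀ x y, Commute (φ i x) (φ j y))
  (hs : ∀ n d, φ n (star d) = star (φ n d)) (hR : ModeRel a b)

include hφ hs hR in
theorem even_comm {i j : ι} (hij : i ≠ j) (n : ℕ) :
    Zs φ (a j) b n * star (Zs φ (a j) b n) * Zs φ (a i) b n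
      = Zs φ (a i) b n * (Zs φ (a j) b n * star (Zs φ (a j) b n)) ∧
    Zs φ (a j) b n * star (Zs φ (a j) b n) * star (Zs φ (a i) b n)
      = star (Zs φ (a i) b n) * (Zs φ (a j) b n * star (Zs φ (a j) b n)) := by
  have h1 := Zs_anti2 hφ (hR.anti i j hij) (hR.ab i) (hR.ab j) n
  have h2 := Zs_santi2 hφ hs (hR.santi i j hij) (hR.sab i) (hR.sab j) hR.nb n
  set Z := Zs φ (a i) b n
  set Z' := Zs φ (a j) b n
  have h1' : Z' * Z = -(Z * Z') := by rw [eq_neg_iff_add_eq_zero, add_comm, h1]
  have h2' : star Z' * Z = -(Z * star Z') := by rw [eq_neg_iff_add_eq_zero, add_comm, h2]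
  have h3' : star Z' * star Z = -(star Z * star Z') := by
    have := congrArg star h1
    simp only [star_add, star_mul, star_zero] at this
    rw [eq_neg_iff_add_eq_zero, this]
  have h4' : Z' * star Z = -(star Z * Z') := by
    have := congrArg star h2
    simp only [star_add, star_mul, star_star, star_zero] at this
    rw [eq_neg_iff_add_eq_zero, this]
  constructor
  · rw [mul_assoc, h2', mul_neg, ← mul_assoc, h1']; noncomm_ring
  · rw [mul_assoc, h3', mul_neg, ← mul_assoc, h4']; noncomm_ring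

include hφ hs hR in
theorem WL_props {l : D} {n m : ℕ} (hn : m < n) {P Q : ι → ℕ} {R : Set ℕ}
    (hRm : ∀ r ∈ R, m < r) (hP : ∀ i, P i ∈ R) (hQ : ∀ i, Q i ∈ R)
    (hPQ : ∀ i j, P i ≠ Q j) (hPP : ∀ i j, i ≠ j → P i ≠ P j) (hQQ : ∀ i j, i ≠ j → Q i ≠ Q j)
    {X : E} (hX : Kill φ b m X) (hXl : ∀ r ∈ R, φ r l * X = 0)
    (hXll : ∀ r ∈ R, φ r (l * star l) * X = X) :
    ∀ L : List ι, L.Nodup →
      Kill φ b m (WL φ l a b n P Q L * X) ∧
      (∀ r ∈ R, (∀ i ∈ L, r ≠ P i ∧ r ≠ Q i) → φ r l * (WL φ l a b n P Q L * X) = 0 ∧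
        φ r (l * star l) * (WL φ l a b n P Q L * X) = WL φ l a b n P Q L * X) ∧
      (∀ i ∈ L, Zs φ (a i) b n * star (Zs φ (a i) b n) * (WL φ l a b n P Q L * X)
        = WL φ l a b n P Q L * X) ∧
      star (WL φ l a b n P Q L * X) * (WL φ l a b n P Q L * X) = star X * X
  | [], _ => by
    refine ⟨by simpa [WL] using hX, fun r hr _ => ?_, by simp, by simp [WL]⟩
    simp only [WL, one_mul]
    exact ⟨hXl r hr, hXll r hr⟩
  | i :: L, hL => by
    obtain ⟨h1, h2, h3, h4⟩ := WL_props hn hRm hP hQ hPQ hPP hQQ hX hXl hXll L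
      (List.nodup_cons.1 hL).2
    have hiL : i ∉ L := (List.nodup_cons.1 hL).1
    have hPi := hRm _ (hP i)
    have hQi := hRm _ (hQ i)
    have hw : WL φ l a b n P Q (i :: L) * X
        = ThK φ l (a i) b n (P i) (Q i) * (WL φ l a b n P Q L * X) := by
      rw [WL, mul_assoc]
    have hPL : ∀ j ∈ L, P i ≠ P j ∧ P i ≠ Q j := fun j hj =>
      ⟨hPP i j (fun h => hiL (h ▸ hj)), hPQ i j⟩
    have hQL : ∀ j ∈ L, Q i ≠ P j ∧ Q i ≠ Q j := fun j hj =>
      ⟨(hPQ j i).symm, hQQ i j (fun h => hiL (h ▸ hj))⟩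
    rw [hw]
    refine ⟨ThK_kill hφ hs (hR.ab i) (hR.sab i) hn hPi hQi h1, ?_, ?_, ?_⟩
    · intro r hr hrL
      have e1 := hrL i (List.mem_cons_self ..)
      have e2 := h2 r hr fun j hj => hrL j (List.mem_cons_of_mem _ hj)
      constructor
      · rw [ThK_letter hφ hs (hR.ab i) (hR.sab i) hn (hRm r hr) e1.1 e1.2 h1, e2.1, mul_zero]
      · rw [ThK_letter hφ hs (hR.ab i) (hR.sab i) hn (hRm r hr) e1.1 e1.2 h1, e2.2]
    · intro j hj
      by_cases hji : j = i
      · subst hji
        exact ThK_proj hφ hs (hR.sq j) (hR.ab j) (hR.sab j) (hR.bb j) hR.nb hn hPi hQi h1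
      · have hjL : j ∈ L := (List.mem_cons.1 hj).resolve_left hji
        obtain ⟨c1, c2⟩ := even_comm (a := a) hφ hs hR (i := i) (j := j) (Ne.symm hji) n
        rw [ThK_even hφ hs (hR.ab i) (hR.sab i) (hR.ab j) (hR.sab j) hn hPi hQi h1 c1 c2,
          h3 j hjL]
    · have eP := h2 (P i) (hP i) hPL
      have eQ := h2 (Q i) (hQ i) hQL
      rw [ThK_gram_diag hφ hs (hR.sq i) (hR.ab i) (hR.sab i) (hR.bb i) hR.nb hn hPi hQi
        (hPQ i i) h1 eP.1 eQ.1 eP.2 eQ.2, h4]

include hφ hs hR in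
theorem WL_off {l : D} {n m : ℕ} (hn : m < n) {P Q P' Q' : ι → ℕ} {R : Set ℕ}
    (hRm : ∀ r ∈ R, m < r) (hP : ∀ i, P i ∈ R) (hQ : ∀ i, Q i ∈ R)
    (hP' : ∀ i, P' i ∈ R) (hQ' : ∀ i, Q' i ∈ R)
    (hPQ' : ∀ i j, P' i ≠ Q' j) (hPP' : ∀ i j, i ≠ j → P' i ≠ P' j)
    (hQQ' : ∀ i j, i ≠ j → Q' i ≠ Q' j)
    (d1 : ∀ i j, P i ≠ P' j) (d2 : ∀ i j, P i ≠ Q' j) (d3 : ∀ i j, Q i ≠ P' j)
    (d4 : ∀ i j, Q i ≠ Q' j)
    {X X' : E} (hX' : Kill φ b m X') (hXl' : ∀ r ∈ R, φ r l * X' = 0)
    (hXll' : ∀ r ∈ R, φ r (l * star l) * X' = X') (i : ι) (L : List ι) (hL : (i :: L).Nodup) :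
    star (WL φ l a b n P Q (i :: L) * X) * (WL φ l a b n P' Q' (i :: L) * X') = 0 := by
  obtain ⟨h1, h2, -, -⟩ := WL_props hφ hs hR hn hRm hP' hQ' hPQ' hPP' hQQ' hX' hXl' hXll' L
      (List.nodup_cons.1 hL).2
  have hw : WL φ l a b n P' Q' (i :: L) * X'
      = ThK φ l (a i) b n (P' i) (Q' i) * (WL φ l a b n P' Q' L * X') := by
    rw [WL, mul_assoc]
  have hw' : WL φ l a b n P Q (i :: L) * X
      = ThK φ l (a i) b n (P i) (Q i) * (WL φ l a b n P Q L * X) := by
    rw [WL, mul_assoc]
  rw [hw, hw']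
  exact ThK_gram_off hφ hs (hR.sq i) (hR.ab i) (hR.sab i) (hR.bb i) hR.nb hn (hRm _ (hP i))
    (hRm _ (hQ i)) h1 (d1 i i) (d2 i i) (d3 i i) (d4 i i)
    (h2 (P i) (hP i) fun j _ => ⟨d1 i j, d2 i j⟩).1
    (h2 (Q i) (hQ i) fun j _ => ⟨d3 i j, d4 i j⟩).1

include hφ hs hR in
theorem slide_WL {l : D} (hl : ∃ d', star l * b = b * d') (m n : ℕ) (P Q : ι → ℕ) :
    ∀ L : List ι, Slide φ b m (WL φ l a b n P Q L)
  | [] => ⟨1, by simp [WL]⟩
  | i :: L => by
    rw [WL]
    exact (slide_ThK hφ hs (hR.ab i) (hR.sab i) hR.nb hl m n _ _).mul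
      (slide_WL hl m n P Q L)

include hφ hs hR in
theorem slide_sWL {l : D} (hl : ∃ d', l * b = b * d') (m n : ℕ) (P Q : ι → ℕ) :
    ∀ L : List ι, Slide φ b m (star (WL φ l a b n P Q L))
  | [] => ⟨1, by simp [WL]⟩
  | i :: L => by
    rw [WL, star_mul]
    exact (slide_sWL hl m n P Q L).mul
      (slide_sThK hφ hs (hR.ab i) (hR.sab i) hR.nb hl m n _ _)

end modes

section final

universe u

variable {E : Type u} [CStarAlgebra E] [PartialOrder E] [StarOrderedRing E]

/-- positions in a finite set -/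
theorem exists_positions' {ι : Type*} [Fintype ι] (T : Finset ℕ)
    (hT : T.card = Fintype.card ι + 1) :
    ∃ (m : ℕ) (p : ι → ℕ), m ∈ T ∧ (∀ i, p i ∈ T) ∧ (∀ i, m < p i) ∧ Function.Injective p := by
  let f := T.orderEmbOfFin hT
  let e := Fintype.equivFin ι
  refine ⟨f 0, fun i => f (e i).succ, T.orderEmbOfFin_mem hT _,
    fun i => T.orderEmbOfFin_mem hT _, fun i => ?_, fun i j h => ?_⟩
  · exact f.lt_iff_lt.2 (Fin.succ_pos _)
  · have := f.injective h
    exact e.injective (Fin.succ_injective _ this)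

/-- **Stage 3 for several modes**, with an arbitrary multiplicity `M`. -/
theorem glue_absorb_modes (hcp : HasCopies E) {k K : ℕ} (α : Fin (k + 1) → E) (β : E)
    (V : Fin K → E)
    (haa : ∀ i j, α i * α j + α j * α i = 0)
    (hsa : ∀ i j, α i * star (α j) + star (α j) * α i = if i = j then 1 - star β * β else 0)
    (hab : ∀ i, α i * β + β * α i = 0) (hsab : ∀ i, star (α i) * β + β * star (α i) = 0)
    (hnb : β * star β = star β * β)
    (hav : ∀ i l, α i * V l = 0) (haav : ∀ i l, α i * star (α i) * V l = V l)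
    (hv : ∑ l, star (V l) * V l = 1) (M : ℕ) :
    ∃ (Z : Fin (k + 1) → E) (x c : E), (∀ i j, Z i * Z j + Z j * Z i = 0) ∧
      (∀ i j, Z i * star (Z j) + star (Z j) * Z i = if i = j then 1 - c else 0) ∧
      0 ≤ c ∧ M • c ≤ star x * x ∧ ∀ i, Z i * star (Z i) * x = x := by
  classical
  have two : ∀ x : E, x + x = 0 → x = 0 := fun x hx => by
    have h2 : (2 : ℂ) • x = 0 := by rw [two_smul, hx]
    exact (smul_eq_zero.1 h2).resolve_left (by norm_num)
  have hbb : ∀ i, star β * β = 1 - (star (α i) * α i + α i * star (α i)) := fun i => by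
    have := hsa i i
    rw [if_pos rfl, add_comm] at this
    rw [this]; abel
  -- consequences
  have hbv : ∀ l, β * V l = 0 := by
    intro l
    rw [← CStarRing.star_mul_self_eq_zero_iff]
    have : star (β * V l) * (β * V l) = star (V l) * (star β * β * V l) := by
      rw [star_mul]; noncomm_ring
    rw [this, hbb 0, sub_mul, one_mul, add_mul, mul_assoc, hav, haav]
    simp
  have hsbv : ∀ l, star β * V l = 0 := by
    intro l
    rw [← CStarRing.star_mul_self_eq_zero_iff]
    have : star (star β * V l) * (star β * V l) = star (V l) * (β * star β * V l) := by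
      rw [star_mul, star_star]; noncomm_ring
    rw [this, hnb, hbb 0, sub_mul, one_mul, add_mul, mul_assoc, hav, haav]
    simp
  set S : Set E := Set.range α ∪ {β} ∪ Set.range V with hS
  have hSf : S.Finite := ((Set.finite_range α).union (Set.toFinite _)).union (Set.finite_range V)
  obtain ⟨ρ, hρ⟩ := hcp S hSf
  have hsub : S ⊆ (StarAlgebra.adjoin ℂ S : Set E) := StarAlgebra.subset_adjoin ℂ S
  let a : Fin (k + 1) → StarAlgebra.adjoin ℂ S := fun i => ⟨α i, hsub (by simp [hS])⟩
  let b : StarAlgebra.adjoin ℂ S := ⟨β, hsub (by simp [hS])⟩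
  let v : Fin K → StarAlgebra.adjoin ℂ S := fun i => ⟨V i, hsub (by simp [hS])⟩
  have hR : ModeRel a b :=
    { sq := fun i => Subtype.ext (two _ (haa i i))
      anti := fun i j _ => Subtype.ext (haa i j)
      santi := fun i j h => Subtype.ext (by
        have := hsa i j
        rw [if_neg h] at this
        exact this)
      ab := fun i => Subtype.ext (hab i)
      sab := fun i => Subtype.ext (hsab i)
      bb := fun i => Subtype.ext (hbb i)
      nb := Subtype.ext hnb }
  have hav' : ∀ i l, a i * v l = 0 := fun i l => Subtype.ext (hav i l)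
  have haav' : ∀ i l, a i * star (a i) * v l = v l := fun i l => Subtype.ext (haav i l)
  have hbv' : ∀ l, b * v l = 0 := fun l => Subtype.ext (hbv l)
  have hsbv' : ∀ l, star b * v l = 0 := fun l => Subtype.ext (hsbv l)
  have hv' : ∑ l, star (v l) * v l = 1 := by
    apply Subtype.ext
    push_cast
    exact hv
  let φ : ℕ → StarAlgebra.adjoin ℂ S →+* E := fun k => (ρ k : StarAlgebra.adjoin ℂ S →+* E)
  have hφ : ∀ i j, i ≠ j → ∀ x y, Commute (φ i x) (φ j y) := fun i j h x y => hρ i j h x y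
  have hs : ∀ n d, φ n (star d) = star (φ n d) := fun n d => map_star (ρ n) d
  -- the index type of the labels
  let ι := (Fin K × Fin M) × Fin (k + 1) × Bool
  let t : ℕ := Fintype.card ι + 1
  let N : ℕ := K * t + 1
  let X : Finset ℕ → Fin K → E := fun T i =>
    prodN φ (fun n => if n ∈ T then v i * b else b) N
  have hT : ∀ T : Finset ℕ, ∃ (m : ℕ) (p : ι → ℕ), T.card = t →
      (m ∈ T ∧ (∀ i, p i ∈ T) ∧ (∀ i, m < p i) ∧ Function.Injective p) := by
    intro T
    by_cases h : T.card = t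
    · obtain ⟨m, p, h'⟩ := exists_positions' (ι := ι) T h
      exact ⟨m, p, fun _ => h'⟩
    · exact ⟨0, fun _ => 0, fun h' => absurd h' h⟩
  choose m pos hmp using hT
  let L : List (Fin (k + 1)) := 0 :: (List.finRange (k + 1)).erase 0
  have hLnd : L.Nodup := by
    have h1 := List.nodup_finRange (k + 1)
    refine List.nodup_cons.2 ⟨?_, h1.erase _⟩
    exact fun h => (List.Nodup.mem_erase_iff h1).1 h |>.1 rfl
  have hLmem : ∀ i, i ∈ L := fun i => by
    by_cases h : i = 0
    · subst h; exact List.mem_cons_self ..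
    · refine List.mem_cons_of_mem _ ?_
      exact (List.mem_erase_of_ne h).2 (List.mem_finRange i)
  let P : Finset ℕ → (Fin K × Fin M) → Fin (k + 1) → ℕ := fun T μ i => pos T (μ, i, true)
  let Q : Finset ℕ → (Fin K × Fin M) → Fin (k + 1) → ℕ := fun T μ i => pos T (μ, i, false)
  let y : Finset ℕ × (Fin K × Fin M) → E := fun j =>
    WL φ (a 0) a b N (P j.1 j.2) (Q j.1 j.2) L * X j.1 j.2.1
  let J : Finset (Finset ℕ × (Fin K × Fin M)) :=
    Finset.powersetCard t (Finset.range N) ×ˢ Finset.univ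
  have hJ : ∀ j ∈ J, j.1 ⊆ Finset.range N ∧ j.1.card = t := fun j hj =>
    Finset.mem_powersetCard.1 (Finset.mem_product.1 hj).1
  -- action of the letters on X
  have Xkill : ∀ T i n, n ∈ T → n < N → Kill φ b n (X T i) := by
    intro T i n hn hN
    constructor
    · exact mul_prodN_zero hφ hN (by rw [if_pos hn, ← mul_assoc, hbv', zero_mul])
    · exact mul_prodN_zero hφ hN (by rw [if_pos hn, ← mul_assoc, hsbv', zero_mul])
  have Xa : ∀ T i n, n ∈ T → n < N → φ n (a 0) * X T i = 0 := fun T i n hn hN =>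
    mul_prodN_zero hφ hN (by rw [if_pos hn, ← mul_assoc, hav', zero_mul])
  have Xaa : ∀ T i n, n ∈ T → n < N → φ n (a 0 * star (a 0)) * X T i = X T i :=
    fun T i n hn hN =>
      mul_prodN_self hφ hN (by rw [if_pos hn, ← mul_assoc, haav'])
  have Xb : ∀ T i n, n ∉ T → n < N → ∃ X'', X T i = φ n b * X'' := by
    intro T i n hn hN
    refine ⟨prodN φ (Function.update (fun n => if n ∈ T then v i * b else b) n 1) N, ?_⟩
    rw [mul_prodN hφ _ b n N hN, Function.update_self, mul_one, Function.update_idem]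
    refine prodN_congr φ N fun k _ => ?_
    by_cases hk : k = n
    · subst hk; rw [Function.update_self, if_neg hn]
    · rw [Function.update_of_ne hk]
  have XX : ∀ T i, star (X T i) * X T i = star (gam φ b N) * PT φ v T i N * gam φ b N := by
    intro T i
    simp only [X, gam, PT]
    rw [star_prodN hφ hs, star_prodN hφ hs, prodN_mul hφ, prodN_mul hφ, prodN_mul hφ]
    refine prodN_congr φ N fun k _ => ?_
    split_ifs
    · rw [star_mul]; noncomm_ring
    · simp
  -- common facts for one T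
  have facts : ∀ T : Finset ℕ, T ⊆ Finset.range N → T.card = t →
      m T < N ∧ (∀ r ∈ Set.range (pos T), m T < r) ∧
      (∀ i, Kill φ b (m T) (X T i)) ∧ (∀ i, ∀ r ∈ Set.range (pos T), φ r (a 0) * X T i = 0) ∧
      (∀ i, ∀ r ∈ Set.range (pos T), φ r (a 0 * star (a 0)) * X T i = X T i) := by
    intro T hT1 hT2
    obtain ⟨h1, h2, h3, h4⟩ := hmp T hT2
    have lt : ∀ n ∈ T, n < N := fun n hn => Finset.mem_range.1 (hT1 hn)
    refine ⟨lt _ h1, ?_, fun i => Xkill T i _ h1 (lt _ h1), ?_, ?_⟩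
    · rintro r ⟨j, rfl⟩; exact h3 j
    · rintro i r ⟨j, rfl⟩; exact Xa T i _ (h2 j) (lt _ (h2 j))
    · rintro i r ⟨j, rfl⟩; exact Xaa T i _ (h2 j) (lt _ (h2 j))
  have props : ∀ j ∈ J,
      (∀ i, Zs φ (a i) b N * star (Zs φ (a i) b N) * y j = y j) ∧
      star (y j) * y j = star (X j.1 j.2.1) * X j.1 j.2.1 := by
    rintro ⟨T, μ⟩ hj
    obtain ⟨hT1, hT2⟩ := hJ _ hj
    simp only at hT1 hT2
    obtain ⟨f1, f2, f3, f4, f5⟩ := facts T hT1 hT2
    have hinj := (hmp T hT2).2.2.2
    obtain ⟨-, -, w3, w4⟩ := WL_props (l := a 0) hφ hs hR f1 (R := Set.range (pos T)) f2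
      (P := P T μ) (Q := Q T μ) (fun i => ⟨_, rfl⟩) (fun i => ⟨_, rfl⟩)
      (fun i j h => Bool.noConfusion (congrArg (fun p : ι => p.2.2) (hinj h)))
      (fun i j hij h => hij (congrArg (fun p : ι => p.2.1) (hinj h)))
      (fun i j hij h => hij (congrArg (fun p : ι => p.2.1) (hinj h))) (f3 μ.1) (f4 μ.1) (f5 μ.1) L hLnd
    exact ⟨fun i => w3 i (hLmem i), w4⟩
  have hoff : ∀ j ∈ J, ∀ j' ∈ J, j ≠ j' → star (y j) * y j' = 0 := by
    rintro ⟨T, μ⟩ hj ⟨T', μ'⟩ hj' hne
    obtain ⟨hT1, hT2⟩ := hJ _ hj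
    obtain ⟨hT1', hT2'⟩ := hJ _ hj'
    simp only at hT1 hT2 hT1' hT2'
    by_cases hTT : T = T'
    · subst hTT
      have hii : μ ≠ μ' := fun h => hne (by rw [h])
      obtain ⟨f1, f2, f3, f4, f5⟩ := facts T hT1 hT2
      have hinj := (hmp T hT2).2.2.2
      exact WL_off (l := a 0) hφ hs hR f1 (R := Set.range (pos T)) f2
        (P := P T μ) (Q := Q T μ) (P' := P T μ') (Q' := Q T μ')
        (fun i => ⟨_, rfl⟩) (fun i => ⟨_, rfl⟩) (fun i => ⟨_, rfl⟩) (fun i => ⟨_, rfl⟩)
        (fun i j h => Bool.noConfusion (congrArg (fun p : ι => p.2.2) (hinj h)))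
        (fun i j hij h => hij (congrArg (fun p : ι => p.2.1) (hinj h)))
        (fun i j hij h => hij (congrArg (fun p : ι => p.2.1) (hinj h)))
        (fun i j h => hii (congrArg (fun p : ι => p.1) (hinj h)))
        (fun i j h => hii (congrArg (fun p : ι => p.1) (hinj h)))
        (fun i j h => hii (congrArg (fun p : ι => p.1) (hinj h)))
        (fun i j h => hii (congrArg (fun p : ι => p.1) (hinj h))) (f3 μ'.1) (f4 μ'.1) (f5 μ'.1) 0 _ hLnd
    · obtain ⟨n, hn, hn'⟩ : ∃ n ∈ T, n ∉ T' := by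
        by_contra hcon
        push Not at hcon
        exact hTT (Finset.eq_of_subset_of_card_le hcon (by rw [hT2, hT2']))
      have hnN : n < N := Finset.mem_range.1 (hT1 hn)
      obtain ⟨X'', hX''⟩ := Xb T' μ'.1 n hn' hnN
      have hk := (Xkill T μ.1 n hn hnN).2
      obtain ⟨w', hw'⟩ := (slide_sWL (l := a 0) hφ hs hR
          (slide_a (hR.ab 0)) n N (P T μ) (Q T μ) L).mul
        (slide_WL (l := a 0) hφ hs hR (slide_sa (hR.sab 0)) n N (P T' μ') (Q T' μ') L)
      have h3 : star (X T μ.1) * φ n b = 0 := by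
        have := congrArg star hk
        rw [star_mul, ← hs, star_star, star_zero] at this
        exact this
      calc star (y (T, μ)) * y (T', μ')
          = star (X T μ.1) * (star (WL φ (a 0) a b N (P T μ) (Q T μ) L)
            * WL φ (a 0) a b N (P T' μ') (Q T' μ') L * φ n b) * X'' := by
            simp only [y]
            rw [star_mul, hX'']; noncomm_ring
        _ = (star (X T μ.1) * φ n b) * w' * X'' := by rw [hw']; noncomm_ring
        _ = 0 := by rw [h3]; simp
  refine ⟨fun i => Zs φ (a i) b N, ∑ j ∈ J, y j, star (gam φ b N) * gam φ b N, ?_, ?_,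
    star_mul_self_nonneg _, ?_, ?_⟩
  · intro i j
    by_cases hij : i = j
    · subst hij
      have := Zs_sq hφ (hR.sq i) (hR.ab i) N
      simp only [this, add_zero]
    · exact Zs_anti2 hφ (hR.anti i j hij) (hR.ab i) (hR.ab j) N
  · intro i j
    split_ifs with hij
    · subst hij
      exact eq_sub_of_add_eq (Zs_sum hφ hs (hR.sab i) (hR.bb i) hR.nb N)
    · exact Zs_santi2 hφ hs (hR.santi i j hij) (hR.sab i) (hR.sab j) hR.nb N
  · have e1 : star (∑ j ∈ J, y j) * ∑ j ∈ J, y j
        = ∑ j ∈ J, star (X j.1 j.2.1) * X j.1 j.2.1 := by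
      rw [star_sum, Finset.sum_mul_sum]
      refine Finset.sum_congr rfl fun j hj => ?_
      rw [Finset.sum_eq_single_of_mem j hj, (props j hj).2]
      intro j' hj' hne
      exact hoff j hj j' hj' hne.symm
    rw [e1]
    have e2 : ∑ j ∈ J, star (X j.1 j.2.1) * X j.1 j.2.1
        = M • (star (gam φ b N) * (∑ i, ef φ v t N i) * gam φ b N) := by
      simp only [XX, J]
      rw [Finset.sum_product_right, Fintype.sum_prod_type]
      simp only [Finset.sum_const, Finset.card_univ, Fintype.card_fin]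
      rw [← Finset.smul_sum, Finset.mul_sum, Finset.sum_mul]
      congr 1
      refine Finset.sum_congr rfl fun i _ => ?_
      rw [ef, Finset.mul_sum, Finset.sum_mul]
    rw [e2]
    have e3 : (1 : E) ≤ ∑ i, ef φ v t N i := by
      refine ef_sum_ge hφ hs hv' N (fun _ => t) (Or.inr ?_)
      simp only [Finset.sum_const, Finset.card_univ, Fintype.card_fin, smul_eq_mul, N]
      omega
    have := star_left_conjugate_le_conjugate e3 (gam φ b N)
    exact nsmul_le_nsmul_right (by simpa using this) M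
  · intro i
    rw [Finset.mul_sum]
    exact Finset.sum_congr rfl fun j hj => (props j hj).1 i

end final

end Vale.Agent.P101
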