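import Mathlib

/-! Absorption lemma for P101: if `c ≤ star x * x` then `c = star s * s` with `s` in the closure
of `x E`. -/

namespace Vale.Agent.P101

open Filter Topology

variable {E : Type*} [CStarAlgebra E] [PartialOrder E] [StarOrderedRing E]

theorem absorb (P c x : E) (hc : 0 ≤ c) (h : c ≤ star x * x) (hP : P * x = x) :
    ∃ s, star s * s = c ∧ P * s = s := by
  set Q : E := star x * x with hQ
  have hQ0 : 0 ≤ Q := star_mul_self_nonneg x
  have hQsa : IsSelfAdjoint Q := IsSelfAdjoint.star_mul_self x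
  have hspec : ∀ t ∈ spectrum ℝ Q, 0 ≤ t := fun t ht => spectrum_nonneg_of_nonneg hQ0 ht
  have hmul : ∀ f g : ℝ → ℝ, Continuous f → Continuous g →
      cfc f Q * cfc g Q = cfc (fun t => f t * g t) Q := by
    intro f g hf hg
    exact (cfc_mul f g Q hf.continuousOn hg.continuousOn).symm
  have hcongr : ∀ f g : ℝ → ℝ, (∀ t, 0 ≤ t → f t = g t) → cfc f Q = cfc g Q := by
    intro f g h
    exact cfc_congr fun t ht => h t (hspec t ht)
  have hkid : cfc (fun t : ℝ => t) Q = Q := cfc_id' ℝ Q
  have hkmul : ∀ g : ℝ → ℝ, Continuous g → Q * cfc g Q = cfc (fun t => t * g t) Q := by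
    intro g hg
    have h1 := hmul (fun t => t) g continuous_id' hg
    rwa [hkid] at h1
  have hcsa : ∀ f : ℝ → ℝ, star (cfc f Q) = cfc f Q := fun f => (cfc_predicate f Q).star_eq
  set q : E := cfc Real.sqrt Q with hq
  have hqq : q * q = Q := by
    rw [hq, hmul _ _ Real.continuous_sqrt Real.continuous_sqrt]
    conv_rhs => rw [← hkid]
    exact hcongr _ _ fun t ht => Real.mul_self_sqrt ht
  have hqsa : star q = q := hcsa _
  set r : E := CFC.sqrt c with hr
  have hrr : r * r = c := CFC.sqrt_mul_sqrt_self c hc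
  have hrsa : star r = r := (IsSelfAdjoint.of_nonneg (CFC.sqrt_nonneg c)).star_eq
  have hgram : ∀ v : E, star (x * v) * (x * v) = star (q * v) * (q * v) := by
    intro v
    rw [star_mul, star_mul, hqsa]
    calc star v * star x * (x * v) = star v * (star x * x) * v := by noncomm_ring
      _ = star v * (q * q) * v := by rw [hqq]
      _ = _ := by noncomm_ring
  have hnorm : ∀ v : E, ‖x * v‖ = ‖q * v‖ := by
    intro v
    have h1 : ‖x * v‖ * ‖x * v‖ = ‖q * v‖ * ‖q * v‖ := by
      rw [← CStarRing.norm_star_mul_self, ← CStarRing.norm_star_mul_self, hgram]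
    nlinarith [norm_nonneg (x * v), norm_nonneg (q * v),
      mul_self_inj (norm_nonneg (x * v)) (norm_nonneg (q * v)) |>.mp h1]
  set e : ℕ → ℝ := fun n => 1 / ((n : ℝ) + 1) with he
  have he0 : ∀ n, 0 < e n := fun n => by positivity
  have hcontd : ∀ n, Continuous fun t : ℝ => |t| + e n := fun n =>
    continuous_abs.add continuous_const
  have hne : ∀ n (t : ℝ), |t| + e n ≠ 0 := fun n t =>
    (add_pos_of_nonneg_of_pos (abs_nonneg t) (he0 n)).ne'
  have hcont1 : ∀ n, Continuous fun t : ℝ => √t / (|t| + e n) := fun n =>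
    Real.continuous_sqrt.div (hcontd n) (hne n)
  have hcont2 : ∀ n, Continuous fun t : ℝ => e n / (|t| + e n) := fun n =>
    continuous_const.div (hcontd n) (hne n)
  set y : ℕ → E := fun n => cfc (fun t : ℝ => √t / (|t| + e n)) Q * r with hy
  have hqy : ∀ n, r - q * y n = cfc (fun t : ℝ => e n / (|t| + e n)) Q * r := by
    intro n
    have h1 : (1 : E) - cfc (fun t : ℝ => √t * (√t / (|t| + e n))) Q
        = cfc (fun t : ℝ => e n / (|t| + e n)) Q := by
      have h2 := cfc_sub (fun _ : ℝ => (1 : ℝ)) (fun t : ℝ => √t * (√t / (|t| + e n))) Q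
        continuousOn_const (Real.continuous_sqrt.mul (hcont1 n)).continuousOn
      rw [cfc_const_one ℝ Q] at h2
      rw [← h2]
      refine hcongr _ _ fun t ht => ?_
      have h3 := hne n t
      rw [← mul_div_assoc, Real.mul_self_sqrt ht, abs_of_nonneg ht] at *
      field_simp
      ring
    rw [← h1, sub_mul, one_mul, ← hmul _ _ Real.continuous_sqrt (hcont1 n), mul_assoc]
  have hest : ∀ n, ‖r - q * y n‖ ≤ √(e n) := by
    intro n
    rw [hqy]
    set W := cfc (fun t : ℝ => e n / (|t| + e n)) Q with hW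
    have hWsa : star W = W := hcsa _
    apply Real.le_sqrt_of_sq_le
    rw [sq, ← CStarRing.norm_self_mul_star]
    have h1 : W * r * star (W * r) = W * c * star W := by
      rw [star_mul, hrsa, ← hrr]; noncomm_ring
    have h2 : W * c * star W ≤ W * Q * star W := star_right_conjugate_le_conjugate h W
    rw [h1]
    refine (CStarAlgebra.norm_le_norm_of_nonneg_of_le (star_right_conjugate_nonneg hc W) h2).trans ?_
    have c1 : Continuous fun t : ℝ => t * (e n / (|t| + e n)) := continuous_id'.mul (hcont2 n)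
    have h3 : W * Q * star W
        = cfc (fun t : ℝ => e n / (|t| + e n) * (t * (e n / (|t| + e n)))) Q := by
      rw [hWsa, mul_assoc, hW, hkmul _ (hcont2 n), hmul _ _ (hcont2 n) c1]
    rw [h3]
    refine norm_cfc_le (he0 n).le fun t ht => ?_
    have ht0 := hspec t ht
    have hp : 0 < t + e n := add_pos_of_nonneg_of_pos ht0 (he0 n)
    have hpos := he0 n
    rw [abs_of_nonneg ht0, Real.norm_of_nonneg (by positivity)]
    have h4 : e n / (t + e n) * (t * (e n / (t + e n))) = e n * (t * e n / (t + e n) ^ 2) := by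
      field_simp
    rw [h4]
    refine mul_le_of_le_one_right hpos.le ?_
    rw [div_le_one (by positivity)]
    nlinarith
  have helim : Tendsto (fun n => √(e n)) atTop (𝓝 0) := by
    have h1 : Tendsto e atTop (𝓝 0) := tendsto_one_div_add_atTop_nhds_zero_nat
    have h2 := (Real.continuous_sqrt.tendsto 0).comp h1
    rwa [Real.sqrt_zero] at h2
  have hqlim : Tendsto (fun n => q * y n) atTop (𝓝 r) := by
    rw [tendsto_iff_norm_sub_tendsto_zero]
    refine squeeze_zero (fun n => norm_nonneg _) (fun n => ?_) helim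
    rw [norm_sub_rev]
    exact hest n
  have hcau : CauchySeq fun n => x * y n := by
    have h1 := hqlim.cauchySeq
    rw [Metric.cauchySeq_iff] at h1 ⊢
    intro ε hε
    obtain ⟨N, hN⟩ := h1 ε hε
    refine ⟨N, fun m hm n hn => ?_⟩
    have h2 := hN m hm n hn
    rw [dist_eq_norm, ← mul_sub] at h2 ⊢
    rwa [hnorm]
  obtain ⟨s, hs⟩ := cauchySeq_tendsto_of_complete hcau
  refine ⟨s, ?_, ?_⟩
  · have h1 : Tendsto (fun n => star (x * y n) * (x * y n)) atTop (𝓝 (star s * s)) :=
      (hs.star).mul hs
    have h2 : Tendsto (fun n => star (q * y n) * (q * y n)) atTop (𝓝 (star r * r)) :=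
      (hqlim.star).mul hqlim
    have h3 : ∀ n, star (x * y n) * (x * y n) = star (q * y n) * (q * y n) := fun n =>
      hgram (y n)
    simp only [h3] at h1
    rw [tendsto_nhds_unique h1 h2, hrsa, hrr]
  · have h1 : Tendsto (fun n => P * (x * y n)) atTop (𝓝 (P * s)) := hs.const_mul P
    have h3 : ∀ n, P * (x * y n) = x * y n := fun n => by rw [← mul_assoc, hP]
    simp only [h3] at h1
    exact tendsto_nhds_unique h1 hs

end Vale.Agent.P101
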