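import Vale.Agent.P101.Basic

/-! Lemma F for P101. -/

namespace Vale.Agent.P101

section functions

/-- `0` for `t ≤ a * d`, `1` for `t ≥ (a + 1) * d`, linear in between -/
noncomputable def ramp (d a t : ℝ) : ℝ := max 0 (min 1 (t / d - a))

theorem ramp_cont (d a : ℝ) : Continuous (ramp d a) := by
  unfold ramp
  fun_prop

theorem ramp_nonneg (d a t : ℝ) : 0 ≤ ramp d a t := le_max_left _ _

theorem ramp_le_one (d a t : ℝ) : ramp d a t ≤ 1 := max_le zero_le_one (min_le_left _ _)

theorem ramp_eq_zero {d a t : ℝ} (hd : 0 < d) (h : t ≤ a * d) : ramp d a t = 0 := by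
  have : t / d ≤ a := (div_le_iff₀ hd).mpr h
  unfold ramp
  rw [max_eq_left]
  exact le_trans (min_le_right _ _) (by linarith)

theorem ramp_eq_one {d a t : ℝ} (hd : 0 < d) (h : (a + 1) * d ≤ t) : ramp d a t = 1 := by
  have : a + 1 ≤ t / d := (le_div_iff₀ hd).mpr h
  unfold ramp
  rw [min_eq_left (by linarith), max_eq_right zero_le_one]

noncomputable def fC (d t : ℝ) : ℝ := 1 - ramp d 1 t
noncomputable def fK (d t : ℝ) : ℝ := ramp d 3 t
noncomputable def fG (d t : ℝ) : ℝ := ramp d 4 t
noncomputable def fF (d t : ℝ) : ℝ := √(ramp d 3 t / max t d)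
noncomputable def fS (d t : ℝ) : ℝ := √(1 - fK d t - fC d t ^ 2) / max t d

theorem fC_cont (d : ℝ) : Continuous (fC d) := continuous_const.sub (ramp_cont d 1)
theorem fK_cont (d : ℝ) : Continuous (fK d) := ramp_cont d 3
theorem fG_cont (d : ℝ) : Continuous (fG d) := ramp_cont d 4

theorem max_ne {d : ℝ} (hd : 0 < d) (t : ℝ) : max t d ≠ 0 := (lt_max_of_lt_right hd).ne'

theorem fF_cont {d : ℝ} (hd : 0 < d) : Continuous (fF d) := by
  unfold fF
  exact ((ramp_cont d 3).div (continuous_id.max continuous_const) (max_ne hd)).sqrt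

theorem fS_cont {d : ℝ} (hd : 0 < d) : Continuous (fS d) := by
  unfold fS
  refine Continuous.div ?_ (continuous_id.max continuous_const) (max_ne hd)
  exact ((continuous_const.sub (fK_cont d)).sub ((fC_cont d).pow 2)).sqrt

theorem id_fF {d : ℝ} (hd : 0 < d) (t : ℝ) : t * (fF d t * fF d t) = fK d t := by
  unfold fF fK
  rw [Real.mul_self_sqrt (div_nonneg (ramp_nonneg _ _ _) (lt_max_of_lt_right hd).le)]
  rcases le_total t d with h | h
  · rw [ramp_eq_zero hd (by nlinarith)]
    simp
  · rw [max_eq_left h]
    have : t ≠ 0 := (lt_of_lt_of_le hd h).ne'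
    field_simp

theorem id_FC {d : ℝ} (hd : 0 < d) (t : ℝ) : fF d t * fC d t = 0 := by
  unfold fF fC
  rcases le_total t (3 * d) with h | h
  · rw [ramp_eq_zero hd h]
    simp
  · rw [ramp_eq_one hd (by nlinarith : (1 + 1) * d ≤ t)]
    simp

theorem id_S {d : ℝ} (hd : 0 < d) (t : ℝ) :
    fC d t * fC d t + t ^ 2 * (fS d t * fS d t) = 1 - fK d t := by
  have hC0 : 0 ≤ fC d t := sub_nonneg.mpr (ramp_le_one _ _ _)
  have hC1 : fC d t ≤ 1 := by
    have := ramp_nonneg d 1 t
    unfold fC; linarith
  have hnn : 0 ≤ 1 - fK d t - fC d t ^ 2 := by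
    rcases le_total t (2 * d) with h | h
    · have : fK d t = 0 := ramp_eq_zero hd (by nlinarith)
      rw [this]
      nlinarith
    · have : fC d t = 0 := by
        unfold fC
        rw [ramp_eq_one hd (by nlinarith : (1 + 1) * d ≤ t)]
        simp
      rw [this]
      have := ramp_le_one d 3 t
      unfold fK
      nlinarith
  have hS : fS d t * fS d t = (1 - fK d t - fC d t ^ 2) / (max t d) ^ 2 := by
    unfold fS
    rw [div_mul_div_comm, Real.mul_self_sqrt hnn]
    ring
  rw [hS]
  rcases le_total t d with h | h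
  · have h1 : fK d t = 0 := ramp_eq_zero hd (by nlinarith)
    have h2 : fC d t = 1 := by
      unfold fC
      rw [ramp_eq_zero hd (by nlinarith)]
      simp
    rw [h1, h2]
    simp
  · rw [max_eq_left h]
    have : t ≠ 0 := (lt_of_lt_of_le hd h).ne'
    field_simp
    ring

theorem id_KG {d : ℝ} (hd : 0 < d) (t : ℝ) : fK d t * fG d t = fG d t := by
  unfold fK fG
  rcases le_total t (4 * d) with h | h
  · rw [ramp_eq_zero hd h]
    simp
  · rw [ramp_eq_one hd (by nlinarith : (3 + 1) * d ≤ t)]
    simp

theorem id_G {d : ℝ} (hd : 0 < d) (t : ℝ) (ht : 0 ≤ t) :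
    ‖(1 - fG d t) * t * (1 - fG d t)‖ ≤ 5 * d := by
  have h0 := ramp_nonneg d 4 t
  have h1 := ramp_le_one d 4 t
  unfold fG
  rw [Real.norm_of_nonneg (by
    have : 0 ≤ 1 - ramp d 4 t := by linarith
    positivity)]
  rcases le_total t (5 * d) with h | h
  · have h2 : 0 ≤ 1 - ramp d 4 t := by linarith
    have h3 : 1 - ramp d 4 t ≤ 1 := by linarith
    calc (1 - ramp d 4 t) * t * (1 - ramp d 4 t) ≤ 1 * t * 1 := by
          gcongr
      _ ≤ 5 * d := by linarith
  · rw [ramp_eq_one hd (by nlinarith : (4 + 1) * d ≤ t)]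
    simp
    positivity

end functions

section cstar

variable {E : Type*} [CStarAlgebra E] [PartialOrder E] [StarOrderedRing E]

theorem star_sum_mul_sum_le {n : ℕ} (y : Fin n → E) :
    star (∑ i, y i) * ∑ i, y i ≤ (2 ^ n : ℝ) • ∑ i, star (y i) * y i := by
  induction n with
  | zero => simp
  | succ n ih =>
    rw [Fin.sum_univ_succ, Fin.sum_univ_succ]
    set a := y 0
    set b := ∑ i : Fin n, y i.succ with hb
    have h1 : star (a + b) * (a + b) ≤ (2 : ℝ) • (star a * a + star b * b) := by
      have h2 : 0 ≤ star (a - b) * (a - b) := star_mul_self_nonneg _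
      have h3 : (2 : ℝ) • (star a * a + star b * b) - star (a + b) * (a + b)
          = star (a - b) * (a - b) := by
        rw [two_smul, star_add, star_sub]
        noncomm_ring
      rw [← sub_nonneg, h3]
      exact h2
    refine h1.trans ?_
    have h4 := ih (fun i => y i.succ)
    rw [← hb] at h4
    have h5 : (0 : E) ≤ star a * a := star_mul_self_nonneg _
    have h6 : star a * a ≤ (2 ^ n : ℝ) • (star a * a) := by
      conv_lhs => rw [← one_smul ℝ (star a * a)]
      exact smul_le_smul_of_nonneg_right (one_le_pow₀ (by norm_num)) h5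
    rw [pow_succ, mul_comm, mul_smul]
    refine smul_le_smul_of_nonneg_left ?_ (by norm_num)
    rw [smul_add]
    exact add_le_add h6 h4

theorem star_mul_mul_le (a x : E) :
    star (a * x) * (a * x) ≤ (‖a‖ ^ 2 : ℝ) • (star x * x) := by
  have h := star_left_conjugate_le_conjugate
    (CStarAlgebra.star_mul_le_algebraMap_norm_sq (a := a)) x
  rw [star_mul]
  calc star x * star a * (a * x) = star x * (star a * a) * x := by noncomm_ring
    _ ≤ star x * algebraMap ℝ E (‖a‖ ^ 2) * x := h
    _ = _ := by
      rw [Algebra.algebraMap_eq_smul_one, mul_smul_comm, smul_mul_assoc, mul_one]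

/-- a nonnegative invertible element has an inverse square root -/
theorem exists_invSqrt (M : E) (hM : 0 ≤ M) (hu : IsUnit M) :
    ∃ r : E, star r = r ∧ r * M * r = 1 := by
  have hsp : IsStrictlyPositive M := ⟨hM, hu⟩
  refine ⟨M ^ (-(1 / 2) : ℝ), ?_, CFC.conjugate_rpow_neg_one_half M hsp⟩
  exact (IsSelfAdjoint.of_nonneg CFC.rpow_nonneg).star_eq

theorem isUnit_gram {n : ℕ} (a X : Fin n → E) (hU : IsUnit (∑ i, a i * X i)) :
    IsUnit (∑ i, star (X i) * X i) := by
  set U := ∑ i, a i * X i with hUdef
  set C : ℝ := ∑ i, ‖a i‖ ^ 2 with hC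
  have hC0 : 0 ≤ C := Finset.sum_nonneg fun i _ => by positivity
  have h1 : star U * U ≤ (2 ^ n : ℝ) • ∑ i, star (a i * X i) * (a i * X i) :=
    star_sum_mul_sum_le _
  have hXnn : ∀ i, 0 ≤ star (X i) * X i := fun i => star_mul_self_nonneg _
  have h2 : ∑ i, star (a i * X i) * (a i * X i) ≤ C • ∑ i, star (X i) * X i := by
    rw [hC, Finset.smul_sum]
    refine Finset.sum_le_sum fun i _ => ?_
    refine (star_mul_mul_le (a i) (X i)).trans ?_
    refine smul_le_smul_of_nonneg_right ?_ (hXnn i)
    exact Finset.single_le_sum (f := fun i => ‖a i‖ ^ 2) (fun j _ => by positivity)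
      (Finset.mem_univ i)
  have h3 : star U * U ≤ ((2 ^ n : ℝ) * C + 1) • ∑ i, star (X i) * X i := by
    refine h1.trans ?_
    refine (smul_le_smul_of_nonneg_left h2 (by positivity)).trans ?_
    rw [← mul_smul]
    refine smul_le_smul_of_nonneg_right (by linarith) ?_
    exact Finset.sum_nonneg fun i _ => hXnn i
  have h4 : IsStrictlyPositive (star U * U) :=
    ⟨star_mul_self_nonneg _, (hU.star).mul hU⟩
  have h5 := CStarAlgebra.isUnit_of_le _ h3 h4
  have h6 : ((2 ^ n : ℝ) * C + 1) ≠ 0 := by positivity
  exact (isUnit_smul_iff (Units.mk0 _ h6) _).mp h5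

omit [PartialOrder E] [StarOrderedRing E] in
theorem anti_aux (a c w : E) : a * (c - Complex.I • w) + (c - Complex.I • w) * a
    = a * c + c * a - Complex.I • (a * w + w * a) := by
  rw [mul_sub, sub_mul, mul_smul_comm, smul_mul_assoc, smul_add]
  abel

theorem lemmaF (z : E) (hz : z * z = 0) (hg : GenOne {z}) :
    ∃ (K : ℕ) (α β : E) (V : Fin K → E), α * α = 0 ∧ α * β + β * α = 0 ∧
      star α * β + β * star α = 0 ∧ star β * β = 1 - (star α * α + α * star α) ∧
      β * star β = star β * β ∧ (∀ i, α * V i = 0) ∧ (∀ i, α * star α * V i = V i) ∧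
      ∑ i, star (V i) * V i = 1 := by
  obtain ⟨n, a, s, b, hs, hsum⟩ := hg
  have hs' : ∀ i, s i = z := fun i => hs i
  simp only [hs'] at hsum
  set k : E := z * star z + star z * z with hk
  have hsz : star z * star z = 0 := by rw [← star_mul, hz, star_zero]
  have hksa : IsSelfAdjoint k := by
    rw [hk]
    exact (IsSelfAdjoint.mul_star_self z).add (IsSelfAdjoint.star_mul_self z)
  have hk0 : 0 ≤ k := add_nonneg (mul_star_self_nonneg z) (star_mul_self_nonneg z)
  have hspec : ∀ t ∈ spectrum ℝ k, 0 ≤ t := fun t ht => spectrum_nonneg_of_nonneg hk0 ht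
  have hzk : Commute k z := by
    show k * z = z * k
    rw [hk, add_mul, mul_add]
    have e1 : star z * z * z = 0 := by rw [mul_assoc, hz, mul_zero]
    have e2 : z * (z * star z) = 0 := by rw [← mul_assoc, hz, zero_mul]
    rw [e1, e2, add_zero, zero_add, mul_assoc]
  have hszk : Commute k (star z) := by
    have := hzk.star_star
    rwa [hksa.star_eq] at this
  -- functional calculus
  have hmul : ∀ f g : ℝ → ℝ, Continuous f → Continuous g →
      cfc f k * cfc g k = cfc (fun t => f t * g t) k := by
    intro f g hf hg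
    exact (cfc_mul f g k hf.continuousOn hg.continuousOn).symm
  have hcongr : ∀ f g : ℝ → ℝ, (∀ t, 0 ≤ t → f t = g t) → cfc f k = cfc g k := by
    intro f g h
    exact cfc_congr fun t ht => h t (hspec t ht)
  have hkid : cfc (fun t : ℝ => t) k = k := cfc_id' ℝ k
  have hkmul : ∀ g : ℝ → ℝ, Continuous g → k * cfc g k = cfc (fun t => t * g t) k := by
    intro g hg
    have h1 := hmul (fun t => t) g continuous_id' hg
    rwa [hkid] at h1
  have hsub1 : ∀ f : ℝ → ℝ, Continuous f → 1 - cfc f k = cfc (fun t => 1 - f t) k := by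
    intro f hf
    have h1 := cfc_sub (fun _ : ℝ => (1 : ℝ)) f k continuousOn_const hf.continuousOn
    rw [cfc_const_one ℝ k] at h1
    exact h1.symm
  have hcz : ∀ f : ℝ → ℝ, Commute (cfc f k) z := fun f => hzk.cfc_real f
  have hcsz : ∀ f : ℝ → ℝ, Commute (cfc f k) (star z) := fun f => hszk.cfc_real f
  have hcc : ∀ f g : ℝ → ℝ, Commute (cfc f k) (cfc g k) := fun f g => cfc_commute_cfc f g k
  have hcsa : ∀ f : ℝ → ℝ, star (cfc f k) = cfc f k := fun f => (cfc_predicate f k).star_eq
  -- the choice of δ
  set N : ℝ := ∑ i, ‖a i‖ * ‖b i‖ with hN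
  have hN0 : 0 ≤ N := Finset.sum_nonneg fun i _ => by positivity
  obtain ⟨d, hd, hdN⟩ : ∃ d : ℝ, 0 < d ∧ √(5 * d) * N < 1 := by
    refine ⟨1 / (5 * (N + 1) ^ 2), by positivity, ?_⟩
    have h1 : 5 * (1 / (5 * (N + 1) ^ 2)) = (1 / (N + 1)) ^ 2 := by field_simp
    rw [h1, Real.sqrt_sq (by positivity), one_div, inv_mul_lt_iff₀ (by positivity)]
    linarith
  set F := cfc (fF d) k with hF
  set C := cfc (fC d) k with hC
  set S := cfc (fS d) k with hS
  set G := cfc (fG d) k with hG
  set Ka := cfc (fK d) k with hKa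
  have hFz := hcz (fF d)
  have hFsz := hcsz (fF d)
  have hCz := hcz (fC d)
  have hCsz := hcsz (fC d)
  have hSz := hcz (fS d)
  have hSsz := hcsz (fS d)
  have hGz := hcz (fG d)
  have hGsz := hcsz (fG d)
  rw [← hF] at hFz hFsz
  rw [← hC] at hCz hCsz
  rw [← hS] at hSz hSsz
  rw [← hG] at hGz hGsz
  have hFC : F * C = 0 := by
    rw [hF, hC, hmul _ _ (fF_cont hd) (fC_cont d), ← cfc_zero ℝ k]
    exact hcongr _ _ fun t _ => id_FC hd t
  have cFF : Continuous (fun t => fF d t * fF d t) := (fF_cont hd).mul (fF_cont hd)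
  have cCC : Continuous (fun t => fC d t * fC d t) := (fC_cont d).mul (fC_cont d)
  have cSS : Continuous (fun t => fS d t * fS d t) := (fS_cont hd).mul (fS_cont hd)
  have hkFF : k * (F * F) = Ka := by
    rw [hF, hmul _ _ (fF_cont hd) (fF_cont hd), hkmul _ cFF]
    exact hcongr _ _ fun t _ => id_fF hd t
  have hCS : C * C + k * k * (S * S) = 1 - Ka := by
    rw [hC, hS, hmul _ _ (fC_cont d) (fC_cont d), hmul _ _ (fS_cont hd) (fS_cont hd)]
    have c1 : Continuous (fun t => t * (fS d t * fS d t)) := continuous_id'.mul cSS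
    have c2 : Continuous (fun t => t * (t * (fS d t * fS d t))) := continuous_id'.mul c1
    rw [mul_assoc, hkmul _ cSS, hkmul _ c1, hKa, hsub1 _ (fK_cont d),
      ← cfc_add k _ _ cCC.continuousOn c2.continuousOn]
    refine hcongr _ _ fun t _ => ?_
    rw [← id_S hd t]
    ring
  have hKG : Ka * G = G := by
    rw [hKa, hG, hmul _ _ (fK_cont d) (fG_cont d)]
    exact hcongr _ _ fun t _ => id_KG hd t
  have hG1 : ‖(1 - G) * k * (1 - G)‖ ≤ 5 * d := by
    have h1 : 1 - G = cfc (fun t => 1 - fG d t) k := hsub1 _ (fG_cont d)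
    have c1 : Continuous (fun t => 1 - fG d t) := continuous_const.sub (fG_cont d)
    have c3 : Continuous (fun t => t * (1 - fG d t)) := continuous_id'.mul c1
    rw [mul_assoc, h1, hkmul _ c1, hmul _ _ c1 c3]
    refine norm_cfc_le (by positivity) fun t ht => ?_
    have := id_G hd t (hspec t ht)
    rwa [mul_assoc] at this
  -- the algebra
  set g : E := z * star z - star z * z with hgdef
  have hgz : g * z = k * z := by
    rw [hgdef, hk, sub_mul, add_mul]
    have e1 : star z * z * z = 0 := by rw [mul_assoc, hz, mul_zero]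
    rw [e1, sub_zero, add_zero]
  have hzg : z * g = - (k * z) := by
    rw [hzk.eq, hgdef, hk, mul_sub, mul_add]
    have e2 : z * (z * star z) = 0 := by rw [← mul_assoc, hz, zero_mul]
    rw [e2, zero_sub, zero_add]
  have hgsz : g * star z = - (k * star z) := by
    rw [hgdef, hk, sub_mul, add_mul]
    have e1 : z * star z * star z = 0 := by rw [mul_assoc, hsz, mul_zero]
    rw [e1, zero_sub, zero_add]
  have hszg : star z * g = k * star z := by
    rw [hszk.eq, hgdef, hk, mul_sub, mul_add]
    have e2 : star z * (star z * z) = 0 := by rw [← mul_assoc, hsz, zero_mul]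
    rw [e2, sub_zero, add_zero]
  have hgg : g * g = k * k := by
    calc g * g = g * z * star z - g * star z * z := by
          conv_lhs => rw [hgdef]
          rw [← hgdef, mul_sub, mul_assoc, mul_assoc]
      _ = k * (z * star z + star z * z) := by rw [hgz, hgsz]; noncomm_ring
      _ = k * k := by rw [← hk]
  have hgk : Commute k g := by
    rw [hgdef]
    exact (hzk.mul_right hszk).sub_right (hszk.mul_right hzk)
  have hgsa : star g = g := by
    rw [hgdef, star_sub, star_mul, star_mul, star_star]
  have hCg : Commute C g := hgk.cfc_real _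
  have hSg : Commute S g := hgk.cfc_real _
  have hCS' : Commute C S := hcc _ _
  have hFC' : Commute F C := hcc _ _
  have hFS' : Commute F S := hcc _ _
  have hFF' : Commute F G := hcc _ _
  have hFsa : star F = F := hcsa _
  have hCsa : star C = C := hcsa _
  have hSsa : star S = S := hcsa _
  have hGsa : star G = G := hcsa _
  have hKsa : star Ka = Ka := hcsa _
  -- the elements α and β
  set α : E := z * F with hα
  set β : E := C - Complex.I • (g * S) with hβ
  have hsα : star α = F * star z := by rw [hα, star_mul, hFsa]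
  have hsβ : star β = C + Complex.I • (g * S) := by
    rw [hβ, star_sub, star_smul, star_mul, hgsa, hSsa, hCsa, hSg.eq]
    simp [Complex.conj_I]
  have hαα : star α * α + α * star α = Ka := by
    rw [hsα, hα, ← hkFF, hk]
    calc F * star z * (z * F) + z * F * (F * star z)
        = (F * star z) * z * F + z * F * (F * star z) := by noncomm_ring
      _ = (star z * F) * z * F + z * F * (star z * F) := by rw [hFsz.eq]
      _ = star z * (F * z) * F + z * (F * star z) * F := by noncomm_ring
      _ = star z * (z * F) * F + z * (star z * F) * F := by rw [hFz.eq, hFsz.eq]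
      _ = _ := by noncomm_ring
  have hαs : α * star α = (F * F) * (z * star z) := by
    rw [hsα, hα, ← hFz.eq]
    calc F * z * (F * star z) = F * (z * F) * star z := by noncomm_ring
      _ = F * (F * z) * star z := by rw [hFz.eq]
      _ = _ := by noncomm_ring
  have hββ : star β * β = C * C + k * k * (S * S) := by
    rw [hsβ, hβ]
    have e1 : (C + Complex.I • (g * S)) * (C - Complex.I • (g * S))
        = C * C - Complex.I • (C * (g * S) - g * S * C) + (g * S) * (g * S) := by
      rw [add_mul, mul_sub, mul_sub, mul_smul_comm, smul_mul_assoc, smul_mul_smul_comm,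
        Complex.I_mul_I, neg_one_smul, smul_sub]
      abel
    have e2 : C * (g * S) = g * S * C := by
      rw [← mul_assoc, hCg.eq, mul_assoc, hCS'.eq, mul_assoc]
    rw [e1, e2, sub_self, smul_zero, sub_zero]
    congr 1
    calc g * S * (g * S) = g * (S * g) * S := by noncomm_ring
      _ = g * (g * S) * S := by rw [hSg.eq]
      _ = (g * g) * (S * S) := by noncomm_ring
      _ = _ := by rw [hgg]
  have hββ' : β * star β = star β * β := by
    rw [hsβ, hβ]
    have e2 : C * (g * S) = g * S * C := by
      rw [← mul_assoc, hCg.eq, mul_assoc, hCS'.eq, mul_assoc]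
    rw [sub_mul, mul_add, mul_add, add_mul, mul_sub, mul_sub, mul_smul_comm, smul_mul_assoc, e2]
    abel
  have hzFC : z * F * C = 0 := by rw [mul_assoc, hFC, mul_zero]
  have hCzF : C * (z * F) = 0 := by
    rw [← mul_assoc, hCz.eq, mul_assoc, ← hFC'.eq, hFC, mul_zero]
  have hFzC : F * star z * C = 0 := by
    rw [hFsz.eq, mul_assoc, hFC, mul_zero]
  have hCFz : C * (F * star z) = 0 := by
    rw [← mul_assoc, ← hFC'.eq, hFC, zero_mul]
  have hFg : Commute F g := hgk.cfc_real _
  have hFk : Commute F k := (Commute.refl k).cfc_real _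
  have hSk : Commute S k := (Commute.refl k).cfc_real _
  -- the final rows
  set X : Fin n → E := fun i => G * z * b i with hX
  have hX1 : ‖(1 - G) * z‖ ≤ √(5 * d) := by
    apply Real.le_sqrt_of_sq_le
    rw [sq, ← CStarRing.norm_self_mul_star]
    refine le_trans ?_ hG1
    have h1 : (1 - G) * z * star ((1 - G) * z) = (1 - G) * (z * star z) * star (1 - G) := by
      rw [star_mul]; noncomm_ring
    have h2 : star (1 - G) = 1 - G := by rw [star_sub, star_one, hGsa]
    have h3 : (1 - G) * (z * star z) * star (1 - G) ≤ (1 - G) * k * star (1 - G) := by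
      refine star_right_conjugate_le_conjugate ?_ (1 - G)
      rw [hk]
      exact le_add_of_nonneg_right (star_mul_self_nonneg z)
    rw [h1]
    rw [h2] at h3 ⊢
    refine CStarAlgebra.norm_le_norm_of_nonneg_of_le ?_ h3
    have h4 := star_right_conjugate_nonneg (mul_star_self_nonneg z) (1 - G)
    rwa [h2] at h4
  have hUnit : IsUnit (∑ i, a i * X i) := by
    have h1 : ∑ i, a i * X i = 1 - ∑ i, a i * ((1 - G) * z) * b i := by
      have e : ∀ i, a i * X i = a i * z * b i - a i * ((1 - G) * z) * b i := by
        intro i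
        show a i * (G * z * b i) = _
        noncomm_ring
      simp only [e]
      rw [Finset.sum_sub_distrib, hsum]
    rw [h1]
    apply isUnit_one_sub_of_norm_lt_one
    refine lt_of_le_of_lt ?_ hdN
    refine (norm_sum_le _ _).trans ?_
    rw [hN, Finset.mul_sum]
    refine Finset.sum_le_sum fun i _ => ?_
    calc ‖a i * ((1 - G) * z) * b i‖ ≤ ‖a i‖ * ‖(1 - G) * z‖ * ‖b i‖ := by
          refine (norm_mul_le _ _).trans ?_
          gcongr
          exact norm_mul_le _ _
      _ ≤ ‖a i‖ * √(5 * d) * ‖b i‖ := by gcongr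
      _ = _ := by ring
  set M : E := ∑ i, star (X i) * X i with hM
  have hM0 : 0 ≤ M := Finset.sum_nonneg fun i _ => star_mul_self_nonneg _
  obtain ⟨r, hr, hrM⟩ := exists_invSqrt M hM0 (isUnit_gram a X hUnit)
  refine ⟨n, α, β, fun i => X i * r, ?_, ?_, ?_, ?_, hββ', ?_, ?_, ?_⟩
  · rw [hα]
    calc z * F * (z * F) = z * (F * z) * F := by noncomm_ring
      _ = (z * z) * F * F := by rw [hFz.eq]; noncomm_ring
      _ = 0 := by rw [hz, zero_mul, zero_mul]
  · have h1 : z * F * (g * S) + g * S * (z * F) = 0 := by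
      calc z * F * (g * S) + g * S * (z * F)
          = z * (F * g) * S + g * (S * z) * F := by noncomm_ring
        _ = z * g * (F * S) + g * z * (S * F) := by rw [hFg.eq, hSz.eq]; noncomm_ring
        _ = 0 := by rw [hzg, hgz, hFS'.eq]; noncomm_ring
    have h2 : α * β + β * α = z * F * C + C * (z * F)
        - Complex.I • (z * F * (g * S) + g * S * (z * F)) := anti_aux _ _ _
    rw [h2, h1, hzFC, hCzF]
    simp
  · have h1 : F * star z * (g * S) + g * S * (F * star z) = 0 := by
      calc F * star z * (g * S) + g * S * (F * star z)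
          = F * (star z * g) * S + g * (S * F) * star z := by noncomm_ring
        _ = F * (k * star z) * S + g * (S * (F * star z)) := by
            rw [hszg]; noncomm_ring
        _ = F * k * (star z * S) + (g * S) * (F * star z) := by noncomm_ring
        _ = F * k * (S * star z) + (S * g) * (star z * F) := by
            rw [hSsz.eq, hSg.eq, hFsz.eq]
        _ = F * k * (S * star z) + S * (g * star z) * F := by noncomm_ring
        _ = F * k * (S * star z) - S * k * (star z * F) := by
            rw [hgsz]; noncomm_ring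
        _ = F * k * (S * star z) - S * k * (F * star z) := by rw [hFsz.eq]
        _ = (F * (k * S)) * star z - (S * (k * F)) * star z := by noncomm_ring
        _ = (F * (S * k)) * star z - (S * (F * k)) * star z := by rw [hSk.eq, hFk.eq]
        _ = (F * S) * (k * star z) - (S * F) * (k * star z) := by noncomm_ring
        _ = 0 := by rw [hFS'.eq, sub_self]
    have h2 : star α * β + β * star α = F * star z * C + C * (F * star z)
        - Complex.I • (F * star z * (g * S) + g * S * (F * star z)) := by
      rw [hsα]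
      exact anti_aux _ _ _
    rw [h2, h1, hFzC, hCFz]
    simp
  · rw [hββ, hCS, hαα]
  · intro i
    show z * F * (G * z * b i * r) = 0
    calc z * F * (G * z * b i * r) = z * (F * (G * z)) * b i * r := by noncomm_ring
      _ = z * (F * (z * G)) * b i * r := by rw [hGz.eq]
      _ = z * (F * z) * G * b i * r := by noncomm_ring
      _ = z * (z * F) * G * b i * r := by rw [hFz.eq]
      _ = (z * z) * F * G * b i * r := by noncomm_ring
      _ = 0 := by rw [hz]; simp
  · intro i
    show α * star α * (G * z * b i * r) = G * z * b i * r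
    rw [hαs]
    have h1 : F * F * (z * star z) * (G * z) = Ka * (G * z) := by
      rw [← hkFF]
      have h2 : z * star z * (z * G) = k * (z * G) := by
        rw [← mul_assoc, ← mul_assoc, hk, add_mul, add_mul]
        have e1 : star z * z * z = 0 := by rw [mul_assoc, hz, mul_zero]
        rw [e1, zero_mul, add_zero]
      calc F * F * (z * star z) * (G * z) = F * F * (z * star z * (z * G)) := by
            rw [hGz.eq]; noncomm_ring
        _ = F * (F * k) * (z * G) := by rw [h2]; noncomm_ring
        _ = F * (k * F) * (z * G) := by rw [hFk.eq]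
        _ = (F * k) * F * (G * z) := by rw [hGz.eq]; noncomm_ring
        _ = _ := by rw [hFk.eq]; noncomm_ring
    calc F * F * (z * star z) * (G * z * b i * r)
        = F * F * (z * star z) * (G * z) * b i * r := by noncomm_ring
      _ = Ka * G * z * b i * r := by rw [h1]; noncomm_ring
      _ = _ := by rw [hKG]
  · have h1 : ∀ i, star (X i * r) * (X i * r) = r * (star (X i) * X i) * r := by
      intro i
      rw [star_mul, hr]
      noncomm_ring
    simp only [h1]
    rw [← Finset.sum_mul, ← Finset.mul_sum]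
    exact hrM

end cstar

end Vale.Agent.P101
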