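import Vale.Agent.P101.MatUnits
import Vale.Agent.P101.LemmaF
import Vale.Agent.P101.Absorb

/-! From the fermionic modes to the relations of `I(n+1, n+2)`. -/

namespace Vale.Agent.P101

section functions

/-- `t ↦ t^{-1/2}` for `t ≥ 1/4` -/
noncomputable def oS (t : ℝ) : ℝ := ramp (1/8) 1 t / √(max t (1/8))
noncomputable def oG (t : ℝ) : ℝ := ramp (1/4) 1 t
noncomputable def oH (t : ℝ) : ℝ := ramp (1/4) 3 t
noncomputable def oD (t : ℝ) : ℝ := √(oG t * oG t - oH t * oH t)

theorem oS_cont : Continuous oS := by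
  unfold oS
  refine (ramp_cont _ _).div ((continuous_id.max continuous_const).sqrt) fun t => ?_
  have : 0 < max t (1/8) := lt_max_of_lt_right (by norm_num)
  exact (Real.sqrt_pos.2 this).ne'

theorem oG_cont : Continuous oG := ramp_cont _ _
theorem oH_cont : Continuous oH := ramp_cont _ _
theorem oD_cont : Continuous oD := by
  unfold oD
  exact ((oG_cont.mul oG_cont).sub (oH_cont.mul oH_cont)).sqrt

theorem oG_zero {t : ℝ} (h : t ≤ 1/4) : oG t = 0 := ramp_eq_zero (by norm_num) (by linarith)
theorem oG_one {t : ℝ} (h : 1/2 ≤ t) : oG t = 1 := ramp_eq_one (by norm_num) (by linarith)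
theorem oH_zero {t : ℝ} (h : t ≤ 3/4) : oH t = 0 := ramp_eq_zero (by norm_num) (by linarith)
theorem oH_one {t : ℝ} (h : 1 ≤ t) : oH t = 1 := ramp_eq_one (by norm_num) (by linarith)

theorem oS_id {t : ℝ} (h : 1/4 ≤ t) : t * (oS t * oS t) = 1 := by
  unfold oS
  rw [ramp_eq_one (by norm_num) (by linarith), max_eq_left (by linarith), div_mul_div_comm,
    Real.mul_self_sqrt (by linarith)]
  field_simp

theorem oGS (t : ℝ) : oG t * (t * (oS t * oS t)) = oG t := by
  rcases le_total t (1/4) with h | h
  · rw [oG_zero h]; simp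
  · rw [oS_id h, mul_one]

theorem oHS (t : ℝ) : oH t * (t * (oS t * oS t)) = oH t := by
  rcases le_total t (1/4) with h | h
  · rw [oH_zero (by linarith)]; simp
  · rw [oS_id h, mul_one]

theorem oDS (t : ℝ) : oD t * (t * (oS t * oS t)) = oD t := by
  rcases le_total t (1/4) with h | h
  · unfold oD; rw [oH_zero (by linarith), oG_zero h]; simp
  · rw [oS_id h, mul_one]

theorem oGH (t : ℝ) : oG t * oH t = oH t := by
  rcases le_total t (3/4) with h | h
  · rw [oH_zero h]; simp
  · rw [oG_one (by linarith), one_mul]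

theorem oDD (t : ℝ) : oD t * oD t = oG t * oG t - oH t * oH t := by
  unfold oD
  refine Real.mul_self_sqrt ?_
  have h1 : 0 ≤ oG t := ramp_nonneg _ _ _
  have h2 : 0 ≤ oH t := ramp_nonneg _ _ _
  have h3 : oH t ≤ 1 := ramp_le_one _ _ _
  rcases le_total t (3/4) with h | h
  · rw [oH_zero h]; nlinarith
  · rw [oG_one (by linarith)]; nlinarith

theorem oG_sq_le (t : ℝ) : 0 ≤ 1 - oG t * oG t := by
  have h1 : 0 ≤ oG t := ramp_nonneg _ _ _
  have h3 : oG t ≤ 1 := ramp_le_one _ _ _
  nlinarith

theorem oH_le {t : ℝ} (h1 : t ≤ 1) : 0 ≤ 8 * (1 - t) - 1 + oH t * oH t := by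
  rcases le_total t (3/4) with h | h
  · rw [oH_zero h]; linarith
  · have : oH t = 4 * t - 3 := by
      unfold oH ramp
      rw [min_eq_right (by linarith), max_eq_right (by linarith)]
      ring
    rw [this]
    nlinarith

end functions

section main

variable {E : Type*} [CStarAlgebra E] [PartialOrder E] [StarOrderedRing E]

/-- `F W_ε W_δ*` -/
noncomputable def UU {k : ℕ} (a : Fin k → E) (F : E) (ε δ : Fin k → Bool) : E :=
  F * (Wf k a ε * star (Wf k a δ))

omit [PartialOrder E] [StarOrderedRing E] in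
theorem UU_mul {k : ℕ} {a : Fin k → E} {F F' : E} (h : CutRel a F) (h' : CutRel a F')
    (hFF : Commute F F') (ε δ ε' δ' : Fin k → Bool) :
    UU a F ε δ * UU a F' ε' δ' = if δ = ε' then UU a (F * F') ε δ' else 0 := by
  have hF := fun ε => Wf_commute (y := F) k a ε h.comm h.scomm
  have hF' := fun ε => Wf_commute (y := F') k a ε h'.comm h'.scomm
  have hg := Wf_gram k a F h δ ε'
  have hp := Wf_mul_p k a F h ε
  unfold UU
  have e1 : F * (Wf k a ε * star (Wf k a δ)) * (F' * (Wf k a ε' * star (Wf k a δ')))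
      = F' * (Wf k a ε * (F * (star (Wf k a δ) * Wf k a ε')) * star (Wf k a δ')) := by
    calc _ = F * (Wf k a ε * (star (Wf k a δ) * F') * (Wf k a ε' * star (Wf k a δ'))) := by
          noncomm_ring
      _ = F * ((Wf k a ε * F') * star (Wf k a δ) * (Wf k a ε' * star (Wf k a δ'))) := by
          rw [← (hF' δ).2.eq]; noncomm_ring
      _ = (F * F') * (Wf k a ε * star (Wf k a δ) * (Wf k a ε' * star (Wf k a δ'))) := by
          rw [← (hF' ε).1.eq]; noncomm_ring
      _ = F' * ((F * Wf k a ε) * (star (Wf k a δ) * Wf k a ε') * star (Wf k a δ')) := by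
          rw [hFF.eq]; noncomm_ring
      _ = _ := by rw [(hF ε).1.eq]; noncomm_ring
  rw [e1, hg]
  split_ifs with hδ
  · calc F' * (Wf k a ε * (F * Wf k a fun _ => false) * star (Wf k a δ'))
        = F' * ((Wf k a ε * F) * (Wf k a fun _ => false) * star (Wf k a δ')) := by noncomm_ring
      _ = F' * (F * (Wf k a ε * (Wf k a fun _ => false)) * star (Wf k a δ')) := by
          rw [← (hF ε).1.eq]; noncomm_ring
      _ = F' * (F * Wf k a ε * star (Wf k a δ')) := by rw [hp]
      _ = (F' * F) * (Wf k a ε * star (Wf k a δ')) := by noncomm_ring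
      _ = _ := by rw [← hFF.eq]
  · simp

omit [PartialOrder E] [StarOrderedRing E] in
theorem star_UU {k : ℕ} {a : Fin k → E} {F : E} (h : CutRel a F) (hF : star F = F)
    (ε δ : Fin k → Bool) : star (UU a F ε δ) = UU a F δ ε := by
  have hc := fun ε => Wf_commute (y := F) k a ε h.comm h.scomm
  unfold UU
  rw [star_mul, star_mul, star_star, hF]
  calc Wf k a δ * star (Wf k a ε) * F = Wf k a δ * (star (Wf k a ε) * F) := by noncomm_ring
    _ = (Wf k a δ * F) * star (Wf k a ε) := by rw [← (hc ε).2.eq]; noncomm_ring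
    _ = _ := by rw [← (hc δ).1.eq]; noncomm_ring

omit [PartialOrder E] [StarOrderedRing E] in
theorem UU_sum {k : ℕ} {a : Fin k → E} {F : E} (h : CutRel a F) :
    ∑ ε, UU a F ε ε = F := Wf_sum k a F h

theorem UU_nonneg {k : ℕ} {a : Fin k → E} {F : E} (h : CutRel a F) (hF : star F = F)
    (ε : Fin k → Bool) : 0 ≤ UU a (F * F) ε ε := by
  have h1 := UU_mul h h (Commute.refl F) ε ε ε ε
  rw [if_pos rfl] at h1
  rw [← h1]
  have h2 := star_UU h hF ε ε
  calc (0 : E) ≤ star (UU a F ε ε) * UU a F ε ε := star_mul_self_nonneg _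
    _ = _ := by rw [h2]

/-- **Stage U3.** -/
theorem orderZero_relations (n : ℕ) {k : ℕ} (hk : (n + 1) * (n + 1) ≤ 2 ^ (k + 1))
    (Z : Fin (k + 1) → E) (x c : E)
    (hZZ : ∀ i j, Z i * Z j + Z j * Z i = 0)
    (hZs : ∀ i j, Z i * star (Z j) + star (Z j) * Z i = if i = j then 1 - c else 0)
    (hc : 0 ≤ c) (hx : 8 • c ≤ star x * x) (hZx : ∀ i, Z i * star (Z i) * x = x) :
    ∃ (v : Fin (n + 1) → E) (s : E), IsSelfAdjoint (v 0) ∧
      (∀ i j, star (v i) * v j = if i = j then v 0 * v 0 else 0) ∧
      (∀ i j, j ≠ 0 → v i * v j = 0) ∧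
      ∑ i, v i * star (v i) + star s * s = 1 ∧ v 0 * s = s := by
  classical
  have two : ∀ y : E, y + y = 0 → y = 0 := fun y hy => by
    have h2 : (2 : ℂ) • y = 0 := by rw [two_smul, hy]
    exact (smul_eq_zero.1 h2).resolve_left (by norm_num)
  have hsq : ∀ i, Z i * Z i = 0 := fun i => two _ (hZZ i i)
  set h : E := 1 - c with hh
  have hcsa : IsSelfAdjoint c := IsSelfAdjoint.of_nonneg hc
  have hhsa : IsSelfAdjoint h := (IsSelfAdjoint.one E).sub hcsa
  have hdiag : ∀ i, Z i * star (Z i) + star (Z i) * Z i = h := fun i => by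
    rw [hZs i i, if_pos rfl]
  have hh0 : 0 ≤ h := by
    rw [← hdiag 0]
    exact add_nonneg (mul_star_self_nonneg _) (star_mul_self_nonneg _)
  have hh1 : h ≤ 1 := by rw [hh]; exact sub_le_self _ hc
  have hspec : ∀ t ∈ spectrum ℝ h, 0 ≤ t := fun t ht => spectrum_nonneg_of_nonneg hh0 ht
  have hspec1 : ∀ t ∈ spectrum ℝ h, t ≤ 1 := by
    have h1 : h ≤ algebraMap ℝ E 1 := by rw [map_one]; exact hh1
    exact (le_algebraMap_iff_spectrum_le (r := (1 : ℝ)) (ha := hhsa)).1 h1
  -- commutation
  have hcomm : ∀ i, Commute h (Z i) := fun i => by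
    change h * Z i = Z i * h
    rw [← hdiag i, add_mul, mul_add, mul_assoc (star (Z i)), hsq i, ← mul_assoc (Z i) (Z i),
      hsq i, mul_assoc]
    simp
  have hscomm : ∀ i, Commute h (star (Z i)) := fun i => by
    have := (hcomm i).star_star
    rwa [hhsa.star_eq] at this
  -- functional calculus
  have hmul : ∀ f g : ℝ → ℝ, Continuous f → Continuous g →
      cfc f h * cfc g h = cfc (fun t => f t * g t) h := by
    intro f g hf hg
    exact (cfc_mul f g h hf.continuousOn hg.continuousOn).symm
  have hid : cfc (fun t : ℝ => t) h = h := cfc_id' ℝ h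
  have hcc : ∀ f g : ℝ → ℝ, Commute (cfc f h) (cfc g h) := fun f g => cfc_commute_cfc f g h
  have hcsa' : ∀ f : ℝ → ℝ, star (cfc f h) = cfc f h := fun f => (cfc_predicate f h).star_eq
  have hcz : ∀ (f : ℝ → ℝ) i, Commute (cfc f h) (Z i) := fun f i => (hcomm i).cfc_real f
  have hcsz : ∀ (f : ℝ → ℝ) i, Commute (cfc f h) (star (Z i)) := fun f i =>
    (hscomm i).cfc_real f
  set S := cfc oS h with hS
  let a : Fin (k + 1) → E := fun i => Z i * S
  have hsa : ∀ i, star (a i) = S * star (Z i) := fun i => by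
    simp only [a]; rw [star_mul, hcsa']
  have hSz := fun i => (hcz oS i).eq
  have hSsz := fun i => (hcsz oS i).eq
  have hcut : ∀ f : ℝ → ℝ, Continuous f → (∀ t, f t * (t * (oS t * oS t)) = f t) →
      CutRel a (cfc f h) := by
    intro f hf hfS
    have e1 : cfc f h * (h * (S * S)) = cfc f h := by
      have e2 : h * (S * S) = cfc (fun t : ℝ => t * (oS t * oS t)) h := by
        calc h * (S * S) = cfc (fun t : ℝ => t) h * cfc (fun t => oS t * oS t) h := by
              rw [hid, hS, hmul _ _ oS_cont oS_cont]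
          _ = _ := hmul (fun t => t) (fun t => oS t * oS t) continuous_id' (oS_cont.mul oS_cont)
      rw [e2, hmul f (fun t => t * (oS t * oS t)) hf
        (continuous_id'.mul (oS_cont.mul oS_cont))]
      exact cfc_congr fun t _ => hfS t
    refine ⟨fun i => ?_, fun i j _ => ?_, fun i j hij => ?_, fun i => ?_, fun i => ?_,
      fun i => ?_⟩
    · calc Z i * S * (Z i * S) = Z i * (S * Z i) * S := by noncomm_ring
        _ = Z i * Z i * (S * S) := by rw [hS, hSz]; noncomm_ring
        _ = 0 := by rw [hsq]; simp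
    · calc Z i * S * (Z j * S) + Z j * S * (Z i * S)
          = Z i * (S * Z j) * S + Z j * (S * Z i) * S := by noncomm_ring
        _ = (Z i * Z j + Z j * Z i) * (S * S) := by rw [hS, hSz, hSz]; noncomm_ring
        _ = 0 := by rw [hZZ]; simp
    · rw [hsa]
      calc Z i * S * (S * star (Z j)) + S * star (Z j) * (Z i * S)
          = Z i * (S * (S * star (Z j))) + (S * star (Z j)) * Z i * S := by noncomm_ring
        _ = Z i * (S * (star (Z j) * S)) + (star (Z j) * S) * Z i * S := by rw [hS, hSsz]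
        _ = Z i * ((S * star (Z j)) * S) + star (Z j) * (S * Z i) * S := by noncomm_ring
        _ = Z i * ((star (Z j) * S) * S) + star (Z j) * (Z i * S) * S := by
            rw [hS, hSsz, hSz]
        _ = (Z i * star (Z j) + star (Z j) * Z i) * (S * S) := by noncomm_ring
        _ = 0 := by rw [hZs, if_neg hij]; simp
    · exact (hcz f i).mul_right (hcc f oS)
    · rw [hsa]
      exact (hcc f oS).mul_right (hcsz f i)
    · rw [hsa]
      calc cfc f h * (Z i * S * (S * star (Z i)) + S * star (Z i) * (Z i * S))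
          = cfc f h * (Z i * (S * (S * star (Z i))) + (S * star (Z i)) * Z i * S) := by
            noncomm_ring
        _ = cfc f h * (Z i * (S * (star (Z i) * S)) + (star (Z i) * S) * Z i * S) := by
            rw [hS, hSsz]
        _ = cfc f h * (Z i * ((S * star (Z i)) * S) + star (Z i) * (S * Z i) * S) := by
            noncomm_ring
        _ = cfc f h * (Z i * ((star (Z i) * S) * S) + star (Z i) * (Z i * S) * S) := by
            rw [hS, hSsz, hSz]
        _ = cfc f h * ((Z i * star (Z i) + star (Z i) * Z i) * (S * S)) := by noncomm_ring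
        _ = cfc f h := by rw [hdiag, e1]
  set G := cfc oG h with hG
  set G0 := cfc oH h with hG0
  set Dd := cfc oD h with hD
  have cG : CutRel a G := hcut oG oG_cont oGS
  have cH : CutRel a G0 := hcut oH oH_cont oHS
  have cD : CutRel a Dd := hcut oD oD_cont oDS
  have hGH : G * G0 = G0 := by
    rw [hG, hG0, hmul _ _ oG_cont oH_cont]
    exact cfc_congr fun t _ => oGH t
  have hHG : G0 * G = G0 := by rw [← (hcc oG oH).eq, hGH]
  have hDD : Dd * Dd = G * G - G0 * G0 := by
    rw [hD, hG, hG0, hmul _ _ oD_cont oD_cont, hmul _ _ oG_cont oG_cont,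
      hmul _ _ oH_cont oH_cont,
      ← cfc_sub (fun t => oG t * oG t) (fun t => oH t * oH t) h
        (oG_cont.mul oG_cont).continuousOn (oH_cont.mul oH_cont).continuousOn]
    exact cfc_congr fun t _ => oDD t
  -- the vector x
  have hhx : h * x = x := by
    have h1 := hZx 0
    have h2 : star (Z 0) * Z 0 * x = 0 := by
      rw [← h1]
      calc star (Z 0) * Z 0 * (Z 0 * star (Z 0) * x)
          = star (Z 0) * (Z 0 * Z 0) * star (Z 0) * x := by noncomm_ring
        _ = 0 := by rw [hsq]; simp
    rw [← hdiag 0, add_mul, h1, h2, add_zero]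
  have hfx : ∀ f : ℝ → ℝ, Continuous f → (∀ t, 1/2 ≤ t → f t = 1) → cfc f h * x = x := by
    intro f hf hf1
    have hgc : Continuous fun t : ℝ => (1 - f t) / max (1 - t) (1/2) := by
      refine (continuous_const.sub hf).div ((continuous_const.sub continuous_id').max
        continuous_const) fun t => ?_
      have : (0:ℝ) < max (1 - t) (1/2) := lt_max_of_lt_right (by norm_num)
      exact this.ne'
    have e1 : cfc (fun t : ℝ => 1 - f t) h
        = cfc (fun t : ℝ => (1 - f t) / max (1 - t) (1/2)) h * cfc (fun t : ℝ => 1 - t) h := by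
      rw [hmul (fun t => (1 - f t) / max (1 - t) (1/2)) (fun t => 1 - t) hgc
        (continuous_const.sub continuous_id')]
      refine cfc_congr fun t _ => ?_
      change 1 - f t = (1 - f t) / max (1 - t) (1/2) * (1 - t)
      rcases le_total (1/2) t with ht | ht
      · rw [hf1 t ht]; simp
      · have h3 : (0:ℝ) < 1 - t := by linarith
        rw [max_eq_left (by linarith)]
        field_simp
    have e2 : cfc (fun t : ℝ => 1 - f t) h = 1 - cfc f h := by
      rw [cfc_sub (fun _ => (1:ℝ)) f h continuousOn_const hf.continuousOn, cfc_const_one ℝ h]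
    have e3 : cfc (fun t : ℝ => 1 - t) h = 1 - h := by
      rw [cfc_sub (fun _ => (1:ℝ)) (fun t => t) h continuousOn_const continuousOn_id,
        cfc_const_one ℝ h, hid]
    rw [e2, e3] at e1
    have e4 : (1 - cfc f h) * x = 0 := by
      rw [e1, mul_assoc, sub_mul, one_mul, hhx, sub_self, mul_zero]
    rw [sub_mul, one_mul, sub_eq_zero] at e4
    exact e4.symm
  have hGx : G * x = x := hfx oG oG_cont fun t ht => oG_one ht
  have hax : ∀ i, a i * star (a i) * x = x := by
    intro i
    have e1 : S * S * x = x := by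
      have e2 : cfc (fun t : ℝ => t * (oS t * oS t)) h * x = x :=
        hfx _ (continuous_id'.mul (oS_cont.mul oS_cont)) fun t ht => oS_id (by linarith)
      have e3 : cfc (fun t : ℝ => t * (oS t * oS t)) h = S * S * h := by
        calc _ = cfc (fun t : ℝ => t) h * cfc (fun t => oS t * oS t) h :=
              (hmul (fun t => t) (fun t => oS t * oS t) continuous_id'
                (oS_cont.mul oS_cont)).symm
          _ = cfc (fun t => oS t * oS t) h * cfc (fun t : ℝ => t) h := (hcc _ _).eq
          _ = _ := by rw [hid, hS, hmul _ _ oS_cont oS_cont]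
      calc S * S * x = S * S * (h * x) := by rw [hhx]
        _ = S * S * h * x := by noncomm_ring
        _ = x := by rw [← e3, e2]
    calc a i * star (a i) * x = Z i * (S * (S * star (Z i))) * x := by
          rw [hsa]; simp only [a]; noncomm_ring
      _ = Z i * (S * (star (Z i) * S)) * x := by rw [hS, hSsz]
      _ = Z i * ((S * star (Z i)) * S) * x := by noncomm_ring
      _ = Z i * ((star (Z i) * S) * S) * x := by rw [hS, hSsz]
      _ = Z i * star (Z i) * (S * S * x) := by noncomm_ring
      _ = x := by rw [e1, hZx]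
  set p : E := Wf (k + 1) a (fun _ => false) with hp
  have hpx : p * x = x := Wf_p_mul (k + 1) a hax
  have hps : star p = p := Wf_p_star (k + 1) a G cG
  have hWx : ∀ ε : Fin (k + 1) → Bool, ε ≠ (fun _ => false) →
      star (Wf (k + 1) a ε) * x = 0 := by
    intro ε hε
    have hg := Wf_gram (k + 1) a G cG ε (fun _ => false)
    rw [if_neg hε] at hg
    have hcW := Wf_commute (y := G) (k + 1) a ε cG.comm cG.scomm
    calc star (Wf (k + 1) a ε) * x = star (Wf (k + 1) a ε) * (G * (p * x)) := by rw [hpx, hGx]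
      _ = (star (Wf (k + 1) a ε) * G) * p * x := by noncomm_ring
      _ = (G * star (Wf (k + 1) a ε)) * p * x := by rw [hcW.2.eq]
      _ = (G * (star (Wf (k + 1) a ε) * p)) * x := by noncomm_ring
      _ = 0 := by rw [hg, zero_mul]
  have hUx : ∀ (F : E) (ε δ : Fin (k + 1) → Bool), δ ≠ (fun _ => false) →
      UU a F ε δ * x = 0 := by
    intro F ε δ hδ
    unfold UU
    calc F * (Wf (k + 1) a ε * star (Wf (k + 1) a δ)) * x
        = F * (Wf (k + 1) a ε * (star (Wf (k + 1) a δ) * x)) := by noncomm_ring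
      _ = 0 := by rw [hWx δ hδ]; simp
  have hU0 : UU a G (fun _ => false) (fun _ => false) * x = x := by
    unfold UU
    rw [← hp, hps]
    calc G * (p * p) * x = G * (p * (p * x)) := by noncomm_ring
      _ = x := by rw [hpx, hpx, hGx]
  -- the index set
  obtain ⟨d, r, hd, hr, hN⟩ : ∃ d r : ℕ, n + 1 ≤ d ∧ r < n + 1 ∧ (n + 1) * d + r = 2 ^ (k + 1) :=
    ⟨2 ^ (k + 1) / (n + 1), 2 ^ (k + 1) % (n + 1),
      (Nat.le_div_iff_mul_le (Nat.succ_pos n)).2 hk, Nat.mod_lt _ (Nat.succ_pos n),
      Nat.div_add_mod _ _⟩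
  have hd0 : 0 < d := by omega
  let j0 : Fin d := ⟨0, hd0⟩
  let sh : Fin r → Fin d := fun i => ⟨i.1 + 1, by have := i.2; omega⟩
  have hsh : ∀ i, sh i ≠ j0 := fun i e => by
    have := congrArg Fin.val e
    simp [sh, j0] at this
  have hshinj : Function.Injective sh := fun i j e => by
    have := congrArg Fin.val e
    simp only [sh, Nat.add_right_cancel_iff] at this
    exact Fin.ext this
  obtain ⟨ψ, hψ⟩ : ∃ ψ : ((Fin (n + 1) × Fin d) ⊕ Fin r) ≃ (Fin (k + 1) → Bool),
      ψ (Sum.inl (0, j0)) = fun _ => false := by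
    have hcard : Fintype.card ((Fin (n + 1) × Fin d) ⊕ Fin r)
        = Fintype.card (Fin (k + 1) → Bool) := by
      simp [hN]
    let e := Fintype.equivOfCardEq hcard
    exact ⟨e.trans (Equiv.swap (e (Sum.inl (0, j0))) (fun _ => false)), by
      simp⟩
  let I : Fin (n + 1) → Fin d → (Fin (k + 1) → Bool) := fun b j => ψ (Sum.inl (b, j))
  let R : Fin r → (Fin (k + 1) → Bool) := fun i => ψ (Sum.inr i)
  have hI : ∀ b j b' j', I b j = I b' j' ↔ b = b' ∧ j = j' := fun b j b' j' => by
    simp [I]
  have hR : ∀ i i', R i = R i' ↔ i = i' := fun i i' => by simp [R]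
  have hI0 : I 0 j0 = fun _ => false := hψ
  have hIne : ∀ i, I 0 (sh i) ≠ fun _ => false := fun i e => by
    rw [← hI0, hI] at e
    exact hsh i e.2
  have hsum : ∀ F : E, CutRel a F →
      ∑ b, ∑ j, UU a F (I b j) (I b j) + ∑ i, UU a F (R i) (R i) = F := by
    intro F hF
    conv_rhs => rw [← UU_sum hF, ← ψ.sum_comp, Fintype.sum_sum_type, Fintype.sum_prod_type]
  -- the order zero part
  let v : Fin (n + 1) → E := fun b => ∑ j, UU a G (I b j) (I 0 j)
  have hvs : ∀ b, star (v b) = ∑ j, UU a G (I 0 j) (I b j) := fun b => by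
    simp only [v, star_sum]
    exact Finset.sum_congr rfl fun j _ => star_UU cG (hcsa' oG) _ _
  have hv0 : star (v 0) = v 0 := hvs 0
  have hcGG : Commute G G := Commute.refl G
  have hvv : ∀ b b', star (v b) * v b' =
      if b = b' then ∑ j, UU a (G * G) (I 0 j) (I 0 j) else 0 := by
    intro b b'
    rw [hvs, Finset.sum_mul]
    split_ifs with hb
    · subst hb
      refine Finset.sum_congr rfl fun j _ => ?_
      simp only [v]
      rw [Finset.mul_sum, Finset.sum_eq_single j]
      · rw [UU_mul cG cG hcGG, if_pos rfl]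
      · intro j' _ hj'
        rw [UU_mul cG cG hcGG, if_neg]
        rw [hI]
        exact fun e => hj' e.2.symm
      · intro hj; exact absurd (Finset.mem_univ j) hj
    · refine Finset.sum_eq_zero fun j _ => ?_
      simp only [v]
      rw [Finset.mul_sum]
      refine Finset.sum_eq_zero fun j' _ => ?_
      rw [UU_mul cG cG hcGG, if_neg]
      rw [hI]
      exact fun e => hb e.1
  have hvvs : ∀ b, v b * star (v b) = ∑ j, UU a (G * G) (I b j) (I b j) := by
    intro b
    rw [hvs]
    simp only [v]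
    rw [Finset.sum_mul]
    refine Finset.sum_congr rfl fun j _ => ?_
    rw [Finset.mul_sum, Finset.sum_eq_single j]
    · rw [UU_mul cG cG hcGG, if_pos rfl]
    · intro j' _ hj'
      rw [UU_mul cG cG hcGG, if_neg]
      rw [hI]
      exact fun e => hj' e.2.symm
    · intro hj; exact absurd (Finset.mem_univ j) hj
  have hvz : ∀ b b', b' ≠ 0 → v b * v b' = 0 := by
    intro b b' hb'
    simp only [v]
    rw [Finset.sum_mul]
    refine Finset.sum_eq_zero fun j _ => ?_
    rw [Finset.mul_sum]
    refine Finset.sum_eq_zero fun j' _ => ?_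
    rw [UU_mul cG cG hcGG, if_neg]
    rw [hI]
    exact fun e => hb' e.1.symm
  have cGG : CutRel a (G * G) := by
    have := hcut (fun t => oG t * oG t) (oG_cont.mul oG_cont) fun t => by
      rw [mul_assoc, oGS]
    rwa [← hmul oG oG oG_cont oG_cont] at this
  have cDD : CutRel a (Dd * Dd) := by
    have := hcut (fun t => oD t * oD t) (oD_cont.mul oD_cont) fun t => by
      rw [mul_assoc, oDS]
    rwa [← hmul oD oD oD_cont oD_cont] at this
  have hsumv : ∑ b, v b * star (v b) = G * G - ∑ i, UU a (G * G) (R i) (R i) := by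
    rw [eq_sub_iff_add_eq]
    simp only [hvvs]
    exact hsum _ cGG
  -- the defect
  set c' : E := 1 - ∑ b, v b * star (v b) with hc'
  have hc'e : c' = (1 - G * G) + ∑ i, UU a (G * G) (R i) (R i) := by
    rw [hc', hsumv]; abel
  have hGG1 : 0 ≤ 1 - G * G := by
    have e1 : 1 - G * G = cfc (fun t : ℝ => 1 - oG t * oG t) h := by
      rw [cfc_sub (fun _ => (1:ℝ)) (fun t => oG t * oG t) h continuousOn_const
        (oG_cont.mul oG_cont).continuousOn, cfc_const_one ℝ h, hG, hmul _ _ oG_cont oG_cont]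
    rw [e1]
    exact cfc_nonneg fun t _ => oG_sq_le t
  have hc'0 : 0 ≤ c' := by
    rw [hc'e]
    exact add_nonneg hGG1 (Finset.sum_nonneg fun i _ => UU_nonneg cG (hcsa' oG) _)
  let y : E := x + ∑ i, UU a G0 (I 0 (sh i)) (R i)
  have hsy : star y = star x + ∑ i, UU a G0 (R i) (I 0 (sh i)) := by
    simp only [y, star_add, star_sum]
    congr 1
    exact Finset.sum_congr rfl fun i _ => star_UU cH (hcsa' oH) _ _
  have hcross : ∀ i, UU a G0 (R i) (I 0 (sh i)) * x = 0 := fun i => hUx _ _ _ (hIne i)
  have hcross' : ∀ i, star x * UU a G0 (I 0 (sh i)) (R i) = 0 := fun i => by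
    have := congrArg star (hcross i)
    rw [star_mul, star_zero, star_UU cH (hcsa' oH)] at this
    exact this
  have hyy : star y * y = star x * x + ∑ i, UU a (G0 * G0) (R i) (R i) := by
    rw [hsy]
    simp only [y]
    rw [add_mul, mul_add, mul_add, Finset.mul_sum (s := Finset.univ) (a := star x),
      Finset.sum_eq_zero (fun i _ => hcross' i), add_zero]
    rw [Finset.sum_mul, Finset.sum_eq_zero (fun i _ => hcross i), zero_add]
    congr 1
    rw [Finset.sum_mul]
    refine Finset.sum_congr rfl fun i _ => ?_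
    rw [Finset.mul_sum, Finset.sum_eq_single i]
    · rw [UU_mul cH cH (Commute.refl _), if_pos rfl]
    · intro j _ hj
      rw [UU_mul cH cH (Commute.refl _), if_neg]
      rw [hI]
      exact fun e => hj (hshinj e.2).symm
    · intro hi; exact absurd (Finset.mem_univ i) hi
  have hle : c' ≤ star y * y := by
    -- `1 - G0² ≤ 8 c ≤ x*x`
    have e1 : 1 - G0 * G0 ≤ star x * x := by
      refine le_trans ?_ hx
      rw [← sub_nonneg]
      have e2 : 8 • c - (1 - G0 * G0)
          = cfc (fun t : ℝ => 8 * (1 - t) - 1 + oH t * oH t) h := by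
        have a1 : cfc (fun t : ℝ => 8 * (1 - t) - 1 + oH t * oH t) h
            = cfc (fun t : ℝ => (7 : ℝ) - 8 * t) h + cfc (fun t : ℝ => oH t * oH t) h := by
          rw [← cfc_add h (fun t : ℝ => (7 : ℝ) - 8 * t) (fun t : ℝ => oH t * oH t)
            (by fun_prop) (oH_cont.mul oH_cont).continuousOn]
          exact cfc_congr fun t _ => by ring
        have a2 : cfc (fun t : ℝ => (7 : ℝ) - 8 * t) h = 7 • (1 : E) - 8 • h := by
          rw [cfc_sub (fun _ => (7:ℝ)) (fun t => 8 * t) h continuousOn_const (by fun_prop),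
            cfc_const (7:ℝ) h, cfc_const_mul (8:ℝ) (fun t => t) h continuousOn_id, hid]
          congr 1
          · rw [Algebra.algebraMap_eq_smul_one]
            exact (Nat.cast_smul_eq_nsmul ℝ 7 (1 : E))
          · exact (Nat.cast_smul_eq_nsmul ℝ 8 h)
        rw [a1, a2, hG0, hmul _ _ oH_cont oH_cont, hh]
        simp only [smul_sub]
        rw [show (8 : ℕ) • (1 : E) = 7 • (1 : E) + 1 by rw [succ_nsmul]]
        abel
      rw [e2]
      exact cfc_nonneg fun t ht => oH_le (hspec1 t ht)
    have e3 : ∑ i, UU a (Dd * Dd) (R i) (R i) ≤ G * G - G0 * G0 := by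
      rw [← hDD]
      conv_rhs => rw [← hsum (Dd * Dd) cDD]
      exact le_add_of_nonneg_left (Finset.sum_nonneg fun b _ => Finset.sum_nonneg fun j _ =>
        UU_nonneg cD (hcsa' oD) _)
    have e4 : ∑ i, UU a (G * G) (R i) (R i)
        = ∑ i, UU a (Dd * Dd) (R i) (R i) + ∑ i, UU a (G0 * G0) (R i) (R i) := by
      rw [← Finset.sum_add_distrib]
      refine Finset.sum_congr rfl fun i _ => ?_
      unfold UU
      rw [← add_mul, hDD, sub_add_cancel]
    rw [hc'e, hyy, e4]
    calc 1 - G * G + (∑ i, UU a (Dd * Dd) (R i) (R i) + ∑ i, UU a (G0 * G0) (R i) (R i))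
        ≤ 1 - G * G + ((G * G - G0 * G0) + ∑ i, UU a (G0 * G0) (R i) (R i)) := by gcongr
      _ = (1 - G0 * G0) + ∑ i, UU a (G0 * G0) (R i) (R i) := by abel
      _ ≤ _ := by gcongr
  have hvy : v 0 * y = y := by
    have e1 : v 0 * x = x := by
      simp only [v]
      rw [Finset.sum_mul, Finset.sum_eq_single j0]
      · rw [hI0]; exact hU0
      · intro j _ hj
        refine hUx _ _ _ fun e => ?_
        rw [← hI0, hI] at e
        exact hj e.2
      · intro hj; exact absurd (Finset.mem_univ j0) hj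
    simp only [y]
    rw [mul_add, e1, Finset.mul_sum]
    congr 1
    refine Finset.sum_congr rfl fun i _ => ?_
    simp only [v]
    rw [Finset.sum_mul, Finset.sum_eq_single (sh i)]
    · rw [UU_mul cG cH (hcc oG oH), if_pos rfl, hGH]
    · intro j _ hj
      rw [UU_mul cG cH (hcc oG oH), if_neg]
      rw [hI]
      exact fun e => hj e.2
    · intro hj; exact absurd (Finset.mem_univ (sh i)) hj
  obtain ⟨s, hs, hs'⟩ := absorb (v 0) c' y hc'0 hle hvy
  refine ⟨v, s, hv0, ?_, hvz, ?_, hs'⟩
  · intro i j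
    have h00 : v 0 * v 0 = ∑ j, UU a (G * G) (I 0 j) (I 0 j) := by
      have := hvv 0 0
      rwa [if_pos rfl, hv0] at this
    rw [hvv, h00]
  · rw [hs, hc']; abel

end main

end Vale.Agent.P101
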