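import Vale.Agent.P101.Core
import Vale.Agent.P101.Clifford
import Vale.Agent.P101.GlueK
import Vale.Agent.P101.OrderZero
import Vale.Agent.P101.DimDropSucc
import Vale.Agent.P101.DimDropMap

/-! A unital C*-algebra with commuting copies and without characters receives unital
`*`-homomorphisms from all dimension drop algebras `I(p,q)` with `p`, `q` coprime. -/

namespace Vale.Agent.P101

universe u

theorem exists_dimDropSucc_hom {E : Type u} [CStarAlgebra E] (hcp : HasCopies E)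
    (h : IsEmpty (E →⋆ₐ[ℂ] ℂ)) (n : ℕ) : Nonempty (dimDrop (n + 1) (n + 2) →⋆ₐ[ℂ] E) := by
  let _ := CStarAlgebra.spectralOrder E
  have _ := CStarAlgebra.spectralOrderedRing E
  obtain ⟨z, hz, hg⟩ := exists_full_nilpotent hcp h
  have hk : (n + 1) * (n + 1) ≤ 2 ^ ((2 * n + 1) + 1) := by
    have h1 : n + 1 ≤ 2 ^ (n + 1) := (Nat.lt_two_pow_self).le
    calc (n + 1) * (n + 1) ≤ 2 ^ (n + 1) * 2 ^ (n + 1) := Nat.mul_le_mul h1 h1
      _ = 2 ^ ((2 * n + 1) + 1) := by rw [← pow_add]; congr 1; ring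
  obtain ⟨K, α, β, V, h1, h2, h3, h4, h5, h6, h7, h8⟩ := cliffordData hcp z hz hg (2 * n + 1)
  obtain ⟨Z, x, c, hZ, hZs, hc, hcx, hx⟩ := glue_absorb_modes hcp α β V h1 h2 h3 h4 h5 h6 h7 h8 8
  obtain ⟨v, s, v0, hv, hvz, hvs, hs⟩ := orderZero_relations n hk Z x c hZ hZs hc hcx hx
  exact dimDropHom_succ n v s v0 hv hvz hvs hs

/-- **Core theorem**, all dimension drop algebras. -/
theorem exists_dimDrop_hom {E : Type u} [CStarAlgebra E] (hcp : HasCopies E)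
    (h : IsEmpty (E →⋆ₐ[ℂ] ℂ)) (p q : ℕ) (hp : 0 < p) (hq : 0 < q) (hpq : p.Coprime q) :
    Nonempty (dimDrop p q →⋆ₐ[ℂ] E) := by
  obtain ⟨N, ⟨f⟩⟩ := exists_dimDrop_map p q hp hq hpq
  obtain ⟨g⟩ := exists_dimDropSucc_hom hcp h N
  exact ⟨g.comp f⟩

end Vale.Agent.P101
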