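import Vale.Agent.P101.DimDropGen

/-! The dimension drop algebras are C*-algebras; hence `*`-homomorphisms defined on a copy of
`I(p,q)` in a C*-algebra are contractive. -/

open scoped Kronecker Matrix.Norms.L2Operator

noncomputable section

namespace Vale.Agent.P101

variable (p q : ℕ)

theorem isClosed_dimDrop : IsClosed (dimDrop p q :
    Set C(unitInterval, Matrix (Fin p × Fin q) (Fin p × Fin q) ℂ)) := by
  have h1 : IsClosed {M : Matrix (Fin p × Fin q) (Fin p × Fin q) ℂ |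
      ∃ x : Matrix (Fin p) (Fin p) ℂ, M = x ⊗ₖ (1 : Matrix (Fin q) (Fin q) ℂ)} := by
    let L : Matrix (Fin p) (Fin p) ℂ →ₗ[ℂ] Matrix (Fin p × Fin q) (Fin p × Fin q) ℂ :=
      { toFun := fun x => x ⊗ₖ (1 : Matrix (Fin q) (Fin q) ℂ)
        map_add' := fun x y => Matrix.add_kronecker x y 1
        map_smul' := fun c x => Matrix.smul_kronecker c x 1 }
    have h := Submodule.closed_of_finiteDimensional (LinearMap.range L)
    convert h using 1
    ext M
    constructor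
    · rintro ⟨x, hx⟩; exact ⟨x, hx.symm⟩
    · rintro ⟨x, hx⟩; exact ⟨x, hx.symm⟩
  have h2 : IsClosed {M : Matrix (Fin p × Fin q) (Fin p × Fin q) ℂ |
      ∃ y : Matrix (Fin q) (Fin q) ℂ, M = (1 : Matrix (Fin p) (Fin p) ℂ) ⊗ₖ y} := by
    let L : Matrix (Fin q) (Fin q) ℂ →ₗ[ℂ] Matrix (Fin p × Fin q) (Fin p × Fin q) ℂ :=
      { toFun := fun x => (1 : Matrix (Fin p) (Fin p) ℂ) ⊗ₖ x
        map_add' := fun x y => Matrix.kronecker_add 1 x y
        map_smul' := fun c x => Matrix.kronecker_smul c 1 x }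
    have h := Submodule.closed_of_finiteDimensional (LinearMap.range L)
    convert h using 1
    ext M
    constructor
    · rintro ⟨x, hx⟩; exact ⟨x, hx.symm⟩
    · rintro ⟨x, hx⟩; exact ⟨x, hx.symm⟩
  exact (h1.preimage (continuous_eval_const (0 : unitInterval))).inter
    (h2.preimage (continuous_eval_const (1 : unitInterval)))

/-- `I(p,q)` is a C*-algebra. -/
@[instance_reducible] def dimDropCStar : CStarAlgebra (dimDrop p q) :=
  have : IsClosed (dimDrop p q :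
    Set C(unitInterval, Matrix (Fin p × Fin q) (Fin p × Fin q) ℂ)) := isClosed_dimDrop p q
  StarSubalgebra.cstarAlgebra (dimDrop p q)

variable {p q}

theorem dimDrop_hom_norm_le {Z E : Type*} [CStarAlgebra Z] [CStarAlgebra E]
    (e : dimDrop p q →⋆ₐ[ℂ] Z) (he : Function.Injective e) (φ : dimDrop p q →⋆ₐ[ℂ] E)
    (f : dimDrop p q) : ‖φ f‖ ≤ ‖e f‖ := by
  let _ := dimDropCStar p q
  have h1 : ‖e f‖ = ‖f‖ := NonUnitalStarAlgHom.norm_map e he f
  have h2 : ‖φ f‖ ≤ ‖f‖ := NonUnitalStarAlgHom.norm_apply_le φ f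
  rw [h1]; exact h2

/-- Transport of a homomorphism to a copy of `I(p,q)`. -/
theorem exists_hom_of_equiv {Z E : Type*} [CStarAlgebra Z] [CStarAlgebra E]
    (D : StarSubalgebra ℂ Z) (e : D ≃⋆ₐ[ℂ] dimDrop p q) (φ : dimDrop p q →⋆ₐ[ℂ] E) :
    ∃ ψ : D →⋆ₐ[ℂ] E, ∀ x, ‖ψ x‖ ≤ ‖(x : Z)‖ := by
  refine ⟨φ.comp (e : D →⋆ₐ[ℂ] dimDrop p q), fun x => ?_⟩
  have h := dimDrop_hom_norm_le (D.subtype.comp (e.symm : dimDrop p q →⋆ₐ[ℂ] D))
    (fun a b hab => e.symm.injective (Subtype.ext hab)) φ (e x)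
  have h2 : (D.subtype.comp (e.symm : dimDrop p q →⋆ₐ[ℂ] D)) (e x) = (x : Z) := by
    change ((e.symm (e x) : D) : Z) = x
    rw [e.symm_apply_apply]
  rw [h2] at h
  exact h

end Vale.Agent.P101
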