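import Vale.Agent.P101.LimitHom
import Vale.Agent.P101.CoreAll
import Vale.Agent.P101.DimDropNorm

/-! If `F_ω(A)` has no characters then every inductive limit of dimension drop algebras maps
unitally to `F_ω(A)`. -/

open Filter TopologicalSpace

noncomputable section

namespace Vale.Agent.P101

theorem exists_hom_of_limit_dimDrop {A : Type*} [CStarAlgebra A] [SeparableSpace A]
    {ω : Ultrafilter ℕ} (hω : (ω : Filter ℕ) ≤ cofinite)
    (hchar : IsEmpty (centralSeq A ω →⋆ₐ[ℂ] ℂ))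
    {Z : Type*} [CStarAlgebra Z] [SeparableSpace Z] (D : ℕ → StarSubalgebra ℂ Z) (p q : ℕ → ℕ)
    (hD : Monotone D) (hdense : Dense (⋃ n, (D n : Set Z)))
    (h : ∀ n, 2 ≤ p n ∧ 2 ≤ q n ∧ (p n).Coprime (q n) ∧
      Nonempty (D n ≃⋆ₐ[ℂ] dimDrop (p n) (q n))) :
    Nonempty (Z →⋆ₐ[ℂ] centralSeq A ω) := by
  have h1 : ∀ n, ∃ ψ : D n →⋆ₐ[ℂ] centralSeq A ω, ∀ x, ‖ψ x‖ ≤ ‖(x : Z)‖ := by
    intro n
    obtain ⟨hp, hq, hpq, ⟨e⟩⟩ := h n
    obtain ⟨φ⟩ := exists_dimDrop_hom (hasCopies_centralSeq A ω hω) hchar (p n) (q n) (by omega)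
      (by omega) hpq
    exact exists_hom_of_equiv (D n) e φ
  choose ψ hψ using h1
  exact exists_hom_of_limit hω hD hdense ψ hψ

end Vale.Agent.P101
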