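import Mathlib

/-!
# Definitions for the Kirchberg–Rørdam character question

`ℓ^∞(ℕ, A)` is Mathlib's C⋆-algebra `ℕ →ᵇ A` of bounded functions on the discrete space `ℕ`.
-/

open Filter Topology BoundedContinuousFunction
open scoped Kronecker

noncomputable section

namespace Vale.Agent.P101

/-- Two bounded sequences agree in `A_ω`: `lim_{n → ω} ‖a_n - b_n‖ = 0`. -/
def NullRel (A : Type*) [CStarAlgebra A] (ω : Ultrafilter ℕ) (a b : ℕ →ᵇ A) : Prop :=
  Tendsto (fun n => ‖a n - b n‖) ω (𝓝 0)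

theorem NullRel.star {A : Type*} [CStarAlgebra A] {ω : Ultrafilter ℕ} (a b : ℕ →ᵇ A)
    (h : NullRel A ω a b) : NullRel A ω (star a) (star b) := by
  unfold NullRel at *
  simpa [← star_sub] using h

variable (A : Type*) [CStarAlgebra A] (ω : Ultrafilter ℕ)

/-- The sequence algebra `A_ω = ℓ^∞(ℕ, A) / {(a_n) : lim_{n → ω} ‖a_n‖ = 0}`, with the operations
induced by the pointwise ones. -/
def SeqQ : Type _ := RingQuot (NullRel A ω)

instance SeqQ.semiring : Semiring (SeqQ A ω) := RingQuot.instSemiring (NullRel A ω)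

instance SeqQ.algebra : Algebra ℂ (SeqQ A ω) := RingQuot.instAlgebra (NullRel A ω)

instance SeqQ.starRing : StarRing (SeqQ A ω) := RingQuot.starRing (NullRel A ω) NullRel.star

/-- The quotient map `ℓ^∞(ℕ, A) → A_ω`. -/
def toSeqQ : (ℕ →ᵇ A) →+* SeqQ A ω := RingQuot.mkRingHom (NullRel A ω)

theorem star_toSeqQ (a : ℕ →ᵇ A) : star (toSeqQ A ω a) = toSeqQ A ω (star a) := by
  unfold toSeqQ
  simp only [RingQuot.mkRingHom_def]
  rfl

theorem toSeqQ_surjective : Function.Surjective (toSeqQ A ω) :=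
  RingQuot.mkRingHom_surjective (NullRel A ω)

theorem smul_toSeqQ (c : ℂ) (a : ℕ →ᵇ A) : c • toSeqQ A ω a = toSeqQ A ω (c • a) := by
  unfold toSeqQ
  simp only [RingQuot.mkRingHom_def]
  exact (RingQuot.smul_quot (NullRel A ω))

instance : StarModule ℂ (SeqQ A ω) where
  star_smul := by
    intro c x
    obtain ⟨a, rfl⟩ := toSeqQ_surjective A ω x
    rw [smul_toSeqQ, star_toSeqQ, star_toSeqQ, star_smul, ← smul_toSeqQ]

/-- The central sequence algebra `F_ω(A) = A_ω ∩ A'`: the elements of `A_ω` which commute with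
(the constant sequences of) all elements of `A`. -/
def centralQ : StarSubalgebra ℂ (SeqQ A ω) :=
  StarSubalgebra.centralizer ℂ
    (Set.range fun a : A => toSeqQ A ω (BoundedContinuousFunction.const ℕ a))

/-- `F_ω(A)` as a type, with the operations of `A_ω`. -/
def FSeq : Type _ := centralQ A ω

instance FSeq.semiring : Semiring (FSeq A ω) := SubsemiringClass.toSemiring (centralQ A ω)

instance FSeq.algebra : Algebra ℂ (FSeq A ω) := StarSubalgebra.algebra (centralQ A ω)

instance FSeq.starRing : StarRing (FSeq A ω) := StarSubalgebra.starRing (centralQ A ω)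

/-- The dimension drop algebra `I(p,q)`: the continuous functions `f : [0,1] → M_p ⊗ M_q` with
`f 0 ∈ M_p ⊗ 1` and `f 1 ∈ 1 ⊗ M_q` (`M_p ⊗ M_q` is the algebra of matrices indexed by
`Fin p × Fin q`, and `x ⊗ y` the Kronecker product). The set of these functions is already a
star subalgebra, so `adjoin` adds nothing. -/
def dimDropQ (p q : ℕ) :
    StarSubalgebra ℂ C(unitInterval, Matrix (Fin p × Fin q) (Fin p × Fin q) ℂ) :=
  StarAlgebra.adjoin ℂ {f | (∃ x : Matrix (Fin p) (Fin p) ℂ, f 0 = x ⊗ₖ 1) ∧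
    ∃ y : Matrix (Fin q) (Fin q) ℂ, f 1 = 1 ⊗ₖ y}

end Vale.Agent.P101
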