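import Mathlib
import Vale.Agent.P101.Statement

/-! # Minimal tensor products, `A ≅ A ⊗ Z`, and the Jiang–Su algebra -/

open scoped TensorProduct ComplexOrder Kronecker

noncomputable section

universe u

namespace Vale.Agent.P101

/-- A unital `*`-algebra `E` has no characters: every `*`-homomorphism `E → ℂ` is zero. -/
def NoCharacters (E : Type u) [Semiring E] [Algebra ℂ E] [StarRing E] : Prop :=
  ∀ χ : E →⋆ₙₐ[ℂ] ℂ, χ = 0

section

variable (A B T : Type u) [CStarAlgebra A] [CStarAlgebra B] [CStarAlgebra T]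

/-- Unital `*`-homomorphisms. -/
abbrev Hom : Type u := A →⋆ₐ[ℂ] B

/-- `A` and `B` are isomorphic. -/
def Iso : Prop := Nonempty (A ≃⋆ₐ[ℂ] B)

/-- The algebraic tensor product `A ⊙ B`. -/
abbrev Alg : Type u := A ⊗[ℂ] B

end

variable {A B T : Type u} [CStarAlgebra A] [CStarAlgebra B] [CStarAlgebra T]

/-- The linear map `A ⊙ B → T`, `a ⊗ b ↦ i a * j b`. -/
def tmap (i : Hom A T) (j : Hom B T) : Alg A B →ₗ[ℂ] T :=
  LinearMap.mul' ℂ T ∘ₗ TensorProduct.map i.toAlgHom.toLinearMap j.toAlgHom.toLinearMap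

/-- The norm of the image of `x` under `A ⊙ B → T`, `a ⊗ b ↦ i a * j b`. -/
def tnorm (i : Hom A T) (j : Hom B T) (x : Alg A B) : ℝ := ‖tmap i j x‖

/-- The ranges of `i` and `j` commute and `A ⊙ B → T` is injective. Then `tnorm i j` is a
C⋆-norm on `A ⊙ B`, and every C⋆-norm on `A ⊙ B` is obtained in this way. -/
def IsTensor (i : Hom A T) (j : Hom B T) : Prop :=
  (∀ a b, i a * j b = j b * i a) ∧ Function.Injective (tmap i j)

/-- `T`, with the canonical maps `i` and `j`, is the minimal tensor product `A ⊗ B`: the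
completion of `A ⊙ B` for the smallest C⋆-norm (by a theorem of Takesaki this is the spatial
norm). -/
def IsMinTensor (i : Hom A T) (j : Hom B T) : Prop :=
  IsTensor i j ∧ DenseRange (tmap i j) ∧
    ∀ (S : Type u) [CStarAlgebra S] (i' : Hom A S) (j' : Hom B S),
      IsTensor i' j' → ∀ x, tnorm i j x ≤ tnorm i' j' x

/-- `v` conjugates `i z` to `j z` up to `ε`. -/
def Conj (i j : Hom A T) (v : T) (ε : ℝ) (z : A) : Prop :=
  v ∈ unitary T ∧ ‖v * i z * star v - j z‖ < ε

/-- `i` and `j` are approximately unitarily equivalent. -/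
def ApproxUnitarilyEquiv (i j : Hom A T) : Prop :=
  ∀ (F : Finset A) (ε : ℝ), 0 < ε → ∃ v : T, ∀ z ∈ F, Conj i j v ε z

/-- `A ≅ A ⊗ Z` (minimal tensor product). -/
def TensorAbsorbs (A Z : Type u) [CStarAlgebra A] [CStarAlgebra Z] : Prop :=
  ∃ (T : Type u) (_ : CStarAlgebra T) (i : Hom A T) (j : Hom Z T), IsMinTensor i j ∧ Iso A T

/-- The dimension drop algebra `I(p,q)`: the continuous functions `f : [0,1] → M_p ⊗ M_q` with
`f 0 ∈ M_p ⊗ 1` and `f 1 ∈ 1 ⊗ M_q` (`M_p ⊗ M_q` is the algebra of matrices indexed by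
`Fin p × Fin q`, and `x ⊗ y` the Kronecker product), with pointwise operations. -/
def dimDropSet (p q : ℕ) : Set C(unitInterval, Matrix (Fin p × Fin q) (Fin p × Fin q) ℂ) :=
  {f | (∃ x : Matrix (Fin p) (Fin p) ℂ, f 0 = x ⊗ₖ 1) ∧
    ∃ y : Matrix (Fin q) (Fin q) ℂ, f 1 = 1 ⊗ₖ y}

/-- `f` restricts to a `*`-isomorphism from `D` onto `S`. -/
def IsStarIso {C : Type*} [Ring C] [Algebra ℂ C] [Star C] (f : A → C) (D : Set A) (S : Set C) :
    Prop :=
  Set.BijOn f D S ∧ ∀ x ∈ D, ∀ y ∈ D, ∀ c : ℂ, f (x + y) = f x + f y ∧ f (x * y) = f x * f y ∧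
    f (c • x) = c • f x ∧ f (star x) = star (f x)

/-- `D` is isomorphic to a prime dimension drop algebra `I(p,q)`. -/
def IsPrimeDimDrop (D : StarSubalgebra ℂ A) : Prop :=
  ∃ p q : ℕ, 2 ≤ p ∧ 2 ≤ q ∧ p.Coprime q ∧ ∃ f, IsStarIso f (D : Set A) (dimDropSet p q)

/-- `Z` is (a copy of) the Jiang–Su algebra. Jiang and Su (1999) proved that there is, up to
isomorphism, exactly one simple unital C⋆-algebra with a unique tracial state which is an
inductive limit of prime dimension drop algebras, that it is nuclear, and that it has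
approximately inner half flip. -/
structure IsJiangSu (Z : Type u) [CStarAlgebra Z] : Prop where
  separable : TopologicalSpace.SeparableSpace Z
  simple : IsSimpleRing Z
  infinite_dimensional : ¬ FiniteDimensional ℂ Z
  unique_trace : ∃! τ : Z →ₗ[ℂ] ℂ, τ 1 = 1 ∧ (∀ x, 0 ≤ τ (star x * x)) ∧
    ∀ x y, τ (x * y) = τ (y * x)
  limit : ∃ D : ℕ → StarSubalgebra ℂ Z, Monotone D ∧ Dense (⋃ n, (D n : Set Z)) ∧
    ∀ n, IsPrimeDimDrop (D n)
  nuclear : ∀ (B T T' : Type u) [CStarAlgebra B] [CStarAlgebra T] [CStarAlgebra T']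
    (i : Hom B T) (j : Hom Z T) (i' : Hom B T') (j' : Hom Z T'),
    IsTensor i j → IsTensor i' j' → tnorm i j = tnorm i' j'
  half_flip : ∃ (T : Type u) (_ : CStarAlgebra T) (i j : Hom Z T), IsMinTensor i j ∧
    ApproxUnitarilyEquiv i j

end Vale.Agent.P101
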