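import Vale.Agent.P101.JSTransfer
import Vale.Agent.P101.JiangSu
import Vale.Agent.P101.DimDropGen

/-! # The compact definitions of tensor products agree with those used in the proofs -/

open scoped TensorProduct

noncomputable section

universe u

namespace Vale.Agent.P101

variable {A B T Z : Type u} [CStarAlgebra A] [CStarAlgebra B] [CStarAlgebra T] [CStarAlgebra Z]

theorem tmap_tmul (i : A →⋆ₐ[ℂ] T) (j : B →⋆ₐ[ℂ] T) (a : A) (b : B) :
    tmap i j (a ⊗ₜ b) = i a * j b := rfl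

theorem tmap_eq (i : A →⋆ₐ[ℂ] T) (j : B →⋆ₐ[ℂ] T) (h : ∀ a b, Commute (i a) (j b)) :
    (tmap i j : A ⊗[ℂ] B → T) = tensorMap i j h := by
  funext (x : A ⊗[ℂ] B)
  induction x with
  | zero => rw [map_zero, map_zero]
  | add x y hx hy => rw [map_add, map_add, hx, hy]
  | tmul a b => rw [tmap_tmul, tensorMap_tmul]

theorem tnorm_eq (i : A →⋆ₐ[ℂ] T) (j : B →⋆ₐ[ℂ] T) (h : ∀ a b, Commute (i a) (j b))
    (x : A ⊗[ℂ] B) : tnorm i j x = ‖tensorMap i j h x‖ := by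
  rw [tnorm, tmap_eq i j h]

theorem IsTensorCompletion.isTensor {i : A →⋆ₐ[ℂ] T} {j : B →⋆ₐ[ℂ] T}
    (h : IsTensorCompletion i j) : IsTensor i j :=
  ⟨fun a b => (h.comm a b).eq, by rw [tmap_eq i j h.comm]; exact h.injective⟩

theorem IsMinTensor.isTensorCompletion {i : A →⋆ₐ[ℂ] T} {j : B →⋆ₐ[ℂ] T}
    (h : IsMinTensor i j) : IsTensorCompletion i j where
  comm := h.1.1
  injective := by rw [← tmap_eq i j h.1.1]; exact h.1.2
  denseRange := by
    have := h.2.1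
    rw [tmap_eq i j h.1.1] at this
    exact this

theorem IsJiangSu.isNuclear (h : IsJiangSu Z) : IsNuclear Z := by
  intro B T T' _ _ _ i j i' j' hT hT' x
  have := congrFun (h.nuclear B T T' i j i' j' hT.isTensor hT'.isTensor) x
  rw [tnorm_eq i j hT.comm, tnorm_eq i' j' hT'.comm] at this
  exact this

theorem IsJiangSu.hasApproxInnerHalfFlip (h : IsJiangSu Z) : HasApproxInnerHalfFlip Z := by
  obtain ⟨T, _, i, j, hT, hflip⟩ := h.half_flip
  refine ⟨T, _, i, j, ⟨hT.isTensorCompletion, ?_⟩, ?_⟩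
  · intro T' _ i' j' h' x
    exact (h.isNuclear _ _ _ _ _ _ _ hT.isTensorCompletion h' x).le
  · intro F ε hε
    classical
    obtain ⟨v, hv⟩ := hflip (insert 0 F) ε hε
    exact ⟨v, (hv 0 (Finset.mem_insert_self _ _)).1,
      fun z hz => (hv z (Finset.mem_insert_of_mem hz)).2⟩

theorem IsJiangSu.tensorAbsorbs (h : IsJiangSu Z) (hA : CompletionAbsorbs A Z) :
    TensorAbsorbs A Z := by
  obtain ⟨T, _, i, j, hT, e⟩ := hA
  refine ⟨T, _, i, j, ⟨hT.toIsTensorCompletion.isTensor, ?_, ?_⟩, e⟩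
  · rw [tmap_eq i j hT.comm]
    exact hT.denseRange
  · intro T' _ i' j' h' x
    exact (congrFun (h.nuclear A T T' i j i' j' hT.toIsTensorCompletion.isTensor h') x).le

theorem IsJiangSu.tensorAbsorbs_of_hom [Nontrivial A] [TopologicalSpace.SeparableSpace A]
    (h : IsJiangSu Z) {ω : Ultrafilter ℕ}
    (σ : Z →⋆ₐ[ℂ] centralSeq A ω) : TensorAbsorbs A Z :=
  h.tensorAbsorbs (Vale.Agent.P101.tensorAbsorbs_of_hom h.separable h.simple h.isNuclear
    h.hasApproxInnerHalfFlip σ)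

theorem exists_equiv_of_isPrimeDimDrop (D : StarSubalgebra ℂ A) (h : IsPrimeDimDrop D) :
    ∃ p q : ℕ, 2 ≤ p ∧ 2 ≤ q ∧ p.Coprime q ∧ Nonempty (D ≃⋆ₐ[ℂ] dimDrop p q) := by
  obtain ⟨p, q, hp, hq, hpq, f, hbij, hf⟩ := h
  refine ⟨p, q, hp, hq, hpq, ⟨StarAlgEquiv.ofBijective
    ({ toFun := fun x : D => (⟨f x, hbij.mapsTo x.2⟩ : dimDrop p q)
       map_smul' := fun c x => Subtype.ext (hf x x.2 x x.2 c).2.2.1
       map_zero' := Subtype.ext (by
          have h1 := (hf 0 (zero_mem D) 0 (zero_mem D) 0).2.2.1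
          rw [zero_smul] at h1
          exact h1.trans (zero_smul ℂ (f 0)))
       map_add' := fun x y => Subtype.ext (hf x x.2 y y.2 0).1
       map_mul' := fun x y => Subtype.ext (hf x x.2 y y.2 0).2.1
       map_star' := fun x => Subtype.ext (hf x x.2 x x.2 0).2.2.2 } :
      D →⋆ₙₐ[ℂ] dimDrop p q) ⟨?_, ?_⟩⟩⟩
  · intro x y hxy
    exact Subtype.ext (hbij.injOn x.2 y.2 (congrArg Subtype.val hxy))
  · rintro ⟨y, hy⟩
    obtain ⟨x, hx, rfl⟩ := hbij.surjOn hy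
    exact ⟨⟨x, hx⟩, rfl⟩

end Vale.Agent.P101
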