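import Vale.Agent.P101.Glue

/-! Stage 3, second half: the defect of the glued element is absorbed. -/

set_option linter.unusedSectionVars false

namespace Vale.Agent.P101

section slide

variable {E : Type*} [Ring E] [StarRing E] {D : Type*} [Ring D] [StarRing D]
variable {φ : ℕ → D →+* E} {a b : D}

/-- `w b_m = b_m w'` for some `w'`. -/
def Slide (φ : ℕ → D →+* E) (b : D) (m : ℕ) (w : E) : Prop := ∃ w', w * φ m b = φ m b * w'

theorem Slide.add {m : ℕ} {w₁ w₂ : E} (h₁ : Slide φ b m w₁) (h₂ : Slide φ b m w₂) :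
    Slide φ b m (w₁ + w₂) := by
  obtain ⟨x, hx⟩ := h₁
  obtain ⟨y, hy⟩ := h₂
  exact ⟨x + y, by rw [add_mul, mul_add, hx, hy]⟩

theorem Slide.mul {m : ℕ} {w₁ w₂ : E} (h₁ : Slide φ b m w₁) (h₂ : Slide φ b m w₂) :
    Slide φ b m (w₁ * w₂) := by
  obtain ⟨x, hx⟩ := h₁
  obtain ⟨y, hy⟩ := h₂
  exact ⟨x * y, by rw [mul_assoc, hy, ← mul_assoc, hx, mul_assoc]⟩

variable (hφ : ∀ i j, i ≠ j → ∀ x y, Commute (φ i x) (φ j y))
  (hs : ∀ n d, φ n (star d) = star (φ n d))
  (haa : a * a = 0) (hab : a * b + b * a = 0) (hsab : star a * b + b * star a = 0)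
  (hbb : star b * b = 1 - (star a * a + a * star a)) (hnb : b * star b = star b * b)

include hφ in
theorem slide_of {m p : ℕ} (d : D) (hd : ∃ d', d * b = b * d') : Slide φ b m (φ p d) := by
  by_cases h : p = m
  · subst h
    obtain ⟨d', hd⟩ := hd
    exact ⟨φ p d', by rw [← map_mul, hd, map_mul]⟩
  · exact ⟨φ p d, (hφ p m h d b).eq⟩

include hab in
theorem slide_a : ∃ d', a * b = b * d' := ⟨-a, by rw [mul_neg, eq_neg_iff_add_eq_zero, hab]⟩

include hsab in
theorem slide_sa : ∃ d', star a * b = b * d' :=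
  ⟨-star a, by rw [mul_neg, eq_neg_iff_add_eq_zero, hsab]⟩

include hnb in
theorem slide_sb : ∃ d', star b * b = b * d' := ⟨star b, hnb.symm⟩

include hφ in
theorem slide_gam (m : ℕ) : ∀ n, Slide φ b m (gam φ b n)
  | 0 => ⟨1, by simp [gam, prodN]⟩
  | n + 1 => by
    rw [gam_succ]
    exact (slide_gam m n).mul (slide_of hφ b ⟨b, rfl⟩)

include hφ hs hnb in
theorem slide_sgam (m : ℕ) : ∀ n, Slide φ b m (star (gam φ b n))
  | 0 => ⟨1, by simp [gam, prodN]⟩
  | n + 1 => by
    rw [gam_succ, star_mul, ← hs]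
    exact (slide_of hφ (star b) (slide_sb hnb)).mul (slide_sgam m n)

include hφ hab in
theorem slide_Zs (m : ℕ) : ∀ n, Slide φ b m (Zs φ a b n)
  | 0 => ⟨0, by simp [Zs]⟩
  | n + 1 => by
    rw [Zs]
    exact (slide_Zs m n).add ((slide_gam hφ m n).mul (slide_of hφ a (slide_a hab)))

include hφ hs hsab hnb in
theorem slide_sZs (m : ℕ) : ∀ n, Slide φ b m (star (Zs φ a b n))
  | 0 => ⟨0, by simp [Zs]⟩
  | n + 1 => by
    rw [Zs, star_add, star_mul, ← hs]
    exact (slide_sZs m n).add
      ((slide_of hφ (star a) (slide_sa hsab)).mul (slide_sgam hφ hs hnb m n))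

/-! ### the absorbing vectors -/

/-- `Θ = a_p* Z Z* + a_q* Z` -/
def Th (φ : ℕ → D →+* E) (a b : D) (n p q : ℕ) : E :=
  φ p (star a) * (Zs φ a b n * star (Zs φ a b n)) + φ q (star a) * Zs φ a b n

include hφ hs hab hsab hnb in
theorem slide_Th (m n p q : ℕ) : Slide φ b m (Th φ a b n p q) :=
  ((slide_of hφ _ (slide_sa hsab)).mul
    ((slide_Zs hφ hab m n).mul (slide_sZs hφ hs hsab hnb m n))).add
    ((slide_of hφ _ (slide_sa hsab)).mul (slide_Zs hφ hab m n))

include hφ hs hab hsab hnb in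
theorem slide_sTh (m n p q : ℕ) : Slide φ b m (star (Th φ a b n p q)) := by
  rw [Th, star_add, star_mul, star_mul, star_mul, star_star, ← hs, ← hs, star_star]
  exact (((slide_Zs hφ hab m n).mul (slide_sZs hφ hs hsab hnb m n)).mul
    (slide_of hφ _ (slide_a hab))).add
    ((slide_sZs hφ hs hsab hnb m n).mul (slide_of hφ _ (slide_a hab)))

include hφ hs haa hab hsab hbb hnb in
theorem Th_proj {m n p q : ℕ} (hn : m < n) (hp : m < p) (hq : m < q) {X : E}
    (hX : Kill φ b m X) :
    Zs φ a b n * star (Zs φ a b n) * (Th φ a b n p q * X) = Th φ a b n p q * X := by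
  have hZX := hX.Zs_mul hφ hs hab hsab hn
  have hsZX := hX.sZs_mul hφ hs hab hsab hn
  have hZsZX := hsZX.Zs_mul hφ hs hab hsab hn
  have hsZZX := hZX.sZs_mul hφ hs hab hsab hn
  have hsq := Zs_sq hφ haa hab n
  have hssq : star (Zs φ a b n) * star (Zs φ a b n) = 0 := by
    rw [← star_mul, hsq, star_zero]
  have u1 := Zs_unit hφ hs hsab hbb hnb hn hsZX
  have u2 := Zs_unit hφ hs hsab hbb hnb hn hZX
  have p1 := sZs_pass (a := a) hφ hs hn hp hZsZX (star a)
  have p2 := Zs_pass (a := a) hφ hn hp (hZsZX.sZs_mul hφ hs hab hsab hn) (star a)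
  have p3 := sZs_pass (a := a) hφ hs hn hq hZX (star a)
  have p4 := Zs_pass (a := a) hφ hn hq hsZZX (star a)
  rw [Th]
  set Z := Zs φ a b n
  have e1 : star Z * (star Z * X) = 0 := by rw [← mul_assoc, hssq, zero_mul]
  have e2 : Z * (Z * X) = 0 := by rw [← mul_assoc, hsq, zero_mul]
  rw [e1, mul_zero, zero_add] at u1
  rw [e2, mul_zero, add_zero] at u2
  simp only [add_mul, mul_add, mul_assoc]
  rw [p1, p2, p3, p4, u1, u2]

include hφ hs haa hab hsab hbb hnb in
/-- the Gram matrix of the vectors `Θ X` for the same `m`. -/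
theorem Th_gram_off {m n p q p' q' : ℕ} (hn : m < n) (hp : m < p) (hq : m < q)
    {X X' : E} (hX' : Kill φ b m X')
    (hp' : p ≠ p') (hpq' : p ≠ q') (hqp' : q ≠ p') (hq' : q ≠ q')
    (ap : φ p a * X' = 0) (aq : φ q a * X' = 0) :
    star (Th φ a b n p q * X) * (Th φ a b n p' q' * X') = 0 := by
  have hsZX := hX'.sZs_mul hφ hs hab hsab hn
  have key : ∀ r, m < r → φ r a * X' = 0 → ∀ r', r ≠ r' →
      φ r a * (φ r' (star a) * (Zs φ a b n * (star (Zs φ a b n) * X'))) = 0 ∧
      φ r a * (φ r' (star a) * (Zs φ a b n * X')) = 0 := by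
    intro r hr har r' hrr'
    constructor
    · rw [← mul_assoc, (hφ r r' hrr' a (star a)).eq, mul_assoc, ← Zs_pass hφ hn hr hsZX a,
        ← sZs_pass hφ hs hn hr hX' a, har]
      simp
    · rw [← mul_assoc, (hφ r r' hrr' a (star a)).eq, mul_assoc, ← Zs_pass hφ hn hr hX' a, har]
      simp
  have hsTh : star (Th φ a b n p q * X) = star X * (Zs φ a b n * star (Zs φ a b n)) * φ p a
      + star X * star (Zs φ a b n) * φ q a := by
    rw [Th, star_mul, star_add, star_mul, star_mul, star_mul, star_star, ← hs, ← hs, star_star]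
    noncomm_ring
  rw [hsTh, Th]
  simp only [add_mul, mul_add, mul_assoc]
  rw [(key p hp ap p' hp').1, (key p hp ap q' hpq').2, (key q hq aq p' hqp').1,
    (key q hq aq q' hq').2]
  simp

include hφ hs haa hab hsab hbb hnb in
theorem Th_gram_diag {m n p q : ℕ} (hn : m < n) (hp : m < p) (hq : m < q) (hpq : p ≠ q)
    {X : E} (hX : Kill φ b m X)
    (ap : φ p a * X = 0) (aq : φ q a * X = 0)
    (ap' : φ p (a * star a) * X = X) (aq' : φ q (a * star a) * X = X) :
    star (Th φ a b n p q * X) * (Th φ a b n p q * X) = star X * X := by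
  have hsZX := hX.sZs_mul hφ hs hab hsab hn
  have hsq := Zs_sq hφ haa hab n
  have hssq : star (Zs φ a b n) * star (Zs φ a b n) = 0 := by
    rw [← star_mul, hsq, star_zero]
  have k1 : φ p a * (φ p (star a) * (Zs φ a b n * (star (Zs φ a b n) * X)))
      = Zs φ a b n * (star (Zs φ a b n) * X) := by
    rw [← mul_assoc, ← map_mul, ← Zs_pass hφ hn hp hsZX, ← sZs_pass hφ hs hn hp hX, ap']
  have k2 : φ q a * (φ q (star a) * (Zs φ a b n * X)) = Zs φ a b n * X := by
    rw [← mul_assoc, ← map_mul, ← Zs_pass hφ hn hq hX, aq']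
  have k3 : φ p a * (φ q (star a) * (Zs φ a b n * X)) = 0 := by
    rw [← mul_assoc, (hφ p q hpq a (star a)).eq, mul_assoc, ← Zs_pass hφ hn hp hX a, ap]
    simp
  have k4 : φ q a * (φ p (star a) * (Zs φ a b n * (star (Zs φ a b n) * X))) = 0 := by
    rw [← mul_assoc, (hφ q p hpq.symm a (star a)).eq, mul_assoc, ← Zs_pass hφ hn hq hsZX a,
      ← sZs_pass hφ hs hn hq hX a, aq]
    simp
  have u1 := Zs_unit hφ hs hsab hbb hnb hn hsZX
  have u0 := Zs_unit hφ hs hsab hbb hnb hn hX
  have hsTh : star (Th φ a b n p q * X) = star X * (Zs φ a b n * star (Zs φ a b n)) * φ p a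
      + star X * star (Zs φ a b n) * φ q a := by
    rw [Th, star_mul, star_add, star_mul, star_mul, star_mul, star_star, ← hs, ← hs, star_star]
    noncomm_ring
  rw [hsTh, Th]
  set Z := Zs φ a b n
  have e1 : star Z * (star Z * X) = 0 := by rw [← mul_assoc, hssq, zero_mul]
  rw [e1, mul_zero, zero_add] at u1
  simp only [add_mul, mul_add, mul_assoc]
  rw [k1, k2, k3, k4, u1]
  simp only [mul_zero, add_zero, zero_add]
  rw [← mul_add, u0]

include hφ hs hab hsab hnb in
theorem Th_gram_cross {m n p q p' q' : ℕ} {X X' X'' : E} (h1 : φ m (star b) * X = 0)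
    (h2 : X' = φ m b * X'') :
    star (Th φ a b n p q * X) * (Th φ a b n p' q' * X') = 0 := by
  obtain ⟨w', hw'⟩ := (slide_sTh hφ hs hab hsab hnb m n p q).mul
    (slide_Th hφ hs hab hsab hnb m n p' q')
  have h3 : star X * φ m b = 0 := by
    have := congrArg star h1
    rw [star_mul, ← hs, star_star, star_zero] at this
    exact this
  calc star (Th φ a b n p q * X) * (Th φ a b n p' q' * X')
      = star X * (star (Th φ a b n p q) * Th φ a b n p' q' * φ m b) * X'' := by
        rw [star_mul, h2]; noncomm_ring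
    _ = (star X * φ m b) * w' * X'' := by rw [hw']; noncomm_ring
    _ = 0 := by rw [h3]; simp

end slide

section count

variable {E : Type*} [CStarAlgebra E] [PartialOrder E] [StarOrderedRing E]
variable {D : Type*} [Ring D] [StarRing D]
variable {φ : ℕ → D →+* E}

/-- product of `v_i* v_i` over the copies in `T` -/
noncomputable def PT (φ : ℕ → D →+* E) {K : ℕ} (v : Fin K → D) (T : Finset ℕ) (i : Fin K)
    (N : ℕ) : E :=
  prodN φ (fun n => if n ∈ T then star (v i) * v i else 1) N

/-- the elementary symmetric functions -/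
noncomputable def ef (φ : ℕ → D →+* E) {K : ℕ} (v : Fin K → D) (t N : ℕ) (i : Fin K) : E :=
  ∑ T ∈ Finset.powersetCard t (Finset.range N), PT φ v T i N

variable {K : ℕ} {v : Fin K → D}

theorem ef_zero (N : ℕ) (i : Fin K) : ef φ v 0 N i = 1 := by
  rw [ef, Finset.powersetCard_zero, Finset.sum_singleton, PT]
  induction N with
  | zero => rfl
  | succ N ih => rw [prodN, ih]; simp

theorem ef_succ_zero (t : ℕ) (i : Fin K) : ef φ v (t + 1) 0 i = 0 := by
  rw [ef, Finset.range_zero, Finset.powersetCard_eq_empty.2 (by simp), Finset.sum_empty]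

theorem PT_succ_of_subset {T : Finset ℕ} {N : ℕ} (hT : T ⊆ Finset.range N) (i : Fin K) :
    PT φ v T i (N + 1) = PT φ v T i N := by
  rw [PT, prodN, if_neg, map_one, mul_one]; · rfl
  intro h
  have := Finset.mem_range.1 (hT h)
  omega

theorem PT_insert {T : Finset ℕ} {N : ℕ} (i : Fin K) :
    PT φ v (insert N T) i (N + 1) = PT φ v T i N * φ N (star (v i) * v i) := by
  rw [PT, prodN, if_pos (Finset.mem_insert_self _ _)]
  congr 1
  refine prodN_congr φ N fun k hk => ?_
  simp only [Finset.mem_insert]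
  have : k ≠ N := by omega
  simp [this]

theorem ef_succ_succ (t N : ℕ) (i : Fin K) :
    ef φ v (t + 1) (N + 1) i
      = ef φ v (t + 1) N i + ef φ v t N i * φ N (star (v i) * v i) := by
  classical
  rw [ef, Finset.range_add_one, Finset.powersetCard_succ_insert Finset.notMem_range_self,
    Finset.sum_union, Finset.sum_image]
  · congr 1
    · refine Finset.sum_congr rfl fun T hT => ?_
      exact PT_succ_of_subset (Finset.mem_powersetCard.1 hT).1 i
    · rw [ef, Finset.sum_mul]
      exact Finset.sum_congr rfl fun T _ => PT_insert i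
  · intro T hT T' hT' h
    have h1 : N ∉ T := fun h => by
      have := Finset.mem_range.1 ((Finset.mem_powersetCard.1 hT).1 h); omega
    have h2 : N ∉ T' := fun h => by
      have := Finset.mem_range.1 ((Finset.mem_powersetCard.1 hT').1 h); omega
    rw [← Finset.erase_insert h1, ← Finset.erase_insert h2, h]
  · rw [Finset.disjoint_left]
    intro T hT hT'
    obtain ⟨T', hT', rfl⟩ := Finset.mem_image.1 hT'
    have := (Finset.mem_powersetCard.1 hT).1 (Finset.mem_insert_self N T')
    simp at this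

variable (hφ : ∀ i j, i ≠ j → ∀ x y, Commute (φ i x) (φ j y))
  (hs : ∀ n d, φ n (star d) = star (φ n d))

include hφ hs in
theorem PT_nonneg (T : Finset ℕ) (i : Fin K) (N : ℕ) : 0 ≤ PT φ v T i N := by
  have : PT φ v T i N = star (prodN φ (fun n => if n ∈ T then v i else 1) N)
      * prodN φ (fun n => if n ∈ T then v i else 1) N := by
    rw [star_prodN hφ hs, prodN_mul hφ, PT]
    congr 1
    funext n
    split_ifs <;> simp
  rw [this]
  exact star_mul_self_nonneg _

include hφ hs in
theorem ef_nonneg (t N : ℕ) (i : Fin K) : 0 ≤ ef φ v t N i :=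
  Finset.sum_nonneg fun T _ => PT_nonneg hφ hs T i N

include hφ in
theorem ef_commute (t N : ℕ) (i : Fin K) (d : D) : Commute (ef φ v t N i) (φ N d) := by
  rw [ef]
  exact Commute.sum_left _ _ _ fun T _ => prodN_commute hφ _ d N N le_rfl

include hφ hs in
theorem mul_conj_nonneg {x : E} (hx0 : 0 ≤ x) {N : ℕ} (hx : ∀ d, Commute x (φ N d)) (d : D) :
    0 ≤ x * φ N (star d * d) := by
  have : x * φ N (star d * d) = star (φ N d) * x * φ N d := by
    rw [map_mul, ← mul_assoc, (hx (star d)).eq, hs]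
  rw [this]
  exact star_left_conjugate_nonneg hx0 _

include hφ hs in
theorem ef_sum_ge (hv : ∑ i, star (v i) * v i = 1) : ∀ (N : ℕ) (t : Fin K → ℕ),
    ((∃ i, t i = 0) ∨ ∑ i, t i < N + K) → 1 ≤ ∑ i, ef φ v (t i) N i := by
  classical
  intro N
  have hzero : ∀ (N : ℕ) (t : Fin K → ℕ), (∃ i, t i = 0) → 1 ≤ ∑ i, ef φ v (t i) N i := by
    rintro N t ⟨i, hi⟩
    have h1 : ef φ v (t i) N i = 1 := by rw [hi, ef_zero]
    rw [← h1]
    exact Finset.single_le_sum (f := fun i => ef φ v (t i) N i)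
      (fun j _ => ef_nonneg hφ hs (t j) N j) (Finset.mem_univ i)
  have hpos : ∀ t : Fin K → ℕ, (¬ ∃ i, t i = 0) → K ≤ ∑ i, t i := by
    intro t ht
    push Not at ht
    calc K = ∑ _i : Fin K, 1 := by simp
      _ ≤ _ := Finset.sum_le_sum fun i _ => Nat.one_le_iff_ne_zero.2 (ht i)
  induction N with
  | zero =>
    intro t ht
    by_cases h : ∃ i, t i = 0
    · exact hzero 0 t h
    · have := hpos t h
      rcases ht with ht | ht
      · exact absurd ht h
      · omega
  | succ N ih =>
    intro t ht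
    by_cases h : ∃ i, t i = 0
    · exact hzero _ t h
    have ht' : ∑ i, t i < N + 1 + K := ht.resolve_left h
    push Not at h
    have hrec : ∀ i, ef φ v (t i) (N + 1) i
        = ef φ v (t i) N i + ef φ v (t i - 1) N i * φ N (star (v i) * v i) := by
      intro i
      obtain ⟨s, hs'⟩ := Nat.exists_eq_succ_of_ne_zero (h i)
      rw [hs']
      exact ef_succ_succ s N i
    have hR : ∀ i, 1 ≤ ef φ v (t i - 1) N i + ∑ j, ef φ v (t j) N j := by
      intro i
      have h1 := ih (Function.update t i (t i - 1)) (Or.inr ?_)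
      · refine h1.trans ?_
        rw [← Finset.add_sum_erase _ _ (Finset.mem_univ i), Function.update_self]
        gcongr
        rw [← Finset.add_sum_erase Finset.univ (fun j => ef φ v (t j) N j) (Finset.mem_univ i)]
        have : ∑ x ∈ Finset.univ.erase i, ef φ v (Function.update t i (t i - 1) x) N x
            = ∑ x ∈ Finset.univ.erase i, ef φ v (t x) N x := by
          refine Finset.sum_congr rfl fun j hj => ?_
          rw [Function.update_of_ne (Finset.ne_of_mem_erase hj)]
        rw [this]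
        exact le_add_of_nonneg_left (ef_nonneg hφ hs _ _ _)
      · have e1 := Finset.add_sum_erase Finset.univ t (Finset.mem_univ i)
        have e2 := Finset.add_sum_erase Finset.univ (Function.update t i (t i - 1))
          (Finset.mem_univ i)
        rw [Function.update_self] at e2
        have e3 : ∑ x ∈ Finset.univ.erase i, Function.update t i (t i - 1) x
            = ∑ x ∈ Finset.univ.erase i, t x := by
          refine Finset.sum_congr rfl fun j hj => ?_
          rw [Function.update_of_ne (Finset.ne_of_mem_erase hj)]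
        rw [e3] at e2
        have := h i
        omega
    have hb : ∑ i, φ N (star (v i) * v i) = 1 := by
      rw [← map_sum, hv, map_one]
    have hle : ∀ i, φ N (star (v i) * v i)
        ≤ (ef φ v (t i - 1) N i + ∑ j, ef φ v (t j) N j) * φ N (star (v i) * v i) := by
      intro i
      have h1 := mul_conj_nonneg (φ := φ) hφ hs
        (x := ef φ v (t i - 1) N i + ∑ j, ef φ v (t j) N j - 1)
        (sub_nonneg.2 (hR i)) (N := N) (fun d => by
          refine ((Commute.add_left (ef_commute hφ _ N i d) ?_).sub_left (Commute.one_left _))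
          exact Commute.sum_left _ _ _ fun j _ => ef_commute hφ _ N j d) (v i)
      rw [sub_mul, one_mul, sub_nonneg] at h1
      exact h1
    calc (1 : E) = ∑ i, φ N (star (v i) * v i) := hb.symm
      _ ≤ ∑ i, (ef φ v (t i - 1) N i + ∑ j, ef φ v (t j) N j) * φ N (star (v i) * v i) :=
        Finset.sum_le_sum fun i _ => hle i
      _ = ∑ i, ef φ v (t i - 1) N i * φ N (star (v i) * v i) + ∑ j, ef φ v (t j) N j := by
        simp only [add_mul]
        rw [Finset.sum_add_distrib, ← Finset.mul_sum, hb, mul_one]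
      _ = ∑ i, ef φ v (t i) (N + 1) i := by
        rw [add_comm, ← Finset.sum_add_distrib]
        exact Finset.sum_congr rfl fun i _ => (hrec i).symm

end count

section final

universe u

variable {E : Type u} [CStarAlgebra E] [PartialOrder E] [StarOrderedRing E]

/-- positions in a finite set of `2K+1` numbers -/
theorem exists_positions {K : ℕ} (T : Finset ℕ) (hT : T.card = 2 * K + 1) :
    ∃ (m : ℕ) (p q : Fin K → ℕ), m ∈ T ∧ (∀ i, p i ∈ T) ∧ (∀ i, q i ∈ T) ∧ (∀ i, m < p i) ∧
      (∀ i, m < q i) ∧ (∀ i i', p i ≠ q i') ∧ (∀ i i', i ≠ i' → p i ≠ p i') ∧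
      (∀ i i', i ≠ i' → q i ≠ q i') := by
  let f := T.orderEmbOfFin hT
  refine ⟨f ⟨0, by omega⟩, fun i => f ⟨2 * i + 1, by omega⟩, fun i => f ⟨2 * i + 2, by omega⟩,
    T.orderEmbOfFin_mem hT _, fun i => T.orderEmbOfFin_mem hT _,
    fun i => T.orderEmbOfFin_mem hT _, fun i => ?_, fun i => ?_, fun i i' h => ?_,
    fun i i' hne h => ?_, fun i i' hne h => ?_⟩
  · exact f.lt_iff_lt.2 (Fin.mk_lt_mk.2 (by omega))
  · exact f.lt_iff_lt.2 (Fin.mk_lt_mk.2 (by omega))
  · have := Fin.mk.inj_iff.1 (f.injective h); omega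
  · have := Fin.mk.inj_iff.1 (f.injective h)
    exact hne (Fin.ext (by omega))
  · have := Fin.mk.inj_iff.1 (f.injective h)
    exact hne (Fin.ext (by omega))

/-- **Stage 3.** -/
theorem glue_absorb (hcp : HasCopies E) {K : ℕ} (α β : E) (V : Fin K → E)
    (haa : α * α = 0) (hab : α * β + β * α = 0) (hsab : star α * β + β * star α = 0)
    (hbb : star β * β = 1 - (star α * α + α * star α)) (hnb : β * star β = star β * β)
    (hav : ∀ i, α * V i = 0) (haav : ∀ i, α * star α * V i = V i)
    (hv : ∑ i, star (V i) * V i = 1) :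
    ∃ Z x c : E, Z * Z = 0 ∧ Z * star Z + star Z * Z + c = 1 ∧ 0 ≤ c ∧ c ≤ star x * x ∧
      Z * star Z * x = x := by
  classical
  -- consequences
  have hbv : ∀ i, β * V i = 0 := by
    intro i
    rw [← CStarRing.star_mul_self_eq_zero_iff]
    have : star (β * V i) * (β * V i) = star (V i) * (star β * β * V i) := by
      rw [star_mul]; noncomm_ring
    rw [this, hbb, sub_mul, one_mul, add_mul, mul_assoc, hav, haav]
    simp
  have hsbv : ∀ i, star β * V i = 0 := by
    intro i
    rw [← CStarRing.star_mul_self_eq_zero_iff]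
    have : star (star β * V i) * (star β * V i) = star (V i) * (β * star β * V i) := by
      rw [star_mul, star_star]; noncomm_ring
    rw [this, hnb, hbb, sub_mul, one_mul, add_mul, mul_assoc, hav, haav]
    simp
  set S : Set E := {α, β} ∪ Set.range V with hS
  have hSf : S.Finite := (Set.toFinite _).union (Set.finite_range V)
  obtain ⟨ρ, hρ⟩ := hcp S hSf
  have hsub : S ⊆ (StarAlgebra.adjoin ℂ S : Set E) := StarAlgebra.subset_adjoin ℂ S
  let a : StarAlgebra.adjoin ℂ S := ⟨α, hsub (by simp [hS])⟩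
  let b : StarAlgebra.adjoin ℂ S := ⟨β, hsub (by simp [hS])⟩
  let v : Fin K → StarAlgebra.adjoin ℂ S := fun i => ⟨V i, hsub (by simp [hS])⟩
  have haa' : a * a = 0 := Subtype.ext haa
  have hab' : a * b + b * a = 0 := Subtype.ext hab
  have hsab' : star a * b + b * star a = 0 := Subtype.ext hsab
  have hbb' : star b * b = 1 - (star a * a + a * star a) := Subtype.ext hbb
  have hnb' : b * star b = star b * b := Subtype.ext hnb
  have hav' : ∀ i, a * v i = 0 := fun i => Subtype.ext (hav i)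
  have haav' : ∀ i, a * star a * v i = v i := fun i => Subtype.ext (haav i)
  have hbv' : ∀ i, b * v i = 0 := fun i => Subtype.ext (hbv i)
  have hsbv' : ∀ i, star b * v i = 0 := fun i => Subtype.ext (hsbv i)
  have hv' : ∑ i, star (v i) * v i = 1 := by
    apply Subtype.ext
    push_cast
    exact hv
  let φ : ℕ → StarAlgebra.adjoin ℂ S →+* E := fun k => (ρ k : StarAlgebra.adjoin ℂ S →+* E)
  have hφ : ∀ i j, i ≠ j → ∀ x y, Commute (φ i x) (φ j y) := fun i j h x y => hρ i j h x y
  have hs : ∀ n d, φ n (star d) = star (φ n d) := fun n d => map_star (ρ n) d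
  let N : ℕ := K * (2 * K + 1) + 1
  let X : Finset ℕ → Fin K → E := fun T i =>
    prodN φ (fun n => if n ∈ T then v i * b else b) N
  have hT : ∀ T : Finset ℕ, ∃ (m : ℕ) (p q : Fin K → ℕ), T.card = 2 * K + 1 →
      (m ∈ T ∧ (∀ i, p i ∈ T) ∧ (∀ i, q i ∈ T) ∧ (∀ i, m < p i) ∧
      (∀ i, m < q i) ∧ (∀ i i', p i ≠ q i') ∧ (∀ i i', i ≠ i' → p i ≠ p i') ∧
      (∀ i i', i ≠ i' → q i ≠ q i')) := by
    intro T
    by_cases h : T.card = 2 * K + 1
    · obtain ⟨m, p, q, h'⟩ := exists_positions T h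
      exact ⟨m, p, q, fun _ => h'⟩
    · exact ⟨0, fun _ => 0, fun _ => 0, fun h' => absurd h' h⟩
  choose m p q hmpq using hT
  let y : Finset ℕ × Fin K → E := fun j => Th φ a b N (p j.1 j.2) (q j.1 j.2) * X j.1 j.2
  let J : Finset (Finset ℕ × Fin K) :=
    Finset.powersetCard (2 * K + 1) (Finset.range N) ×ˢ Finset.univ
  have hJ : ∀ j ∈ J, j.1 ⊆ Finset.range N ∧ j.1.card = 2 * K + 1 := fun j hj =>
    Finset.mem_powersetCard.1 (Finset.mem_product.1 hj).1
  -- action of the letters on X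
  have Xkill : ∀ T i n, n ∈ T → n < N → Kill φ b n (X T i) := by
    intro T i n hn hN
    constructor
    · exact mul_prodN_zero hφ hN (by rw [if_pos hn, ← mul_assoc, hbv', zero_mul])
    · exact mul_prodN_zero hφ hN (by rw [if_pos hn, ← mul_assoc, hsbv', zero_mul])
  have Xa : ∀ T i n, n ∈ T → n < N → φ n a * X T i = 0 := fun T i n hn hN =>
    mul_prodN_zero hφ hN (by rw [if_pos hn, ← mul_assoc, hav', zero_mul])
  have Xaa : ∀ T i n, n ∈ T → n < N → φ n (a * star a) * X T i = X T i := fun T i n hn hN =>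
    mul_prodN_self hφ hN (by rw [if_pos hn, ← mul_assoc, haav'])
  have Xb : ∀ T i n, n ∉ T → n < N → ∃ X'', X T i = φ n b * X'' := by
    intro T i n hn hN
    refine ⟨prodN φ (Function.update (fun n => if n ∈ T then v i * b else b) n 1) N, ?_⟩
    rw [mul_prodN hφ _ b n N hN, Function.update_self, mul_one, Function.update_idem]
    refine prodN_congr φ N fun k _ => ?_
    by_cases hk : k = n
    · subst hk; rw [Function.update_self, if_neg hn]
    · rw [Function.update_of_ne hk]
  have XX : ∀ T i, star (X T i) * X T i = star (gam φ b N) * PT φ v T i N * gam φ b N := by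
    intro T i
    simp only [X, gam, PT]
    rw [star_prodN hφ hs, star_prodN hφ hs, prodN_mul hφ, prodN_mul hφ, prodN_mul hφ]
    refine prodN_congr φ N fun k _ => ?_
    split_ifs
    · rw [star_mul]; noncomm_ring
    · simp
  have hoff : ∀ j ∈ J, ∀ j' ∈ J, j ≠ j' → star (y j) * y j' = 0 := by
    rintro ⟨T, i⟩ hj ⟨T', i'⟩ hj' hne
    obtain ⟨hT1, hT2⟩ := hJ _ hj
    obtain ⟨hT1', hT2'⟩ := hJ _ hj'
    simp only at hT1 hT2 hT1' hT2'
    by_cases hTT : T = T'
    · subst hTT
      have hii : i ≠ i' := fun h => hne (by rw [h])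
      obtain ⟨h1, h2, h3, h4, h5, h6, h7, h8⟩ := hmpq T hT2
      have lt : ∀ n ∈ T, n < N := fun n hn => Finset.mem_range.1 (hT1 hn)
      exact Th_gram_off hφ hs haa' hab' hsab' hbb' hnb' (m := m T) (lt _ h1) (h4 i) (h5 i)
        (Xkill T i' _ h1 (lt _ h1)) (h7 _ _ hii) (h6 _ _) (fun h => h6 _ _ h.symm)
        (h8 _ _ hii) (Xa T i' _ (h2 i) (lt _ (h2 i))) (Xa T i' _ (h3 i) (lt _ (h3 i)))
    · obtain ⟨n, hn, hn'⟩ : ∃ n ∈ T, n ∉ T' := by
        by_contra hcon
        push Not at hcon
        exact hTT (Finset.eq_of_subset_of_card_le hcon (by rw [hT2, hT2']))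
      have hnN : n < N := Finset.mem_range.1 (hT1 hn)
      obtain ⟨X'', hX''⟩ := Xb T' i' n hn' hnN
      exact Th_gram_cross hφ hs hab' hsab' hnb' (Xkill T i n hn hnN).2 hX''
  have hdiag : ∀ j ∈ J, star (y j) * y j = star (X j.1 j.2) * X j.1 j.2 := by
    rintro ⟨T, i⟩ hj
    obtain ⟨hT1, hT2⟩ := hJ _ hj
    simp only at hT1 hT2
    obtain ⟨h1, h2, h3, h4, h5, h6, h7, h8⟩ := hmpq T hT2
    have lt : ∀ n ∈ T, n < N := fun n hn => Finset.mem_range.1 (hT1 hn)
    exact Th_gram_diag hφ hs haa' hab' hsab' hbb' hnb' (m := m T) (lt _ h1) (h4 i) (h5 i)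
      (h6 _ _) (Xkill T i _ h1 (lt _ h1)) (Xa T i _ (h2 i) (lt _ (h2 i)))
      (Xa T i _ (h3 i) (lt _ (h3 i))) (Xaa T i _ (h2 i) (lt _ (h2 i)))
      (Xaa T i _ (h3 i) (lt _ (h3 i)))
  refine ⟨Zs φ a b N, ∑ j ∈ J, y j, star (gam φ b N) * gam φ b N, Zs_sq hφ haa' hab' N,
    Zs_sum hφ hs hsab' hbb' hnb' N, star_mul_self_nonneg _, ?_, ?_⟩
  · have e1 : star (∑ j ∈ J, y j) * ∑ j ∈ J, y j
        = ∑ j ∈ J, star (X j.1 j.2) * X j.1 j.2 := by
      rw [star_sum, Finset.sum_mul_sum]
      refine Finset.sum_congr rfl fun j hj => ?_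
      rw [Finset.sum_eq_single_of_mem j hj, hdiag j hj]
      intro j' hj' hne
      exact hoff j hj j' hj' hne.symm
    rw [e1]
    have e2 : ∑ j ∈ J, star (X j.1 j.2) * X j.1 j.2
        = star (gam φ b N) * (∑ i, ef φ v (2 * K + 1) N i) * gam φ b N := by
      simp only [XX, J]
      rw [Finset.sum_product_right, Finset.mul_sum, Finset.sum_mul]
      refine Finset.sum_congr rfl fun i _ => ?_
      rw [ef, Finset.mul_sum, Finset.sum_mul]
    rw [e2]
    have e3 : (1 : E) ≤ ∑ i, ef φ v (2 * K + 1) N i := by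
      refine ef_sum_ge hφ hs hv' N (fun _ => 2 * K + 1) (Or.inr ?_)
      simp only [Finset.sum_const, Finset.card_univ, Fintype.card_fin, smul_eq_mul, N]
      omega
    have := star_left_conjugate_le_conjugate e3 (gam φ b N)
    simpa using this
  · rw [Finset.mul_sum]
    refine Finset.sum_congr rfl fun j hj => ?_
    obtain ⟨hT1, hT2⟩ := hJ _ hj
    obtain ⟨h1, h2, h3, h4, h5, h6, h7, h8⟩ := hmpq j.1 hT2
    have lt : ∀ n ∈ j.1, n < N := fun n hn => Finset.mem_range.1 (hT1 hn)
    exact Th_proj hφ hs haa' hab' hsab' hbb' hnb' (m := m j.1) (lt _ h1) (h4 j.2) (h5 j.2)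
      (Xkill j.1 j.2 _ h1 (lt _ h1))

end final

end Vale.Agent.P101
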