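import Mathlib

/-! Basic notions for P101 (shared by all the proof files). -/

namespace Vale.Agent.P101

/-- `GenOne S`: the two-sided ideal generated by `S` contains `1`
(written out as an explicit finite sum). -/
def GenOne {E : Type*} [Ring E] (S : Set E) : Prop :=
  ∃ (n : ℕ) (a s b : Fin n → E), (∀ i, s i ∈ S) ∧ ∑ i, a i * s i * b i = 1

/-- `HasCopies E`: every finitely generated star subalgebra of `E` (no closure taken)
has infinitely many pairwise commuting homomorphic copies in `E`. -/
def HasCopies (E : Type*) [Ring E] [StarRing E] [Algebra ℂ E] [StarModule ℂ E] : Prop :=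
  ∀ S : Set E, S.Finite → ∃ ρ : ℕ → (StarAlgebra.adjoin ℂ S →⋆ₐ[ℂ] E),
    ∀ i j, i ≠ j → ∀ x y, Commute (ρ i x) (ρ j y)

end Vale.Agent.P101
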