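import Vale.Agent.P101.Basic

/-! Algebraic packages of fermionic modes and their tensor products. -/

namespace Vale.Agent.P101

/-- A package of `m` fermionic modes with auxiliary elements. -/
structure Cl {Q : Type*} [Ring Q] [StarRing Q] {m : ℕ} {ι : Type*} [Fintype ι]
    (a : Fin m → Q) (r Γ g w : Q) (V : ι → Q) : Prop where
  aa : ∀ i j, a i * a j + a j * a i = 0
  asa : ∀ i j, a i * star (a j) + star (a j) * a i = if i = j then r * r else 0
  r_sa : star r = r
  Γ_sa : star Γ = Γ
  g_sa : star g = g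
  w_sa : star w = w
  Γa : ∀ i, Γ * a i + a i * Γ = 0
  ga : ∀ i, g * a i + a i * g = 0
  ΓΓ : Γ * Γ = r * r
  gΓ : g * Γ = Γ * g
  gr : g * r = r * g
  gw : g * w = w * g
  ggw : g * g * w = w
  ra : ∀ i, r * a i = a i * r
  rΓ : r * Γ = Γ * r
  wa : ∀ i, w * a i = a i
  aw : ∀ i, a i * w = a i
  wΓ : w * Γ = Γ
  wr : w * r = r
  aV : ∀ i l, a i * V l = 0
  aaV : ∀ i l, a i * star (a i) * V l = V l
  rV : ∀ l, r * V l = V l
  ΓV : ∀ l, Γ * V l = V l
  VV : ∑ l, star (V l) * V l = 1

namespace Cl

section inj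

variable {Q D F : Type*} [Ring Q] [StarRing Q] [Ring D] [StarRing D] {m : ℕ} {ι : Type*}
  [Fintype ι] [Algebra ℂ Q] [Algebra ℂ D]

theorem of_injective (f : D →⋆ₐ[ℂ] Q) (hf : Function.Injective f) {a : Fin m → D} {r Γ g w : D}
    {V : ι → D} (h : Cl (fun i => f (a i)) (f r) (f Γ) (f g) (f w) (fun l => f (V l))) :
    Cl a r Γ g w V where
  aa i j := hf (by simpa [map_star] using h.aa i j)
  asa i j := hf (by
    have := h.asa i j
    split_ifs with e
    · rw [if_pos e] at this
      simpa [map_star] using this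
    · rw [if_neg e] at this
      simpa [map_star] using this)
  r_sa := hf (by simpa [map_star] using h.r_sa)
  Γ_sa := hf (by simpa [map_star] using h.Γ_sa)
  g_sa := hf (by simpa [map_star] using h.g_sa)
  w_sa := hf (by simpa [map_star] using h.w_sa)
  Γa i := hf (by simpa [map_star] using h.Γa i)
  ga i := hf (by simpa [map_star] using h.ga i)
  ΓΓ := hf (by simpa [map_star] using h.ΓΓ)
  gΓ := hf (by simpa [map_star] using h.gΓ)
  gr := hf (by simpa [map_star] using h.gr)
  gw := hf (by simpa [map_star] using h.gw)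
  ggw := hf (by simpa [map_star] using h.ggw)
  ra i := hf (by simpa [map_star] using h.ra i)
  rΓ := hf (by simpa [map_star] using h.rΓ)
  wa i := hf (by simpa [map_star] using h.wa i)
  aw i := hf (by simpa [map_star] using h.aw i)
  wΓ := hf (by simpa [map_star] using h.wΓ)
  wr := hf (by simpa [map_star] using h.wr)
  aV i l := hf (by simpa [map_star] using h.aV i l)
  aaV i l := hf (by simpa [map_star] using h.aaV i l)
  rV l := hf (by simpa [map_star] using h.rV l)
  ΓV l := hf (by simpa [map_star] using h.ΓV l)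
  VV := hf (by simpa [map_star] using h.VV)

theorem map (f : D →⋆ₐ[ℂ] Q) {a : Fin m → D} {r Γ g w : D}
    {V : ι → D} (h : Cl a r Γ g w V) :
    Cl (fun i => f (a i)) (f r) (f Γ) (f g) (f w) (fun l => f (V l)) where
  aa i j := by
    have := congrArg f (h.aa i j)
    simpa [map_star] using this
  asa i j := by
    have := congrArg f (h.asa i j)
    split_ifs with e
    · rw [if_pos e] at this
      simpa [map_star] using this
    · rw [if_neg e] at this
      simpa [map_star] using this
  r_sa := by simpa [map_star] using congrArg f h.r_sa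
  Γ_sa := by simpa [map_star] using congrArg f h.Γ_sa
  g_sa := by simpa [map_star] using congrArg f h.g_sa
  w_sa := by simpa [map_star] using congrArg f h.w_sa
  Γa i := by simpa [map_star] using congrArg f (h.Γa i)
  ga i := by simpa [map_star] using congrArg f (h.ga i)
  ΓΓ := by simpa [map_star] using congrArg f h.ΓΓ
  gΓ := by simpa [map_star] using congrArg f h.gΓ
  gr := by simpa [map_star] using congrArg f h.gr
  gw := by simpa [map_star] using congrArg f h.gw
  ggw := by simpa [map_star] using congrArg f h.ggw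
  ra i := by simpa [map_star] using congrArg f (h.ra i)
  rΓ := by simpa [map_star] using congrArg f h.rΓ
  wa i := by simpa [map_star] using congrArg f (h.wa i)
  aw i := by simpa [map_star] using congrArg f (h.aw i)
  wΓ := by simpa [map_star] using congrArg f h.wΓ
  wr := by simpa [map_star] using congrArg f h.wr
  aV i l := by simpa [map_star] using congrArg f (h.aV i l)
  aaV i l := by simpa [map_star] using congrArg f (h.aaV i l)
  rV l := by simpa [map_star] using congrArg f (h.rV l)
  ΓV l := by simpa [map_star] using congrArg f (h.ΓV l)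
  VV := by simpa [map_star] using congrArg f h.VV

end inj

section combine

variable {Q : Type*} [Ring Q] [StarRing Q] {m : ℕ} {ι ι' : Type*} [Fintype ι] [Fintype ι']

theorem combine {a : Fin m → Q} {r Γ g w : Q} {V : ι → Q} (h : Cl a r Γ g w V)
    {a' : Fin 1 → Q} {r' Γ' g' w' : Q} {V' : ι' → Q} (h' : Cl a' r' Γ' g' w' V')
    (T : Set Q) (hT : ∀ y ∈ T, star y ∈ T)
    (ta : a' 0 ∈ T) (tr : r' ∈ T) (tΓ : Γ' ∈ T) (tg : g' ∈ T) (tw : w' ∈ T)
    (tV : ∀ l, V' l ∈ T)
    (ca : ∀ i, ∀ y ∈ T, Commute (a i) y) (cr : ∀ y ∈ T, Commute r y)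
    (cΓ : ∀ y ∈ T, Commute Γ y) (cg : ∀ y ∈ T, Commute g y) (cw : ∀ y ∈ T, Commute w y)
    (cV : ∀ l, ∀ y ∈ T, Commute (V l) y) :
    Cl (Fin.snoc (α := fun _ => Q) (fun i => a i * r') (Γ * a' 0) : Fin (m + 1) → Q)
      (r * r') (Γ * Γ') (g * g') (w * w') (fun l : ι × ι' => V l.1 * V' l.2) := by
  obtain ⟨A, hA⟩ : ∃ A, A = a' 0 := ⟨_, rfl⟩
  rw [← hA] at ta ⊢
  have aa' : A * A + A * A = 0 := by rw [hA]; exact h'.aa 0 0
  have asa' : A * star A + star A * A = r' * r' := by
    rw [hA]
    have := h'.asa 0 0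
    rwa [if_pos rfl] at this
  have ΓA' : Γ' * A + A * Γ' = 0 := by rw [hA]; exact h'.Γa 0
  have gA' : g' * A + A * g' = 0 := by rw [hA]; exact h'.ga 0
  have rA' : r' * A = A * r' := by rw [hA]; exact h'.ra 0
  have wA' : w' * A = A := by rw [hA]; exact h'.wa 0
  have Aw' : A * w' = A := by rw [hA]; exact h'.aw 0
  have AV' : ∀ l, A * V' l = 0 := by rw [hA]; exact h'.aV 0
  have AAV' : ∀ l, A * star A * V' l = V' l := by rw [hA]; exact h'.aaV 0
  have rsA' : r' * star A = star A * r' := by
    have := congrArg star rA'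
    rw [star_mul, star_mul, h'.r_sa] at this
    exact this.symm
  have tsA : star A ∈ T := hT _ ta
  have scomm : ∀ {x y : Q}, (∀ y ∈ T, Commute x y) → y ∈ T → Commute (star x) y := by
    intro x y hx hy
    have := (hx _ (hT _ hy)).star_star
    rwa [star_star] at this
  have st1 : ∀ j, star (a j * r') = star (a j) * r' := by
    intro j
    rw [star_mul, h'.r_sa]
    exact (scomm (ca j) tr).eq.symm
  have st2 : star (Γ * A) = Γ * star A := by
    rw [star_mul, h.Γ_sa]
    exact (cΓ _ tsA).eq.symm
  have Γsa : ∀ i, Γ * star (a i) + star (a i) * Γ = 0 := by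
    intro i
    have := congrArg star (h.Γa i)
    rw [star_add, star_mul, star_mul, h.Γ_sa, star_zero, add_comm] at this
    exact this
  have mm : ∀ {x y u v : Q}, (∀ y ∈ T, Commute u y) → y ∈ T → x * y * (u * v) = x * u * (y * v) :=
    fun {x y u v} hu hy => (hu y hy).symm.mul_mul_mul_comm x v
  have Γaw : Γ * w = Γ := by
    have := congrArg star h.wΓ
    rwa [star_mul, h.Γ_sa, h.w_sa] at this
  constructor
  · intro i j
    induction i using Fin.lastCases with
    | last =>
      induction j using Fin.lastCases with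
      | last =>
        simp only [Fin.snoc_last]
        rw [mm cΓ ta, ← mul_add, aa', mul_zero]
      | cast j =>
        simp only [Fin.snoc_last, Fin.snoc_castSucc]
        rw [mm (ca j) ta, mm cΓ tr, rA', ← add_mul, h.Γa, zero_mul]
    | cast i =>
      induction j using Fin.lastCases with
      | last =>
        simp only [Fin.snoc_last, Fin.snoc_castSucc]
        rw [mm (ca i) ta, mm cΓ tr, rA', ← add_mul, add_comm, h.Γa, zero_mul]
      | cast j =>
        simp only [Fin.snoc_castSucc]
        rw [mm (ca j) tr, mm (ca i) tr, ← add_mul, h.aa, zero_mul]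
  · intro i j
    induction i using Fin.lastCases with
    | last =>
      induction j using Fin.lastCases with
      | last =>
        simp only [Fin.snoc_last, st2, if_true]
        rw [mm cΓ ta, mm cΓ tsA, ← mul_add, asa', h.ΓΓ, mm cr tr]
      | cast j =>
        simp only [Fin.snoc_last, Fin.snoc_castSucc, st1]
        rw [mm (fun y hy => scomm (ca j) hy) ta, mm cΓ tr, rA', ← add_mul, Γsa, zero_mul,
          if_neg (Fin.castSucc_lt_last j).ne']
    | cast i =>
      induction j using Fin.lastCases with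
      | last =>
        simp only [Fin.snoc_last, Fin.snoc_castSucc, st2]
        rw [mm (ca i) tsA, mm cΓ tr, rsA', ← add_mul, add_comm, h.Γa, zero_mul,
          if_neg (Fin.castSucc_lt_last i).ne]
      | cast j =>
        simp only [Fin.snoc_castSucc, st1]
        rw [mm (fun y hy => scomm (ca j) hy) tr, mm (ca i) tr, ← add_mul, h.asa]
        by_cases e : i = j
        · rw [if_pos e, if_pos (by rw [e]), mm cr tr]
        · rw [if_neg e, if_neg (fun e' => e (Fin.castSucc_injective _ e')), zero_mul]
  · rw [star_mul, h.r_sa, h'.r_sa]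
    exact (cr _ tr).eq.symm
  · rw [star_mul, h.Γ_sa, h'.Γ_sa]
    exact (cΓ _ tΓ).eq.symm
  · rw [star_mul, h.g_sa, h'.g_sa]
    exact (cg _ tg).eq.symm
  · rw [star_mul, h.w_sa, h'.w_sa]
    exact (cw _ tw).eq.symm
  · intro i
    induction i using Fin.lastCases with
    | last =>
      simp only [Fin.snoc_last]
      rw [mm cΓ tΓ, mm cΓ ta, ← mul_add, ΓA', mul_zero]
    | cast i =>
      simp only [Fin.snoc_castSucc]
      rw [mm (ca i) tΓ, mm cΓ tr, h'.rΓ, ← add_mul, h.Γa, zero_mul]
  · intro i
    induction i using Fin.lastCases with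
    | last =>
      simp only [Fin.snoc_last]
      rw [mm cΓ tg, mm cg ta, h.gΓ, ← mul_add, gA', mul_zero]
    | cast i =>
      simp only [Fin.snoc_castSucc]
      rw [mm (ca i) tg, mm cg tr, h'.gr, ← add_mul, h.ga, zero_mul]
  · rw [mm cΓ tΓ, mm cr tr, h.ΓΓ, h'.ΓΓ]
  · rw [mm cΓ tg, mm cg tΓ, h.gΓ, h'.gΓ]
  · rw [mm cr tg, mm cg tr, h.gr, h'.gr]
  · rw [mm cw tg, mm cg tw, h.gw, h'.gw]
  · rw [mm cg tg]
    have hy : g' * g' * (w * w') = w * (g' * g' * w') := by
      have : Commute (g' * g') w := (cw _ tg).symm.mul_left (cw _ tg).symm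
      rw [← mul_assoc, this.eq, mul_assoc]
    rw [mul_assoc, hy, ← mul_assoc, h.ggw, h'.ggw]
  · intro i
    induction i using Fin.lastCases with
    | last =>
      simp only [Fin.snoc_last]
      rw [mm cΓ tr, mm cr ta, h.rΓ, rA']
    | cast i =>
      simp only [Fin.snoc_castSucc]
      rw [mm (ca i) tr, mm cr tr, h.ra]
  · rw [mm cΓ tr, mm cr tΓ, h.rΓ, h'.rΓ]
  · intro i
    induction i using Fin.lastCases with
    | last =>
      simp only [Fin.snoc_last]
      rw [mm cΓ tw, h.wΓ, wA']
    | cast i =>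
      simp only [Fin.snoc_castSucc]
      rw [mm (ca i) tw, h.wa, h'.wr]
  · intro i
    induction i using Fin.lastCases with
    | last =>
      simp only [Fin.snoc_last]
      rw [mm cw ta, Γaw, Aw']
    | cast i =>
      simp only [Fin.snoc_castSucc]
      have : r' * w' = r' := by
        have := congrArg star h'.wr
        rwa [star_mul, h'.r_sa, h'.w_sa] at this
      rw [mm cw tr, h.aw, this]
  · rw [mm cΓ tw, h.wΓ, h'.wΓ]
  · rw [mm cr tw, h.wr, h'.wr]
  · rintro i ⟨l, l'⟩
    induction i using Fin.lastCases with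
    | last =>
      simp only [Fin.snoc_last]
      rw [mm (cV l) ta, h.ΓV, AV', mul_zero]
    | cast i =>
      simp only [Fin.snoc_castSucc]
      rw [mm (cV l) tr, h.aV, zero_mul]
  · rintro i ⟨l, l'⟩
    induction i using Fin.lastCases with
    | last =>
      simp only [Fin.snoc_last, st2]
      rw [mul_assoc (Γ * A), mm (cV l) tsA, h.ΓV, mm (cV l) ta, h.ΓV, ← mul_assoc A, AAV']
    | cast i =>
      simp only [Fin.snoc_castSucc, st1]
      have c2 : ∀ y ∈ T, Commute (star (a i) * V l) y :=
        fun y hy => (scomm (ca i) hy).mul_left (cV l y hy)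
      rw [mul_assoc (a i * r'), mm (cV l) tr, h'.rV, mm c2 tr, h'.rV, ← mul_assoc (a i), h.aaV]
  · rintro ⟨l, l'⟩
    simp only
    rw [mm (cV l) tr, h.rV, h'.rV]
  · rintro ⟨l, l'⟩
    simp only
    rw [mm (cV l) tΓ, h.ΓV, h'.ΓV]
  · have e : ∀ l : ι × ι', star (V l.1 * V' l.2) * (V l.1 * V' l.2) =
        (star (V l.1) * V l.1) * (star (V' l.2) * V' l.2) := by
      intro l
      rw [star_mul]
      have c1 : Commute (star (V l.1)) (star (V' l.2)) := scomm (cV l.1) (hT _ (tV l.2))
      rw [c1.symm.eq, mm (cV l.1) (hT _ (tV l.2))]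
    simp only [e]
    rw [Fintype.sum_prod_type]
    simp only [← Finset.mul_sum]
    rw [h'.VV]
    simpa using h.VV

end combine

end Cl

end Vale.Agent.P101
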