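import Vale.Agent.P101.LemmaF
import Vale.Agent.P101.CliffAlg

/-! The package of one fermionic mode obtained from a full square zero element. -/

namespace Vale.Agent.P101

section functions

noncomputable def fR (d t : ℝ) : ℝ := √(ramp d 3 t)
noncomputable def fGa (d t : ℝ) : ℝ := √(ramp d 3 t) / max t d
noncomputable def fW (d t : ℝ) : ℝ := ramp d 2 t
noncomputable def fGt (d t : ℝ) : ℝ := ramp d 1 t / max t d
noncomputable def fQ (d t : ℝ) : ℝ := √(1 - ramp d 3 t)

theorem fR_cont (d : ℝ) : Continuous (fR d) := (ramp_cont d 3).sqrt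
theorem fW_cont (d : ℝ) : Continuous (fW d) := ramp_cont d 2
theorem fQ_cont (d : ℝ) : Continuous (fQ d) := (continuous_const.sub (ramp_cont d 3)).sqrt
theorem fGa_cont {d : ℝ} (hd : 0 < d) : Continuous (fGa d) := by
  unfold fGa
  exact ((ramp_cont d 3).sqrt).div (continuous_id.max continuous_const) (max_ne hd)
theorem fGt_cont {d : ℝ} (hd : 0 < d) : Continuous (fGt d) := by
  unfold fGt
  exact (ramp_cont d 1).div (continuous_id.max continuous_const) (max_ne hd)

theorem id_RR (d t : ℝ) : fR d t * fR d t = fK d t := Real.mul_self_sqrt (ramp_nonneg _ _ _)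

theorem id_QQ (d t : ℝ) : fQ d t * fQ d t = 1 - fK d t :=
  Real.mul_self_sqrt (sub_nonneg.mpr (ramp_le_one _ _ _))

theorem id_GaGa {d : ℝ} (hd : 0 < d) (t : ℝ) : t * (t * (fGa d t * fGa d t)) = fK d t := by
  unfold fGa fK
  rw [div_mul_div_comm, Real.mul_self_sqrt (ramp_nonneg _ _ _)]
  rcases le_total t d with h | h
  · rw [ramp_eq_zero hd (by nlinarith)]
    simp
  · rw [max_eq_left h]
    have : t ≠ 0 := (lt_of_lt_of_le hd h).ne'
    field_simp

theorem id_GtW {d : ℝ} (hd : 0 < d) (t : ℝ) :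
    t * (t * ((fGt d t * fGt d t) * fW d t)) = fW d t := by
  unfold fGt fW
  rcases le_total t (2 * d) with h | h
  · rw [ramp_eq_zero (a := 2) hd h]
    simp
  · rw [ramp_eq_one (a := 1) hd (by linarith), max_eq_left (by linarith)]
    have : t ≠ 0 := (lt_of_lt_of_le (by linarith : (0 : ℝ) < 2 * d) h).ne'
    field_simp

theorem id_WF {d : ℝ} (hd : 0 < d) (t : ℝ) : fW d t * fF d t = fF d t := by
  unfold fW fF
  rcases le_total t (3 * d) with h | h
  · rw [ramp_eq_zero (a := 3) hd h]
    simp
  · rw [ramp_eq_one (a := 2) hd (by linarith)]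
    simp

theorem id_WR {d : ℝ} (hd : 0 < d) (t : ℝ) : fW d t * fR d t = fR d t := by
  unfold fW fR
  rcases le_total t (3 * d) with h | h
  · rw [ramp_eq_zero (a := 3) hd h]
    simp
  · rw [ramp_eq_one (a := 2) hd (by linarith)]
    simp

theorem id_WGa {d : ℝ} (hd : 0 < d) (t : ℝ) : fW d t * fGa d t = fGa d t := by
  unfold fW fGa
  rcases le_total t (3 * d) with h | h
  · rw [ramp_eq_zero (a := 3) hd h]
    simp
  · rw [ramp_eq_one (a := 2) hd (by linarith)]
    simp

theorem id_RG {d : ℝ} (hd : 0 < d) (t : ℝ) : fR d t * fG d t = fG d t := by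
  unfold fR fG
  rcases le_total t (4 * d) with h | h
  · rw [ramp_eq_zero (a := 4) hd h]
    simp
  · rw [ramp_eq_one (a := 3) hd (by linarith)]
    simp

theorem id_GaG {d : ℝ} (hd : 0 < d) (t : ℝ) : t * (fGa d t * fG d t) = fG d t := by
  unfold fGa fG
  rcases le_total t (4 * d) with h | h
  · rw [ramp_eq_zero (a := 4) hd h]
    simp
  · rw [ramp_eq_one (a := 3) hd (by linarith), max_eq_left (by linarith)]
    have : t ≠ 0 := (lt_of_lt_of_le (by linarith : (0 : ℝ) < 4 * d) h).ne'
    simp
    field_simp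

end functions

section cstar

variable {E : Type*} [CStarAlgebra E] [PartialOrder E] [StarOrderedRing E]

theorem cl_one (z : E) (hz : z * z = 0) (hg : GenOne {z}) :
    ∃ (K : ℕ) (a : Fin 1 → E) (r Γ g w q : E) (V : Fin K → E),
      Cl a r Γ g w V ∧ star q * q = 1 - r * r := by
  obtain ⟨n, a, s, b, hs, hsum⟩ := hg
  have hs' : ∀ i, s i = z := fun i => hs i
  simp only [hs'] at hsum
  obtain ⟨k, hk⟩ : ∃ k : E, k = z * star z + star z * z := ⟨_, rfl⟩
  have hsz : star z * star z = 0 := by rw [← star_mul, hz, star_zero]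
  have hksa : IsSelfAdjoint k := by
    rw [hk]
    exact (IsSelfAdjoint.mul_star_self z).add (IsSelfAdjoint.star_mul_self z)
  have hk0 : 0 ≤ k := hk ▸ add_nonneg (mul_star_self_nonneg z) (star_mul_self_nonneg z)
  have hspec : ∀ t ∈ spectrum ℝ k, 0 ≤ t := fun t ht => spectrum_nonneg_of_nonneg hk0 ht
  have hzk : Commute k z := by
    show k * z = z * k
    rw [hk, add_mul, mul_add]
    have e1 : star z * z * z = 0 := by rw [mul_assoc, hz, mul_zero]
    have e2 : z * (z * star z) = 0 := by rw [← mul_assoc, hz, zero_mul]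
    rw [e1, e2, add_zero, zero_add, mul_assoc]
  have hszk : Commute k (star z) := by
    have := hzk.star_star
    rwa [hksa.star_eq] at this
  -- functional calculus
  have hmul : ∀ f g : ℝ → ℝ, Continuous f → Continuous g →
      cfc f k * cfc g k = cfc (fun t => f t * g t) k := by
    intro f g hf hg
    exact (cfc_mul f g k hf.continuousOn hg.continuousOn).symm
  have hcongr : ∀ f g : ℝ → ℝ, (∀ t, 0 ≤ t → f t = g t) → cfc f k = cfc g k := by
    intro f g h
    exact cfc_congr fun t ht => h t (hspec t ht)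
  have hkid : cfc (fun t : ℝ => t) k = k := cfc_id' ℝ k
  have hkmul : ∀ g : ℝ → ℝ, Continuous g → k * cfc g k = cfc (fun t => t * g t) k := by
    intro g hg
    have h1 := hmul (fun t => t) g continuous_id' hg
    rwa [hkid] at h1
  have hsub1 : ∀ f : ℝ → ℝ, Continuous f → 1 - cfc f k = cfc (fun t => 1 - f t) k := by
    intro f hf
    have h1 := cfc_sub (fun _ : ℝ => (1 : ℝ)) f k continuousOn_const hf.continuousOn
    rw [cfc_const_one ℝ k] at h1
    exact h1.symm
  -- the choice of δ
  set N : ℝ := ∑ i, ‖a i‖ * ‖b i‖ with hN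
  have hN0 : 0 ≤ N := Finset.sum_nonneg fun i _ => by positivity
  obtain ⟨d, hd, hdN⟩ : ∃ d : ℝ, 0 < d ∧ √(5 * d) * N < 1 := by
    refine ⟨1 / (5 * (N + 1) ^ 2), by positivity, ?_⟩
    have h1 : 5 * (1 / (5 * (N + 1) ^ 2)) = (1 / (N + 1)) ^ 2 := by field_simp
    rw [h1, Real.sqrt_sq (by positivity), one_div, inv_mul_lt_iff₀ (by positivity)]
    linarith
  obtain ⟨F, hF⟩ : ∃ F, F = cfc (fF d) k := ⟨_, rfl⟩
  obtain ⟨R, hR⟩ : ∃ R, R = cfc (fR d) k := ⟨_, rfl⟩
  obtain ⟨GA, hGA⟩ : ∃ G, G = cfc (fGa d) k := ⟨_, rfl⟩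
  obtain ⟨GT, hGT⟩ : ∃ G, G = cfc (fGt d) k := ⟨_, rfl⟩
  obtain ⟨W, hW⟩ : ∃ G, G = cfc (fW d) k := ⟨_, rfl⟩
  obtain ⟨q, hq⟩ : ∃ G, G = cfc (fQ d) k := ⟨_, rfl⟩
  obtain ⟨G, hG⟩ : ∃ G, G = cfc (fG d) k := ⟨_, rfl⟩
  obtain ⟨Ka, hKa⟩ : ∃ G, G = cfc (fK d) k := ⟨_, rfl⟩
  have cF := fF_cont hd
  have cR := fR_cont d
  have cGA := fGa_cont hd
  have cGT := fGt_cont hd
  have cW := fW_cont d
  have cq := fQ_cont d
  have cG := fG_cont d
  have cK := fK_cont d
  have cFF : Continuous (fun t => fF d t * fF d t) := cF.mul cF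
  have c1 : Continuous (fun t => fGa d t * fGa d t) := cGA.mul cGA
  have c2 : Continuous (fun t => t * (fGa d t * fGa d t)) := continuous_id'.mul c1
  have c3 : Continuous (fun t => fGt d t * fGt d t) := cGT.mul cGT
  have c4 : Continuous (fun t => fGt d t * fGt d t * fW d t) := c3.mul cW
  have c5 : Continuous (fun t => t * (fGt d t * fGt d t * fW d t)) := continuous_id'.mul c4
  have c6 : Continuous (fun t => fGa d t * fG d t) := cGA.mul cG
  have hRR : R * R = Ka := by
    rw [hR, hKa, hmul _ _ cR cR]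
    exact hcongr _ _ fun t _ => id_RR d t
  have hkFF : k * (F * F) = Ka := by
    rw [hF, hKa, hmul _ _ cF cF, hkmul _ cFF]
    exact hcongr _ _ fun t _ => id_fF hd t
  have hqq : q * q = 1 - Ka := by
    rw [hq, hKa, hmul _ _ cq cq, hsub1 _ cK]
    exact hcongr _ _ fun t _ => id_QQ d t
  have hGAGA : k * (k * (GA * GA)) = Ka := by
    rw [hGA, hKa, hmul _ _ cGA cGA, hkmul _ c1, hkmul _ c2]
    exact hcongr _ _ fun t _ => id_GaGa hd t
  have hGTW : k * (k * ((GT * GT) * W)) = W := by
    rw [hGT, hW, hmul _ _ cGT cGT, hmul _ _ c3 cW, hkmul _ c4, hkmul _ c5]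
    exact hcongr _ _ fun t _ => id_GtW hd t
  have hWF : W * F = F := by
    rw [hW, hF, hmul _ _ cW cF]
    exact hcongr _ _ fun t _ => id_WF hd t
  have hWR : W * R = R := by
    rw [hW, hR, hmul _ _ cW cR]
    exact hcongr _ _ fun t _ => id_WR hd t
  have hWGA : W * GA = GA := by
    rw [hW, hGA, hmul _ _ cW cGA]
    exact hcongr _ _ fun t _ => id_WGa hd t
  have hRG : R * G = G := by
    rw [hR, hG, hmul _ _ cR cG]
    exact hcongr _ _ fun t _ => id_RG hd t
  have hGAG : k * (GA * G) = G := by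
    rw [hGA, hG, hmul _ _ cGA cG, hkmul _ c6]
    exact hcongr _ _ fun t _ => id_GaG hd t
  have hKG : Ka * G = G := by
    rw [hKa, hG, hmul _ _ cK cG]
    exact hcongr _ _ fun t _ => id_KG hd t
  have hG1 : ‖(1 - G) * k * (1 - G)‖ ≤ 5 * d := by
    have h1 : 1 - G = cfc (fun t => 1 - fG d t) k := hG ▸ hsub1 _ (fG_cont d)
    have c1 : Continuous (fun t => 1 - fG d t) := continuous_const.sub (fG_cont d)
    have c3 : Continuous (fun t => t * (1 - fG d t)) := continuous_id'.mul c1
    rw [mul_assoc, h1, hkmul _ c1, hmul _ _ c1 c3]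
    refine norm_cfc_le (by positivity) fun t ht => ?_
    have := id_G hd t (hspec t ht)
    rwa [mul_assoc] at this
  -- the algebra
  obtain ⟨g, hgdef⟩ : ∃ g : E, g = z * star z - star z * z := ⟨_, rfl⟩
  have hgz : g * z = k * z := by
    rw [hgdef, hk, sub_mul, add_mul]
    have e1 : star z * z * z = 0 := by rw [mul_assoc, hz, mul_zero]
    rw [e1, sub_zero, add_zero]
  have hzg : z * g = - (k * z) := by
    rw [hzk.eq, hgdef, hk, mul_sub, mul_add]
    have e2 : z * (z * star z) = 0 := by rw [← mul_assoc, hz, zero_mul]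
    rw [e2, zero_sub, zero_add]
  have hgsz : g * star z = - (k * star z) := by
    rw [hgdef, hk, sub_mul, add_mul]
    have e1 : z * star z * star z = 0 := by rw [mul_assoc, hsz, mul_zero]
    rw [e1, zero_sub, zero_add]
  have hgg : g * g = k * k := by
    have e0 : g * g = g * (z * star z - star z * z) := by rw [← hgdef]
    calc g * g = g * z * star z - g * star z * z := by
          rw [e0, mul_sub, mul_assoc, mul_assoc]
      _ = k * (z * star z + star z * z) := by rw [hgz, hgsz]; noncomm_ring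
      _ = k * k := by rw [← hk]
  have hgk : Commute k g := by
    rw [hgdef]
    exact (hzk.mul_right hszk).sub_right (hszk.mul_right hzk)
  have hgsa : star g = g := by
    rw [hgdef, star_sub, star_mul, star_mul, star_star]
  have cz : ∀ f : ℝ → ℝ, Commute (cfc f k) z := fun f => hzk.cfc_real f
  have csz : ∀ f : ℝ → ℝ, Commute (cfc f k) (star z) := fun f => hszk.cfc_real f
  have cg : ∀ f : ℝ → ℝ, Commute (cfc f k) g := fun f => hgk.cfc_real f
  have ck : ∀ f : ℝ → ℝ, Commute (cfc f k) k := fun f => (Commute.refl k).cfc_real f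
  have cc : ∀ f f' : ℝ → ℝ, Commute (cfc f k) (cfc f' k) := fun f f' => cfc_commute_cfc f f' k
  have csa : ∀ f : ℝ → ℝ, star (cfc f k) = cfc f k := fun f => (cfc_predicate f k).star_eq
  have Fz : Commute F z := hF ▸ cz _
  have Fsz : Commute F (star z) := hF ▸ csz _
  have Fg : Commute F g := hF ▸ cg _
  have Fk : Commute F k := hF ▸ ck _
  have Fsa : star F = F := hF ▸ csa _
  have Rz : Commute R z := hR ▸ cz _
  have Rg : Commute R g := hR ▸ cg _
  have Rsa : star R = R := hR ▸ csa _
  have RF : Commute R F := hR ▸ hF ▸ cc _ _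
  have GAz : Commute GA z := hGA ▸ cz _
  have GAg : Commute GA g := hGA ▸ cg _
  have GAk : Commute GA k := hGA ▸ ck _
  have GAsa : star GA = GA := hGA ▸ csa _
  have GAF : Commute GA F := hGA ▸ hF ▸ cc _ _
  have GAR : Commute GA R := hGA ▸ hR ▸ cc _ _
  have GTz : Commute GT z := hGT ▸ cz _
  have GTg : Commute GT g := hGT ▸ cg _
  have GTsa : star GT = GT := hGT ▸ csa _
  have GTF : Commute GT F := hGT ▸ hF ▸ cc _ _
  have GTR : Commute GT R := hGT ▸ hR ▸ cc _ _
  have GTGA : Commute GT GA := hGT ▸ hGA ▸ cc _ _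
  have GTW : Commute GT W := hGT ▸ hW ▸ cc _ _
  have Wz : Commute W z := hW ▸ cz _
  have Wg : Commute W g := hW ▸ cg _
  have Wsa : star W = W := hW ▸ csa _
  have WF : Commute W F := hW ▸ hF ▸ cc _ _
  have qsa : star q = q := hq ▸ csa _
  have Gz : Commute G z := hG ▸ cz _
  have Gg : Commute G g := hG ▸ cg _
  have Gsa : star G = G := hG ▸ csa _
  have GAG : Commute GA G := hGA ▸ hG ▸ cc _ _
  obtain ⟨α, hα⟩ : ∃ α : E, α = z * F := ⟨_, rfl⟩
  have hsα : star α = F * star z := by rw [hα, star_mul, Fsa]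
  have hαα : α * star α + star α * α = R * R := by
    rw [hsα, hα, hRR, ← hkFF, hk]
    calc z * F * (F * star z) + F * star z * (z * F)
        = z * F * (F * star z) + (F * star z) * z * F := by noncomm_ring
      _ = z * F * (star z * F) + (star z * F) * z * F := by rw [Fsz.eq]
      _ = z * (F * star z) * F + star z * (F * z) * F := by noncomm_ring
      _ = z * (star z * F) * F + star z * (z * F) * F := by rw [Fz.eq, Fsz.eq]
      _ = _ := by noncomm_ring
  have hαs : α * star α = (F * F) * (z * star z) := by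
    rw [hsα, hα, ← Fz.eq]
    calc F * z * (F * star z) = F * (z * F) * star z := by noncomm_ring
      _ = F * (F * z) * star z := by rw [Fz.eq]
      _ = _ := by noncomm_ring
  have haa : α * α = 0 := by
    rw [hα]
    calc z * F * (z * F) = z * (F * z) * F := by noncomm_ring
      _ = (z * z) * F * F := by rw [Fz.eq]; noncomm_ring
      _ = 0 := by rw [hz, zero_mul, zero_mul]
  -- anticommutation with `g * X`, `X` a function of `k`
  have anti : ∀ X : E, Commute X z → Commute X F → (g * X) * α + α * (g * X) = 0 := by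
    intro X hX1 hX2
    rw [hα]
    calc g * X * (z * F) + z * F * (g * X)
        = g * (X * z) * F + z * (F * g) * X := by noncomm_ring
      _ = (g * z) * (X * F) + (z * g) * (F * X) := by rw [hX1.eq, Fg.eq]; noncomm_ring
      _ = 0 := by rw [hgz, hzg, hX2.eq]; noncomm_ring
  -- the final rows
  set X : Fin n → E := fun i => G * z * b i with hX
  have hX1 : ‖(1 - G) * z‖ ≤ √(5 * d) := by
    apply Real.le_sqrt_of_sq_le
    rw [sq, ← CStarRing.norm_self_mul_star]
    refine le_trans ?_ hG1
    have h1 : (1 - G) * z * star ((1 - G) * z) = (1 - G) * (z * star z) * star (1 - G) := by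
      rw [star_mul]; noncomm_ring
    have h2 : star (1 - G) = 1 - G := by rw [star_sub, star_one, Gsa]
    have h3 : (1 - G) * (z * star z) * star (1 - G) ≤ (1 - G) * k * star (1 - G) := by
      refine star_right_conjugate_le_conjugate ?_ (1 - G)
      rw [hk]
      exact le_add_of_nonneg_right (star_mul_self_nonneg z)
    rw [h1]
    rw [h2] at h3 ⊢
    refine CStarAlgebra.norm_le_norm_of_nonneg_of_le ?_ h3
    have h4 := star_right_conjugate_nonneg (mul_star_self_nonneg z) (1 - G)
    rwa [h2] at h4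
  have hUnit : IsUnit (∑ i, a i * X i) := by
    have h1 : ∑ i, a i * X i = 1 - ∑ i, a i * ((1 - G) * z) * b i := by
      have e : ∀ i, a i * X i = a i * z * b i - a i * ((1 - G) * z) * b i := by
        intro i
        show a i * (G * z * b i) = _
        noncomm_ring
      simp only [e]
      rw [Finset.sum_sub_distrib, hsum]
    rw [h1]
    apply isUnit_one_sub_of_norm_lt_one
    refine lt_of_le_of_lt ?_ hdN
    refine (norm_sum_le _ _).trans ?_
    rw [hN, Finset.mul_sum]
    refine Finset.sum_le_sum fun i _ => ?_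
    calc ‖a i * ((1 - G) * z) * b i‖ ≤ ‖a i‖ * ‖(1 - G) * z‖ * ‖b i‖ := by
          refine (norm_mul_le _ _).trans ?_
          gcongr
          exact norm_mul_le _ _
      _ ≤ ‖a i‖ * √(5 * d) * ‖b i‖ := by gcongr
      _ = _ := by ring
  set M : E := ∑ i, star (X i) * X i with hM
  have hM0 : 0 ≤ M := Finset.sum_nonneg fun i _ => star_mul_self_nonneg _
  obtain ⟨r, hr, hrM⟩ := exists_invSqrt M hM0 (isUnit_gram a X hUnit)
  refine ⟨n, fun _ => α, R, g * GA, g * GT, W, q, fun i => X i * r, ?_, ?_⟩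
  swap
  · rw [qsa, hqq, hRR]
  constructor
  · intro _ _
    rw [haa, add_zero]
  · intro i j
    rw [if_pos (Subsingleton.elim i j)]
    exact hαα
  · exact Rsa
  · rw [star_mul, GAsa, hgsa, GAg.eq]
  · rw [star_mul, GTsa, hgsa, GTg.eq]
  · exact Wsa
  · intro _
    exact anti GA GAz GAF
  · intro _
    exact anti GT GTz GTF
  · calc g * GA * (g * GA) = g * (GA * g) * GA := by noncomm_ring
      _ = (g * g) * (GA * GA) := by rw [GAg.eq]; noncomm_ring
      _ = R * R := by rw [hgg, hRR, ← hGAGA, mul_assoc]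
  · calc g * GT * (g * GA) = g * (GT * g) * GA := by noncomm_ring
      _ = g * g * (GT * GA) := by rw [GTg.eq]; noncomm_ring
      _ = g * (g * GA) * GT := by rw [GTGA.eq]; noncomm_ring
      _ = g * (GA * g) * GT := by rw [GAg.eq]
      _ = g * GA * (g * GT) := by noncomm_ring
  · rw [mul_assoc, GTR.eq, ← mul_assoc, ← Rg.eq, mul_assoc]
  · rw [mul_assoc, GTW.eq, ← mul_assoc, ← Wg.eq, mul_assoc]
  · calc g * GT * (g * GT) * W = g * (GT * g) * (GT * W) := by noncomm_ring
      _ = (g * g) * ((GT * GT) * W) := by rw [GTg.eq]; noncomm_ring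
      _ = W := by
        conv_rhs => rw [← hGTW]
        rw [hgg, mul_assoc]
  · intro _
    rw [hα, ← mul_assoc, Rz.eq, mul_assoc, RF.eq, mul_assoc]
  · rw [← mul_assoc, Rg.eq, mul_assoc, mul_assoc, GAR.eq]
  · intro _
    rw [hα, ← mul_assoc, Wz.eq, mul_assoc, hWF]
  · intro _
    rw [hα, mul_assoc, ← WF.eq, hWF]
  · rw [← mul_assoc, Wg.eq, mul_assoc, hWGA]
  · exact hWR
  · intro _ i
    show α * (G * z * b i * r) = 0
    rw [hα]
    calc z * F * (G * z * b i * r) = z * (F * (G * z)) * b i * r := by noncomm_ring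
      _ = z * (F * (z * G)) * b i * r := by rw [Gz.eq]
      _ = z * (F * z) * G * b i * r := by noncomm_ring
      _ = z * (z * F) * G * b i * r := by rw [Fz.eq]
      _ = (z * z) * F * G * b i * r := by noncomm_ring
      _ = 0 := by rw [hz]; simp
  · intro _ i
    show α * star α * (G * z * b i * r) = G * z * b i * r
    rw [hαs]
    have h1 : F * F * (z * star z) * (G * z) = Ka * (G * z) := by
      rw [← hkFF]
      have h2 : z * star z * (z * G) = k * (z * G) := by
        rw [← mul_assoc, ← mul_assoc, hk, add_mul, add_mul]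
        have e1 : star z * z * z = 0 := by rw [mul_assoc, hz, mul_zero]
        rw [e1, zero_mul, add_zero]
      calc F * F * (z * star z) * (G * z) = F * F * (z * star z * (z * G)) := by
            rw [Gz.eq]; noncomm_ring
        _ = F * (F * k) * (z * G) := by rw [h2]; noncomm_ring
        _ = F * (k * F) * (z * G) := by rw [Fk.eq]
        _ = (F * k) * F * (G * z) := by rw [Gz.eq]; noncomm_ring
        _ = _ := by rw [Fk.eq]; noncomm_ring
    calc F * F * (z * star z) * (G * z * b i * r)
        = F * F * (z * star z) * (G * z) * b i * r := by noncomm_ring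
      _ = Ka * G * z * b i * r := by rw [h1]; noncomm_ring
      _ = _ := by rw [hKG]
  · intro i
    show R * (G * z * b i * r) = G * z * b i * r
    calc R * (G * z * b i * r) = R * G * (z * b i * r) := by noncomm_ring
      _ = _ := by rw [hRG]; noncomm_ring
  · intro i
    show g * GA * (G * z * b i * r) = G * z * b i * r
    calc g * GA * (G * z * b i * r) = (g * (GA * G)) * z * (b i * r) := by noncomm_ring
      _ = ((GA * G) * g) * z * (b i * r) := by rw [(GAg.mul_left Gg).eq]
      _ = (GA * G) * (g * z) * (b i * r) := by noncomm_ring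
      _ = (GA * G) * (k * z) * (b i * r) := by rw [hgz]
      _ = ((GA * G) * k) * (z * (b i * r)) := by noncomm_ring
      _ = (k * (GA * G)) * (z * (b i * r)) := by
        rw [(GAk.mul_left (hG ▸ ck _ : Commute G k)).eq]
      _ = G * z * b i * r := by rw [hGAG]; noncomm_ring
  · have h1 : ∀ i, star (X i * r) * (X i * r) = r * (star (X i) * X i) * r := by
      intro i
      rw [star_mul, hr]
      noncomm_ring
    simp only [h1]
    rw [← Finset.sum_mul, ← Finset.mul_sum]
    exact hrM

end cstar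

end Vale.Agent.P101
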