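import Vale.Agent.P101.SeqAlg
import Vale.Agent.P101.Basic

/-! # The copy property of `F_ω(A)` -/

open Filter Topology BoundedContinuousFunction

noncomputable section

namespace Vale.Agent.P101

/-- A `*`-homomorphism defined on a dense `*`-subalgebra by a contractive relation extends. -/
theorem exists_hom_of_norm_le {R P Q : Type*} [CStarAlgebra R] [CStarAlgebra P] [CStarAlgebra Q]
    (π : R →⋆ₐ[ℂ] P) (Φ : R →⋆ₐ[ℂ] Q) (D : StarSubalgebra ℂ R)
    (h : ∀ d ∈ D, ‖Φ d‖ ≤ ‖π d‖) (C : StarSubalgebra ℂ P)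
    (hC : (C : Set P) ⊆ closure (π '' D)) :
    ∃ ψ : C →⋆ₐ[ℂ] Q, (∀ c : C, ‖ψ c‖ ≤ ‖c‖) ∧ (∀ d ∈ D, ∀ hd : π d ∈ C, ψ ⟨π d, hd⟩ = Φ d) ∧
      (∀ c : C, ψ c ∈ closure (Φ '' D)) := by
  -- the graph
  let G : StarSubalgebra ℂ (P × Q) := (D.map (π.prod Φ)).topologicalClosure
  have hGle : ∀ z ∈ G, ‖z.2‖ ≤ ‖z.1‖ := by
    intro z hz
    have hcl : IsClosed {z : P × Q | ‖z.2‖ ≤ ‖z.1‖} :=
      isClosed_le (continuous_norm.comp continuous_snd) (continuous_norm.comp continuous_fst)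
    have hsub : ((D.map (π.prod Φ) : StarSubalgebra ℂ (P × Q)) : Set (P × Q)) ⊆
        {z : P × Q | ‖z.2‖ ≤ ‖z.1‖} := by
      rintro _ ⟨d, hd, rfl⟩
      exact h d hd
    exact closure_minimal hsub hcl hz
  have hGex : ∀ c : C, ∃ y : Q, ((c : P), y) ∈ G := by
    intro c
    obtain ⟨u, hu, hlim⟩ := mem_closure_iff_seq_limit.1 (hC c.2)
    choose d hd hdu using hu
    have hcau : CauchySeq (fun n => Φ (d n)) := by
      have h1 : CauchySeq u := hlim.cauchySeq
      rw [Metric.cauchySeq_iff] at h1 ⊢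
      intro ε hε
      obtain ⟨N, hN⟩ := h1 ε hε
      refine ⟨N, fun m hm n hn => ?_⟩
      have h2 := hN m hm n hn
      rw [dist_eq_norm] at h2 ⊢
      rw [← map_sub]
      refine (h _ (sub_mem (hd m) (hd n))).trans_lt ?_
      rw [map_sub, hdu, hdu]
      exact h2
    obtain ⟨y, hy⟩ := cauchySeq_tendsto_of_complete hcau
    refine ⟨y, ?_⟩
    change ((c : P), y) ∈ closure ((D.map (π.prod Φ) : StarSubalgebra ℂ (P × Q)) : Set (P × Q))
    refine mem_closure_of_tendsto (hlim.prodMk_nhds hy) (Filter.Eventually.of_forall fun n => ?_)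
    refine ⟨d n, hd n, ?_⟩
    simp [StarAlgHom.prod_apply, hdu]
  have huniq : ∀ {x : P} {y y' : Q}, (x, y) ∈ G → (x, y') ∈ G → y = y' := by
    intro x y y' hy hy'
    have h1 := hGle _ (sub_mem hy hy')
    simpa [sub_eq_zero] using h1
  choose f hf using hGex
  refine ⟨{ toFun := f
            map_one' := huniq (hf 1) (one_mem G)
            map_mul' := fun x y => huniq (hf (x * y)) (mul_mem (hf x) (hf y))
            map_zero' := huniq (hf 0) (zero_mem G)
            map_add' := fun x y => huniq (hf (x + y)) (add_mem (hf x) (hf y))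
            commutes' := fun r => huniq (hf _) (algebraMap_mem G r)
            map_star' := fun x => huniq (hf (star x)) (star_mem (hf x)) }, ?_, ?_, ?_⟩
  · intro c
    exact hGle _ (hf c)
  · intro d hd hdC
    refine huniq (hf ⟨π d, hdC⟩) (subset_closure ?_)
    exact ⟨d, hd, rfl⟩
  · intro c
    have h1 : ((c : P), f c) ∈ closure ((D.map (π.prod Φ) : StarSubalgebra ℂ (P × Q)) : Set (P × Q)) :=
      hf c
    have h2 : (Prod.snd '' ((D.map (π.prod Φ) : StarSubalgebra ℂ (P × Q)) : Set (P × Q))) ⊆ Φ '' D := by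
      rintro _ ⟨_, ⟨d, hd, rfl⟩, rfl⟩
      exact ⟨d, hd, rfl⟩
    refine closure_mono h2 ?_
    exact image_closure_subset_closure_image continuous_snd ⟨_, h1, rfl⟩

open TopologicalSpace

variable {ω : Ultrafilter ℕ} {A : Type*} [CStarAlgebra A]

/-- The quotient map as a `*`-homomorphism. -/
def clsHom (A : Type*) [CStarAlgebra A] (ω : Ultrafilter ℕ) : (ℕ →ᵇ A) →⋆ₐ[ℂ] SeqAlg A ω where
  toFun := cls ω
  map_one' := map_one _
  map_mul' := map_mul _
  map_zero' := map_zero _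
  map_add' := map_add _
  commutes' := fun _ => rfl
  map_star' := fun _ => rfl

@[simp] theorem clsHom_apply (a : ℕ →ᵇ A) : clsHom A ω a = cls ω a := rfl

theorem constSeq_apply (a : A) :
    constSeq A ω a = cls ω (BoundedContinuousFunction.const ℕ a) := rfl

/-- Reindexing of bounded sequences. -/
def reindex (m : ℕ → ℕ) (A : Type*) [CStarAlgebra A] : (ℕ →ᵇ A) →⋆ₐ[ℂ] (ℕ →ᵇ A) where
  toFun := fun a => a.compContinuous ⟨m, continuous_of_discreteTopology⟩
  map_one' := rfl
  map_mul' := fun _ _ => rfl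
  map_zero' := rfl
  map_add' := fun _ _ => rfl
  commutes' := fun _ => rfl
  map_star' := fun _ => rfl

@[simp] theorem reindex_apply (m : ℕ → ℕ) (a : ℕ →ᵇ A) (n : ℕ) : reindex m A a n = a (m n) := rfl

/-- Diagonal argument. -/
theorem exists_diag (P : ℕ → ℕ → ℕ → Prop) (h : ∀ i n, ∀ᶠ k in (ω : Filter ℕ), P i n k) :
    ∃ m : ℕ → ℕ, ∀ i n, i ≤ n → P i n (m n) := by
  have : ∀ n, ∃ k, ∀ i ≤ n, P i n k := by
    intro n
    have h1 : ∀ᶠ k in (ω : Filter ℕ), ∀ i ∈ Finset.range (n+1), P i n k := by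
      rw [Filter.eventually_all_finset]
      exact fun i _ => h i n
    obtain ⟨k, hk⟩ := h1.exists
    exact ⟨k, fun i hi => hk i (Finset.mem_range.2 (Nat.lt_succ_of_le hi))⟩
  choose m hm using this
  exact ⟨m, fun i n hi => hm n i hi⟩

theorem tendsto_comm_of_mem_centralSeq {x : ℕ →ᵇ A} (hx : cls ω x ∈ centralSeq A ω) (b : A) :
    Tendsto (fun k => ‖x k * b - b * x k‖) ω (𝓝 0) := by
  have h1 := (mem_centralSeq.1 hx b).symm
  rw [constSeq_apply, commute_iff_eq, ← map_mul, ← map_mul] at h1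
  exact cls_eq_cls.1 h1

theorem exists_reindex_aux (hω : (ω : Filter ℕ) ≤ atTop)
    (X : Set (ℕ →ᵇ A)) (hX : X.Countable) (hXF : ∀ x ∈ X, cls ω x ∈ centralSeq A ω)
    (Y : Set (ℕ →ᵇ A)) (hY : Y.Countable) :
    ∃ m : ℕ → ℕ, (∀ x ∈ X, ‖cls ω (reindex m A x)‖ ≤ ‖cls ω x‖) ∧
      (∀ x ∈ X, ∀ y ∈ Y, Commute (cls ω (reindex m A x)) (cls ω y)) := by
  rcases X.eq_empty_or_nonempty with rfl | hXne
  · exact ⟨id, by simp, by simp⟩
  obtain ⟨x, rfl⟩ := hX.exists_eq_range hXne
  obtain ⟨y, hyr⟩ := (hY.insert 0).exists_eq_range (Set.insert_nonempty _ _)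
  obtain ⟨m, hm⟩ := exists_diag (ω := ω) (fun i n k => ‖x i.unpair.1 k‖ ≤ ‖cls ω (x i.unpair.1)‖ + 1 / (n + 1 : ℝ) ∧
    ‖x i.unpair.1 k * y i.unpair.2 n - y i.unpair.2 n * x i.unpair.1 k‖ ≤ 1 / (n + 1 : ℝ)) (by
      intro i n
      have hpos : (0:ℝ) < 1 / (n + 1 : ℝ) := by positivity
      refine Filter.Eventually.and ?_ ?_
      · filter_upwards [(tendsto_norm_cls (ω := ω) (x i.unpair.1)).eventually
          (gt_mem_nhds (show ‖cls ω (x i.unpair.1)‖ < ‖cls ω (x i.unpair.1)‖ + 1 / (n + 1 : ℝ) by linarith))]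
          with k hk using hk.le
      · filter_upwards [(tendsto_comm_of_mem_centralSeq (hXF _ ⟨i.unpair.1, rfl⟩) (y i.unpair.2 n)).eventually
          (gt_mem_nhds hpos)] with k hk using hk.le)
  have hlim : Tendsto (fun n : ℕ => 1 / (n + 1 : ℝ)) ω (𝓝 0) :=
    tendsto_one_div_add_atTop_nhds_zero_nat.mono_left hω
  refine ⟨m, ?_, ?_⟩
  · rintro _ ⟨i, rfl⟩
    refine le_of_tendsto_of_tendsto (tendsto_norm_cls (ω := ω) (reindex m A (x i)))
      (by simpa using hlim.const_add ‖cls ω (x i)‖ : Tendsto (fun n : ℕ => ‖cls ω (x i)‖ + 1 / (n + 1 : ℝ)) ω (𝓝 ‖cls ω (x i)‖)) ?_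
    filter_upwards [hω (Filter.eventually_ge_atTop (Nat.pair i 0))] with n hn
    have := (hm (Nat.pair i 0) n hn).1
    simpa using this
  · rintro _ ⟨i, rfl⟩ z hz
    obtain ⟨j, rfl⟩ : z ∈ Set.range y := hyr ▸ Set.mem_insert_of_mem 0 hz
    rw [commute_iff_eq, ← map_mul, ← map_mul, cls_eq_cls]
    refine squeeze_zero' (Filter.Eventually.of_forall fun n => norm_nonneg _) ?_ hlim
    filter_upwards [hω (Filter.eventually_ge_atTop (Nat.pair i j))] with n hn
    have := (hm (Nat.pair i j) n hn).2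
    simpa using this

theorem exists_reindex [SeparableSpace A] (hω : (ω : Filter ℕ) ≤ atTop)
    (X : Set (ℕ →ᵇ A)) (hX : X.Countable) (hXF : ∀ x ∈ X, cls ω x ∈ centralSeq A ω)
    (Y : Set (ℕ →ᵇ A)) (hY : Y.Countable) :
    ∃ m : ℕ → ℕ, (∀ x ∈ X, ‖cls ω (reindex m A x)‖ ≤ ‖cls ω x‖) ∧
      (∀ x ∈ X, ∀ y ∈ Y, Commute (cls ω (reindex m A x)) (cls ω y)) ∧
      (∀ x ∈ X, cls ω (reindex m A x) ∈ centralSeq A ω) := by
  obtain ⟨m, h1, h2⟩ := exists_reindex_aux hω X hX hXF
    (Y ∪ Set.range (fun i => BoundedContinuousFunction.const ℕ (denseSeq A i)))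
    (hY.union (Set.countable_range _))
  refine ⟨m, h1, fun x hx y hy => h2 x hx y (Or.inl hy), fun x hx => ?_⟩
  rw [mem_centralSeq]
  intro a
  have hcl : IsClosed {a : A | constSeq A ω a * cls ω (reindex m A x) = cls ω (reindex m A x) * constSeq A ω a} := by
    have hc : Continuous (constSeq A ω) := by
      refine AddMonoidHomClass.continuous_of_bound (constSeq A ω) 1 fun a => ?_
      rw [one_mul]
      exact (norm_cls_le _).trans (BoundedContinuousFunction.norm_const_le a)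
    exact isClosed_eq (hc.mul continuous_const) (continuous_const.mul hc)
  have hsub : Set.range (denseSeq A) ⊆ {a : A | constSeq A ω a * cls ω (reindex m A x) = cls ω (reindex m A x) * constSeq A ω a} := by
    rintro _ ⟨i, rfl⟩
    exact (h2 x hx _ (Or.inr ⟨i, rfl⟩)).symm
  have := closure_minimal hsub hcl
  rw [(denseRange_denseSeq A).closure_range] at this
  exact this (Set.mem_univ a)

theorem isSeparable_adjoin {R : Type*} [CStarAlgebra R] {X : Set R} (hX : X.Countable) :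
    IsSeparable (StarAlgebra.adjoin ℂ X : Set R) := by
  have h1 : (StarAlgebra.adjoin ℂ X : Set R) =
      (Submodule.span ℂ (Submonoid.closure (X ∪ star X) : Set R) : Set R) := by
    rw [← StarAlgebra.adjoin_eq_span]
    rfl
  rw [h1]
  refine IsSeparable.span (Set.Countable.isSeparable ?_)
  rw [Submonoid.closure_eq_mrange]
  have h2 : (X ∪ star X).Countable := by
    refine hX.union ?_
    rw [← Set.image_star]
    exact hX.image _
  have : Countable ↥(X ∪ star X) := h2.to_subtype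
  have : Countable (FreeMonoid ↥(X ∪ star X)) := inferInstanceAs (Countable (List ↥(X ∪ star X)))
  exact Set.countable_range _

/-- One copy of `adjoin S` in `F_ω(A)` commuting with a given countable set. -/
theorem exists_copy [SeparableSpace A] (hω : (ω : Filter ℕ) ≤ cofinite)
    (S : Set (centralSeq A ω)) (hS : S.Countable) (T : Set (centralSeq A ω)) (hT : T.Countable) :
    ∃ ψ : StarAlgebra.adjoin ℂ S →⋆ₐ[ℂ] centralSeq A ω, ∀ x, ∀ t ∈ T, Commute (ψ x) t := by
  rw [Nat.cofinite_eq_atTop] at hω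
  obtain ⟨l, hl⟩ : ∃ l : SeqAlg A ω → (ℕ →ᵇ A), ∀ x, cls ω (l x) = x :=
    ⟨fun x => (Ideal.Quotient.mk_surjective x).choose,
      fun x => (Ideal.Quotient.mk_surjective x).choose_spec⟩
  set D : StarSubalgebra ℂ (ℕ →ᵇ A) := StarAlgebra.adjoin ℂ ((fun s : centralSeq A ω => l s) '' S)
    with hD
  obtain ⟨X, hXD, hX, hDX⟩ :=
    (isSeparable_adjoin (hS.image (fun s : centralSeq A ω => l s))).exists_countable_dense_subset
  rw [← hD] at hXD hDX
  have hDF : D ≤ (centralSeq A ω).comap (clsHom A ω) := by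
    rw [hD]
    refine StarAlgebra.adjoin_le ?_
    rintro _ ⟨s, hs, rfl⟩
    change cls ω (l s) ∈ centralSeq A ω
    rw [hl]
    exact s.2
  obtain ⟨m, hm1, hm2, hm3⟩ := exists_reindex hω X hX (fun x hx => hDF (hXD hx))
    ((fun s : centralSeq A ω => l s) '' T) (hT.image _)
  have hcontcls : Continuous (clsHom A ω) :=
    AddMonoidHomClass.continuous_of_bound (clsHom A ω) 1 fun a => by
      rw [one_mul]; exact norm_cls_le _
  have hcontre : Continuous (reindex m A) :=
    AddMonoidHomClass.continuous_of_bound (reindex m A) 1 fun a => by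
      rw [one_mul]
      exact (BoundedContinuousFunction.norm_le (norm_nonneg _)).2 fun n => a.norm_coe_le_norm _
  let Φ : (ℕ →ᵇ A) →⋆ₐ[ℂ] SeqAlg A ω := (clsHom A ω).comp (reindex m A)
  have hΦ : Continuous Φ := hcontcls.comp hcontre
  have hΦn : ∀ d ∈ D, ‖Φ d‖ ≤ ‖clsHom A ω d‖ := by
    intro d hd
    have hcl : IsClosed {d | ‖Φ d‖ ≤ ‖clsHom A ω d‖} :=
      isClosed_le (continuous_norm.comp hΦ) (continuous_norm.comp hcontcls)
    exact closure_minimal (fun x hx => hm1 x hx) hcl (hDX hd)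
  have hΦc : ∀ d ∈ D, ∀ t ∈ T, Φ d * t = t * Φ d := by
    intro d hd t ht
    have hcl : IsClosed {d | Φ d * t = t * Φ d} :=
      isClosed_eq ((continuous_mul_const _).comp hΦ) ((continuous_const_mul _).comp hΦ)
    refine closure_minimal (fun x hx => ?_) hcl (hDX hd)
    have h1 := hm2 x hx _ ⟨t, ht, rfl⟩
    simp only [hl] at h1
    exact h1
  have hΦF : ∀ d ∈ D, Φ d ∈ centralSeq A ω := by
    intro d hd
    have hcl : IsClosed {d | Φ d ∈ centralSeq A ω} := centralSeq.isClosed.preimage hΦ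
    exact closure_minimal (fun x hx => hm3 x hx) hcl (hDX hd)
  let C : StarSubalgebra ℂ (SeqAlg A ω) := (StarAlgebra.adjoin ℂ S).map (centralSeq A ω).subtype
  have hCD : C ≤ D.map (clsHom A ω) := by
    rw [StarSubalgebra.map_le_iff_le_comap]
    refine StarAlgebra.adjoin_le ?_
    intro s hs
    refine ⟨l s, StarAlgebra.subset_adjoin ℂ _ ⟨s, hs, rfl⟩, ?_⟩
    exact hl _
  obtain ⟨ψ, hψ1, hψ2, hψ3⟩ := exists_hom_of_norm_le (clsHom A ω) Φ D hΦn C
    (fun c hc => subset_closure (hCD hc))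
  have hψF : ∀ c : C, ψ c ∈ centralSeq A ω := by
    intro c
    refine closure_minimal ?_ (centralSeq.isClosed (A := A) (ω := ω)) (hψ3 c)
    rintro _ ⟨d, hd, rfl⟩
    exact hΦF d hd
  have hψc : ∀ c : C, ∀ t ∈ T, ψ c * t = t * ψ c := by
    intro c t ht
    have hcl : IsClosed {x : SeqAlg A ω | x * t = t * x} :=
      isClosed_eq (continuous_mul_const _) (continuous_const_mul _)
    refine closure_minimal ?_ hcl (hψ3 c)
    rintro _ ⟨d, hd, rfl⟩
    exact hΦc d hd t ht
  let j : StarAlgebra.adjoin ℂ S →⋆ₐ[ℂ] C :=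
    (((centralSeq A ω).subtype).comp (StarAlgebra.adjoin ℂ S).subtype).codRestrict C
      (fun x => ⟨x, x.2, rfl⟩)
  refine ⟨(ψ.comp j).codRestrict (centralSeq A ω) (fun x => hψF _), ?_⟩
  intro x t ht
  exact Subtype.ext (hψc (j x) t ht)

/-- Two homomorphisms of `adjoin S` commute if they commute on the generators. -/
theorem commute_of_generators {E : Type*} [CStarAlgebra E] {S : Set E}
    (σ ρ : StarAlgebra.adjoin ℂ S →⋆ₐ[ℂ] E)
    (h : ∀ s (hs : s ∈ S), ∀ y, Commute (σ ⟨s, StarAlgebra.subset_adjoin ℂ S hs⟩) (ρ y)) :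
    ∀ x y, Commute (σ x) (ρ y) := by
  intro x
  induction x using StarAlgebra.adjoin_induction_subtype with
  | mem s hs => exact h s hs
  | algebraMap r =>
    intro y
    rw [AlgHomClass.commutes]
    exact Algebra.commute_algebraMap_left _ _
  | add a b ha hb =>
    intro y
    rw [map_add]
    exact (ha y).add_left (hb y)
  | mul a b ha hb =>
    intro y
    rw [map_mul]
    exact (ha y).mul_left (hb y)
  | star a ha =>
    intro y
    have := (ha (star y)).star_star
    rw [← map_star, ← map_star, star_star] at this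
    exact this

/-- `F_ω(A)` has the copy property. -/
theorem hasCopies_centralSeq (A : Type*) [CStarAlgebra A] [SeparableSpace A] (ω : Ultrafilter ℕ)
    (hω : (ω : Filter ℕ) ≤ cofinite) : HasCopies (centralSeq A ω) := by
  classical
  intro S hS
  let r : (StarAlgebra.adjoin ℂ S →⋆ₐ[ℂ] centralSeq A ω) →
      (StarAlgebra.adjoin ℂ S →⋆ₐ[ℂ] centralSeq A ω) → Prop :=
    fun σ ρ => ∀ x y, Commute (σ x) (ρ y)
  have hsymm : Std.Symm r := ⟨fun σ ρ h x y => (h y x).symm⟩
  obtain ⟨f, -, hf⟩ := exists_seq_of_forall_finset_exists' (fun _ => True) r (by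
    intro s _
    obtain ⟨ψ, hψ⟩ := exists_copy hω S hS.countable
      (⋃ σ ∈ s, σ '' {x | (x : centralSeq A ω) ∈ S}) (by
        refine s.countable_toSet.biUnion fun σ _ => Set.Countable.image ?_ _
        exact hS.countable.preimage Subtype.coe_injective)
    refine ⟨ψ, trivial, fun σ hσ => commute_of_generators σ ψ fun t ht y => ?_⟩
    refine (hψ y _ ?_).symm
    simp only [Set.mem_iUnion]
    exact ⟨σ, hσ, _, ht, rfl⟩)
  exact ⟨f, fun i j hij x y => hf hij x y⟩

end Vale.Agent.P101
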