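import Mathlib

/-! Algebraic part of the construction of a unital star homomorphism from `I(2,3)`. -/

open scoped Kronecker Matrix

noncomputable section

namespace Vale.Agent.P101.DD

variable {C D : Type*} [CommRing C] [StarRing C] [Ring D] [StarRing D] [Algebra C D]

section general

variable {m n l : Type*} [Fintype m] [Fintype n] [Fintype l]

/-- The element `∑ X a b p_a q_b^*`. -/
def S (p : m → D) (X : Matrix m n C) (q : n → D) : D :=
  ∑ a, ∑ b, X a b • (p a * star (q b))

omit [StarRing C] in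
theorem S_add (p : m → D) (X Y : Matrix m n C) (q : n → D) : S p (X + Y) q = S p X q + S p Y q := by
  simp only [S, Matrix.add_apply, add_smul, Finset.sum_add_distrib]

omit [StarRing C] in
theorem S_sub (p : m → D) (X Y : Matrix m n C) (q : n → D) : S p (X - Y) q = S p X q - S p Y q := by
  simp only [S, Matrix.sub_apply, sub_smul, Finset.sum_sub_distrib]

omit [StarRing C] in
theorem S_smul (p : m → D) (g : C) (X : Matrix m n C) (q : n → D) : S p (g • X) q = g • S p X q := by
  simp only [S, Matrix.smul_apply, smul_eq_mul, mul_smul, Finset.smul_sum]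

omit [StarRing C] in
theorem S_zero (p : m → D) (q : n → D) : S p (0 : Matrix m n C) q = 0 := by
  simp [S]

omit [StarRing C] in
theorem S_neg (p : m → D) (X : Matrix m n C) (q : n → D) : S p (-X) q = - S p X q := by
  simp [S]

theorem star_S [StarModule C D] (p : m → D) (X : Matrix m n C) (q : n → D) :
    star (S p X q) = S q Xᴴ p := by
  simp only [S, star_sum, star_smul, star_mul, star_star, Matrix.conjTranspose_apply]
  rw [Finset.sum_comm]

omit [StarRing C] in
theorem mul_S (T : D) (p : m → D) (p' : l → D) (M : Matrix l m C)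
    (h : ∀ a, T * p a = ∑ b, M b a • p' b) (X : Matrix m n C) (q : n → D) :
    T * S p X q = S p' (M * X) q := by
  simp only [S, Finset.mul_sum, mul_smul_comm, ← mul_assoc, h, Finset.sum_mul, smul_mul_assoc,
    Finset.smul_sum, smul_smul, Matrix.mul_apply, Finset.sum_smul]
  rw [Finset.sum_comm]
  rw [Finset.sum_congr rfl (fun b _ => Finset.sum_comm)]
  rw [Finset.sum_comm]
  refine Finset.sum_congr rfl fun b _ => Finset.sum_congr rfl fun a _ =>
    Finset.sum_congr rfl fun c _ => ?_
  rw [mul_comm]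

omit [StarRing C] in
theorem S_mul_expand (p : l → D) (M : Matrix l m C) (X : Matrix m n C) (q : n → D) :
    S p (M * X) q = ∑ a, ∑ c, X a c • ((∑ b, M b a • p b) * star (q c)) := by
  simp only [S, Finset.sum_mul, smul_mul_assoc,
    Finset.smul_sum, smul_smul, Matrix.mul_apply, Finset.sum_smul]
  rw [Finset.sum_congr rfl (fun b _ => Finset.sum_comm)]
  rw [Finset.sum_comm]
  refine Finset.sum_congr rfl fun a _ => ?_
  rw [Finset.sum_comm]
  refine Finset.sum_congr rfl fun c _ => Finset.sum_congr rfl fun b _ => ?_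
  rw [mul_comm]

end general

/-- The corner embedding of `2 × 2` matrices in `3 × 3` matrices. -/
def hat (x : Matrix (Fin 2) (Fin 2) C) : Matrix (Fin 3) (Fin 3) C :=
  Matrix.of fun i i' => if h : i.val < 2 ∧ i'.val < 2 then x ⟨i, h.1⟩ ⟨i', h.2⟩ else 0

omit [StarRing C] in
@[simp] theorem hat_cc (x : Matrix (Fin 2) (Fin 2) C) (i i' : Fin 2) :
    hat x i.castSucc i'.castSucc = x i i' := by
  rw [hat, Matrix.of_apply, dif_pos ⟨i.isLt, i'.isLt⟩]
  rfl

omit [StarRing C] in
@[simp] theorem hat_l (x : Matrix (Fin 2) (Fin 2) C) (i' : Fin 3) :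
    hat x 2 i' = 0 := by
  simp [hat]

omit [StarRing C] in
@[simp] theorem hat_r (x : Matrix (Fin 2) (Fin 2) C) (i : Fin 3) :
    hat x i 2 = 0 := by
  simp [hat]

omit [StarRing C] in
theorem hat_mul (x y : Matrix (Fin 2) (Fin 2) C) : hat (x * y) = hat x * hat y := by
  ext i i'
  induction i using Fin.lastCases with
  | last => simp [Matrix.mul_apply]
  | cast i =>
    induction i' using Fin.lastCases with
    | last => simp [Matrix.mul_apply]
    | cast i' => simp [Matrix.mul_apply, Fin.sum_univ_castSucc (n := 2)]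

omit [StarRing C] in
theorem hat_smul (g : C) (x : Matrix (Fin 2) (Fin 2) C) : hat (g • x) = g • hat x := by
  ext i i'
  induction i using Fin.lastCases with
  | last => simp
  | cast i =>
    induction i' using Fin.lastCases with
    | last => simp
    | cast i' => simp

theorem hat_star (x : Matrix (Fin 2) (Fin 2) C) : hat xᴴ = (hat x)ᴴ := by
  ext i i'
  induction i using Fin.lastCases with
  | last => simp
  | cast i =>
    induction i' using Fin.lastCases with
    | last => simp
    | cast i' => simp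

/-- The matrix unit `e_{33}`. -/
def e33 : Matrix (Fin 3) (Fin 3) C := Matrix.single 2 2 1

omit [StarRing C] in
@[simp] theorem e33_ll : (e33 : Matrix (Fin 3) (Fin 3) C) 2 2 = 1 := by
  simp [e33]

omit [StarRing C] in
@[simp] theorem e33_cl (i : Fin 2) (i' : Fin 3) :
    (e33 : Matrix (Fin 3) (Fin 3) C) i.castSucc i' = 0 := by
  simp only [e33, Matrix.single_apply]
  rw [if_neg]
  rintro ⟨h, -⟩
  exact (Fin.castSucc_lt_last i).ne h.symm

omit [StarRing C] in
@[simp] theorem e33_lc (i : Fin 3) (i' : Fin 2) :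
    (e33 : Matrix (Fin 3) (Fin 3) C) i i'.castSucc = 0 := by
  simp only [e33, Matrix.single_apply]
  rw [if_neg]
  rintro ⟨-, h⟩
  exact (Fin.castSucc_lt_last i').ne h.symm

omit [StarRing C] in
theorem e33_hat (x : Matrix (Fin 2) (Fin 2) C) : (e33 : Matrix (Fin 3) (Fin 3) C) * hat x = 0 := by
  ext i i'
  simp [Matrix.mul_apply, Fin.sum_univ_castSucc (n := 2)]

omit [StarRing C] in
theorem hat_e33 (x : Matrix (Fin 2) (Fin 2) C) : hat x * (e33 : Matrix (Fin 3) (Fin 3) C) = 0 := by
  ext i i'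
  simp [Matrix.mul_apply, Fin.sum_univ_castSucc (n := 2)]

omit [StarRing C] in
theorem e33_mul_e33 : (e33 : Matrix (Fin 3) (Fin 3) C) * e33 = e33 := by
  simp [e33]

theorem star_e33 : (e33 : Matrix (Fin 3) (Fin 3) C)ᴴ = e33 := by
  simp [e33, Matrix.conjTranspose_single]

omit [StarRing C] in
theorem hat_one_add_e33 : hat (1 : Matrix (Fin 2) (Fin 2) C) + e33 = 1 := by
  ext i i'
  induction i using Fin.lastCases with
  | last =>
    induction i' using Fin.lastCases with
    | last => simp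
    | cast i' =>
      have h : ¬ (2 : Fin 3) = i'.castSucc := (Fin.castSucc_lt_last i').ne'
      simp [h]
  | cast i =>
    induction i' using Fin.lastCases with
    | last =>
      have h : ¬ i.castSucc = (2 : Fin 3) := (Fin.castSucc_lt_last i).ne
      simp [h]
    | cast i' => simp [Matrix.one_apply]

/-- `ι₁ y = 1 ⊗ y`. -/
def i1 (y : Matrix (Fin 3) (Fin 3) C) : Matrix (Fin 2 × Fin 3) (Fin 2 × Fin 3) C := 1 ⊗ₖ y

/-- `ι₀ x = 1 ⊗ hat x + x ⊗ e₃₃`. -/
def i0 (x : Matrix (Fin 2) (Fin 2) C) : Matrix (Fin 2 × Fin 3) (Fin 2 × Fin 3) C :=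
  1 ⊗ₖ hat x + x ⊗ₖ e33

omit [StarRing C] in
theorem i1_mul (y y' : Matrix (Fin 3) (Fin 3) C) : i1 (y * y') = i1 y * i1 y' := by
  simp only [i1]
  rw [← Matrix.mul_kronecker_mul, one_mul]

omit [StarRing C] in
theorem i0_mul (x x' : Matrix (Fin 2) (Fin 2) C) : i0 (x * x') = i0 x * i0 x' := by
  simp only [i0]
  rw [mul_add, add_mul, add_mul, ← Matrix.mul_kronecker_mul, ← Matrix.mul_kronecker_mul,
    ← Matrix.mul_kronecker_mul, ← Matrix.mul_kronecker_mul, e33_hat, hat_e33, e33_mul_e33,
    hat_mul, one_mul, one_mul, mul_one]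
  simp

omit [StarRing C] in
theorem i1_one : i1 (1 : Matrix (Fin 3) (Fin 3) C) = 1 := by
  simp [i1]

omit [StarRing C] in
theorem i0_one : i0 (1 : Matrix (Fin 2) (Fin 2) C) = 1 := by
  simp only [i0]
  rw [← Matrix.kronecker_add, hat_one_add_e33, Matrix.one_kronecker_one]

theorem i1_star (y : Matrix (Fin 3) (Fin 3) C) : (i1 y)ᴴ = i1 yᴴ := by
  simp only [i1]
  rw [Matrix.conjTranspose_kronecker, Matrix.conjTranspose_one]

theorem i0_star (x : Matrix (Fin 2) (Fin 2) C) : (i0 x)ᴴ = i0 xᴴ := by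
  simp only [i0]
  rw [Matrix.conjTranspose_add, Matrix.conjTranspose_kronecker, Matrix.conjTranspose_kronecker,
    Matrix.conjTranspose_one, star_e33, hat_star]

omit [StarRing C] in
theorem sub_smul_one_aux {m n : Type*} (τ : C) (y : Matrix m n C) :
    τ • y = y - (1 - τ) • y := by
  rw [sub_smul, one_smul, sub_sub_cancel]

/-- The relations between the frame elements. -/
structure Frame (τ : C) (c P s : D) (v : Fin 2 → D) (w : Fin 3 → D) : Prop where
  ww : ∀ i i', star (w i) * w i' = if i = i' then c else 0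
  vv : ∀ j j', star (v j) * v j' = if j = j' then P else 0
  wc : ∀ i, w i * c = τ • w i
  vsum : ∑ j, v j * star (v j) = 1 - c
  comm : ∀ j, w 2 * v j = v j * w 2
  sa : star (w 2) = w 2
  vP : ∀ j, v j * P = (1 - c) * v j
  vs : ∀ j, v j * s = w j.castSucc
  vw : ∀ j i, star (v j) * w (Fin.castSucc i) = if j = i then s else 0
  tv : ∀ j, τ • v j = c * v j + w j.castSucc * star s
  cv : ∀ j, c * v j = v j * c
  csa : star c = c
  wsum : ∑ i, w i * star (w i) = τ • (1 : D)
  tsa : star τ = τ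

namespace Frame

variable {τ : C} {c P s : D} {v : Fin 2 → D} {w : Fin 3 → D}

/-- The six element family `w_i v_j`. -/
def xi (v : Fin 2 → D) (w : Fin 3 → D) (a : Fin 2 × Fin 3) : D := w a.2 * v a.1

variable (F : Frame τ c P s v w)
include F

theorem comm' (j : Fin 2) : star (v j) * w 2 = w 2 * star (v j) := by
  have := congrArg star (F.comm j)
  rwa [star_mul, star_mul, F.sa] at this

theorem beta_w (y : Matrix (Fin 3) (Fin 3) C) (i : Fin 3) :
    S w y w * w i = ∑ k, (τ • y) k i • w k := by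
  simp only [S, Finset.sum_mul, smul_mul_assoc, mul_assoc, F.ww, mul_ite, mul_zero, smul_ite,
    smul_zero, Finset.sum_ite_eq', Finset.mem_univ, if_true, F.wc, Matrix.smul_apply, smul_eq_mul,
    mul_smul]
  refine Finset.sum_congr rfl fun k _ => ?_
  rw [smul_comm]

theorem zeta_v (x : Matrix (Fin 2) (Fin 2) C) (j : Fin 2) :
    S v x v * v j = (1 - c) * ∑ k, x k j • v k := by
  simp only [S, Finset.sum_mul, smul_mul_assoc, mul_assoc, F.vv, mul_ite, mul_zero, smul_ite,
    smul_zero, Finset.sum_ite_eq', Finset.mem_univ, if_true, F.vP, Finset.mul_sum, mul_smul_comm]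

theorem zeta_w (x : Matrix (Fin 2) (Fin 2) C) (i : Fin 2) :
    S v x v * w i.castSucc = ∑ k, x k i • w k.castSucc := by
  simp only [S, Finset.sum_mul, smul_mul_assoc, mul_assoc, F.vw, mul_ite, mul_zero, smul_ite,
    smul_zero, Finset.sum_ite_eq', Finset.mem_univ, if_true, F.vs]

theorem zeta_w2 (x : Matrix (Fin 2) (Fin 2) C) :
    S v x v * w 2 = w 2 * S v x v := by
  simp only [S, Finset.sum_mul, Finset.mul_sum, smul_mul_assoc, mul_smul_comm, mul_assoc, F.comm']
  simp only [← mul_assoc, F.comm]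

theorem w_one_sub (i : Fin 3) : w i * (1 - c) = (1 - τ) • w i := by
  rw [mul_sub, mul_one, F.wc, sub_smul, one_smul]

theorem beta_xi (y : Matrix (Fin 3) (Fin 3) C) (a : Fin 2 × Fin 3) :
    S w y w * xi v w a = ∑ b, (τ • i1 y) b a • xi v w b := by
  obtain ⟨j, i⟩ := a
  simp only [xi, i1]
  rw [← mul_assoc, F.beta_w, Finset.sum_mul, Fintype.sum_prod_type, Finset.sum_comm]
  refine Finset.sum_congr rfl fun k _ => ?_
  simp [Matrix.smul_apply, Matrix.kroneckerMap_apply, Matrix.one_apply]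

/-- The element `α(x)`. -/
theorem alpha_w (x : Matrix (Fin 2) (Fin 2) C) (i : Fin 2) :
    (S v x v - S w (hat x) w) * w i.castSucc = ∑ k, ((1 - τ) • hat x) k i.castSucc • w k := by
  rw [sub_mul, F.zeta_w, F.beta_w, Fin.sum_univ_castSucc (n := 2), Fin.sum_univ_castSucc (n := 2)]
  simp [sub_smul, Finset.sum_sub_distrib, sub_mul]

theorem alpha_w2 (x : Matrix (Fin 2) (Fin 2) C) :
    (S v x v - S w (hat x) w) * w 2 = w 2 * S v x v := by
  rw [sub_mul, F.zeta_w2, F.beta_w]
  simp

theorem alpha_xi (x : Matrix (Fin 2) (Fin 2) C) (a : Fin 2 × Fin 3) :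
    (S v x v - S w (hat x) w) * xi v w a = ∑ b, ((1 - τ) • i0 x) b a • xi v w b := by
  obtain ⟨j, i⟩ := a
  simp only [xi, i0]
  rw [← mul_assoc]
  induction i using Fin.lastCases with
  | last =>
    rw [show Fin.last 2 = 2 from rfl, F.alpha_w2, mul_assoc, F.zeta_v, ← mul_assoc,
      F.w_one_sub, Fintype.sum_prod_type]
    simp only [Fin.sum_univ_castSucc (n := 2)]
    simp [Matrix.kroneckerMap_apply, Matrix.one_apply, mul_add, mul_smul, smul_comm (1 - τ)]
  | cast i =>
    rw [F.alpha_w, Finset.sum_mul, Fintype.sum_prod_type, Finset.sum_comm]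
    refine Finset.sum_congr rfl fun k _ => ?_
    simp [Matrix.smul_apply, Matrix.kroneckerMap_apply, Matrix.one_apply]

theorem xi_star_mul (a b : Fin 2 × Fin 3) :
    star (xi v w a) * xi v w b = if a = b then c * P else 0 := by
  obtain ⟨j, i⟩ := a
  obtain ⟨j', i'⟩ := b
  simp only [xi, star_mul]
  rw [mul_assoc, ← mul_assoc (star (w i)), F.ww]
  by_cases hi : i = i'
  · subst hi
    simp only [if_true]
    have h1 : star (v j) * c = c * star (v j) := by
      have := congrArg star (F.cv j)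
      rwa [star_mul, star_mul, F.csa] at this
    rw [← mul_assoc, h1, mul_assoc, F.vv]
    by_cases hj : j = j'
    · simp [hj]
    · simp [hj]
  · simp [hi]

theorem xi_cP (a : Fin 2 × Fin 3) : xi v w a * (c * P) = (τ * (1 - τ)) • xi v w a := by
  obtain ⟨j, i⟩ := a
  simp only [xi]
  have h1 : v j * (c * P) = c * ((1 - c) * v j) := by
    rw [← F.vP, ← mul_assoc, ← F.cv, mul_assoc]
  rw [mul_assoc, h1, ← mul_assoc, F.wc, smul_mul_assoc, ← mul_assoc, F.w_one_sub, smul_mul_assoc,
    smul_smul]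

theorem mu_xi (X : Matrix (Fin 2 × Fin 3) (Fin 2 × Fin 3) C) (a : Fin 2 × Fin 3) :
    S (xi v w) X (xi v w) * xi v w a = ∑ b, ((τ * (1 - τ)) • X) b a • xi v w b := by
  simp only [S, Finset.sum_mul, smul_mul_assoc, mul_assoc, F.xi_star_mul, mul_ite, mul_zero,
    smul_ite, smul_zero, Finset.sum_ite_eq', Finset.mem_univ, if_true, F.xi_cP, Matrix.smul_apply,
    smul_eq_mul, mul_smul]
  refine Finset.sum_congr rfl fun k _ => ?_
  rw [smul_comm, smul_comm (X k a)]

theorem beta_eq (y : Matrix (Fin 3) (Fin 3) C) :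
    S w ((1 - τ) • y) w = S (xi v w) (i1 y) (xi v w) := by
  have h : ∀ i i', (∑ j, w i * v j * star (w i' * v j)) = (1 - τ) • (w i * star (w i')) := by
    intro i i'
    simp only [star_mul, mul_assoc]
    simp only [← Finset.mul_sum]
    simp only [← mul_assoc]
    rw [← Finset.sum_mul, F.vsum, ← mul_assoc, F.w_one_sub, smul_mul_assoc]
  have h2 : S (xi v w) (i1 y) (xi v w) =
      ∑ i, ∑ i', y i i' • ∑ j, w i * v j * star (w i' * v j) := by
    have h3 : ∀ (j : Fin 2) (i : Fin 3), (∑ j' : Fin 2, ∑ i' : Fin 3,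
        (if j = j' then y i i' • (w i * v j * star (w i' * v j')) else 0)) =
        ∑ i', y i i' • (w i * v j * star (w i' * v j)) := by
      intro j i
      rw [Finset.sum_comm]
      simp
    simp only [S, i1, xi, Fintype.sum_prod_type, Matrix.kroneckerMap_apply, Matrix.one_apply,
      ite_mul, one_mul, zero_mul, ite_smul, zero_smul, Finset.smul_sum, h3]
    rw [Finset.sum_comm]
    refine Finset.sum_congr rfl fun i _ => ?_
    rw [Finset.sum_comm]
  rw [h2]
  simp only [S, Matrix.smul_apply, smul_eq_mul, h]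
  refine Finset.sum_congr rfl fun i _ => Finset.sum_congr rfl fun i' _ => ?_
  rw [smul_smul, mul_comm]

theorem c_zeta (x : Matrix (Fin 2) (Fin 2) C) : c * S v x v = S v x v * c := by
  have h1 : ∀ j, star (v j) * c = c * star (v j) := by
    intro j
    have := congrArg star (F.cv j)
    rwa [star_mul, star_mul, F.csa] at this
  simp only [S, Finset.sum_mul, Finset.mul_sum, smul_mul_assoc, mul_smul_comm, mul_assoc, h1]
  simp only [← mul_assoc, F.cv]

theorem tau_zeta (x : Matrix (Fin 2) (Fin 2) C) :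
    τ • S v x v = c * S v x v + S w (hat x) w := by
  have h : ∀ j j', τ • (v j * star (v j')) = c * (v j * star (v j')) +
      w j.castSucc * star (w j'.castSucc) := by
    intro j j'
    rw [← smul_mul_assoc, F.tv, add_mul, mul_assoc, mul_assoc, ← star_mul, F.vs]
  simp only [S, Finset.smul_sum, Finset.mul_sum]
  rw [Fin.sum_univ_castSucc (n := 2)]
  simp only [Fin.sum_univ_castSucc (n := 2)]
  simp [smul_comm τ, h, Finset.sum_add_distrib, smul_add]

omit F [StarRing C] in
theorem mu_e33 (x : Matrix (Fin 2) (Fin 2) C) (y : Matrix (Fin 3) (Fin 3) C) :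
    S (xi v w) (x ⊗ₖ (e33 * y)) (xi v w) = ∑ i', y 2 i' • (w 2 * S v x v * star (w i')) := by
  have h : ∀ i i', (e33 * y : Matrix (Fin 3) (Fin 3) C) i i' = if i = 2 then y 2 i' else 0 := by
    intro i i'
    rw [Matrix.mul_apply]
    induction i using Fin.lastCases with
    | last => simp [Fin.sum_univ_castSucc (n := 2)]
    | cast i =>
      have h : ¬ i.castSucc = (2 : Fin 3) := (Fin.castSucc_lt_last i).ne
      simp [h]
  simp only [S, xi, Fintype.sum_prod_type, Matrix.kroneckerMap_apply, h, mul_ite, mul_zero,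
    ite_smul, zero_smul, Finset.smul_sum, Finset.mul_sum, Finset.sum_mul]
  have h3 : ∀ (j : Fin 2), (∑ i : Fin 3, ∑ j' : Fin 2, ∑ i' : Fin 3,
        (if i = 2 then (x j j' * y 2 i') • (w i * v j * star (w i' * v j')) else 0)) =
        ∑ j', ∑ i', (x j j' * y 2 i') • (w 2 * v j * star (w i' * v j')) := by
    intro j
    rw [Finset.sum_comm]
    refine Finset.sum_congr rfl fun j' _ => ?_
    rw [Finset.sum_comm]
    simp
  simp only [h3]
  rw [Finset.sum_congr rfl (fun j _ => Finset.sum_comm)]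
  rw [Finset.sum_comm]
  refine Finset.sum_congr rfl fun i' _ => Finset.sum_congr rfl fun j _ =>
    Finset.sum_congr rfl fun j' _ => ?_
  rw [mul_smul_comm, smul_mul_assoc, smul_smul, mul_comm (x j j'), star_mul]
  simp only [mul_assoc]

/-- `α(x) β(y) = μ(ι₀(x) ι₁(y))`. -/
theorem alpha_beta (x : Matrix (Fin 2) (Fin 2) C) (y : Matrix (Fin 3) (Fin 3) C) :
    (S v x v - S w (hat x) w) * S w y w = S (xi v w) (i0 x * i1 y) (xi v w) := by
  have h1 : i0 x * i1 y = i1 (hat x * y) + x ⊗ₖ (e33 * y) := by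
    simp only [i0, i1]
    rw [add_mul, ← Matrix.mul_kronecker_mul, ← Matrix.mul_kronecker_mul, one_mul, mul_one]
  rw [h1, S_add, ← F.beta_eq, mu_e33]
  have h2 : S w ((1 - τ) • (hat x * y)) w =
      ∑ i : Fin 2, ∑ i' : Fin 3, y i.castSucc i' •
        ((∑ k, ((1 - τ) • hat x) k i.castSucc • w k) * star (w i')) := by
    rw [← Matrix.smul_mul, S_mul_expand, Fin.sum_univ_castSucc (n := 2)]
    simp
  rw [h2]
  conv_lhs => rw [S.eq_1 w y w]
  rw [Finset.mul_sum, Fin.sum_univ_castSucc (n := 2)]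
  congr 1
  · refine Finset.sum_congr rfl fun i _ => ?_
    rw [Finset.mul_sum]
    refine Finset.sum_congr rfl fun i' _ => ?_
    rw [mul_smul_comm, ← mul_assoc, F.alpha_w]
  · rw [Finset.mul_sum]
    refine Finset.sum_congr rfl fun i' _ => ?_
    rw [mul_smul_comm, ← mul_assoc]
    change y 2 i' • ((S v x v - S w (hat x) w) * w 2 * star (w i')) = _
    rw [F.alpha_w2]

/-- `μ(ι₀(x)) = τ α(x)`. -/
theorem mu_i0 (x : Matrix (Fin 2) (Fin 2) C) :
    S (xi v w) (i0 x) (xi v w) = τ • (S v x v - S w (hat x) w) := by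
  have h1 : x ⊗ₖ (e33 : Matrix (Fin 3) (Fin 3) C) = x ⊗ₖ (e33 * e33) := by rw [e33_mul_e33]
  have h2 : w 2 * w 2 = c := by
    have := F.ww 2 2
    rwa [F.sa, if_pos rfl] at this
  rw [i0, S_add, h1, mu_e33, smul_sub, F.tau_zeta]
  change S (xi v w) (i1 (hat x)) (xi v w) + _ = _
  rw [← F.beta_eq, S_smul, sub_smul, one_smul, Fin.sum_univ_castSucc (n := 2)]
  simp only [Fin.reduceLast, e33_ll, e33_lc, zero_smul, Finset.sum_const_zero, zero_add, one_smul,
    F.sa]
  rw [← F.zeta_w2, mul_assoc, h2, F.c_zeta]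
  abel

theorem zeta_zeta (x x' : Matrix (Fin 2) (Fin 2) C) :
    S v x v * S v x' v = (1 - c) * S v (x * x') v := by
  rw [S_mul_expand]
  conv_lhs => rw [S.eq_1 v x' v]
  simp only [Finset.mul_sum, mul_smul_comm, ← mul_assoc, F.zeta_v]

/-- `(1 - c) ζ(x) = ζ(x) - τ ζ(x) + β(hat x)`. -/
theorem one_sub_c_zeta (x : Matrix (Fin 2) (Fin 2) C) :
    (1 - c) * S v x v = S v x v - τ • S v x v + S w (hat x) w := by
  rw [F.tau_zeta, sub_mul, one_mul]
  abel

theorem beta_beta (y y' : Matrix (Fin 3) (Fin 3) C) :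
    S w y w * S w y' w = S w (τ • (y * y')) w := by
  rw [mul_S (S w y w) w w (τ • y) (F.beta_w y), Matrix.smul_mul]

theorem beta_mu (y : Matrix (Fin 3) (Fin 3) C)
    (X : Matrix (Fin 2 × Fin 3) (Fin 2 × Fin 3) C) :
    S w y w * S (xi v w) X (xi v w) = S (xi v w) (τ • (i1 y * X)) (xi v w) := by
  rw [mul_S (S w y w) _ (xi v w) (τ • i1 y) (F.beta_xi y), Matrix.smul_mul]

theorem alpha_mu (x : Matrix (Fin 2) (Fin 2) C)
    (X : Matrix (Fin 2 × Fin 3) (Fin 2 × Fin 3) C) :
    (S v x v - S w (hat x) w) * S (xi v w) X (xi v w) =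
      S (xi v w) ((1 - τ) • (i0 x * X)) (xi v w) := by
  rw [mul_S (S v x v - S w (hat x) w) _ (xi v w) ((1 - τ) • i0 x) (F.alpha_xi x), Matrix.smul_mul]

theorem mu_mu (X Y : Matrix (Fin 2 × Fin 3) (Fin 2 × Fin 3) C) :
    S (xi v w) X (xi v w) * S (xi v w) Y (xi v w) =
      S (xi v w) ((τ * (1 - τ)) • (X * Y)) (xi v w) := by
  rw [mul_S (S (xi v w) X (xi v w)) _ (xi v w) ((τ * (1 - τ)) • X) (F.mu_xi X), Matrix.smul_mul]

theorem zeta_beta_hat (x x' : Matrix (Fin 2) (Fin 2) C) :
    S v x v * S w (hat x') w = S w (hat (x * x')) w := by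
  have h1 := F.alpha_beta x (hat x')
  rw [sub_mul, F.beta_beta, sub_eq_iff_eq_add] at h1
  have h2 : i0 x * i1 (hat x') = i1 (hat x * hat x') := by
    simp only [i0, i1]
    rw [add_mul, ← Matrix.mul_kronecker_mul, ← Matrix.mul_kronecker_mul, one_mul, mul_one,
      e33_hat]
    simp
  rw [h1, h2, ← F.beta_eq, ← S_add, ← add_smul, sub_add_cancel, one_smul, hat_mul]

theorem beta_hat_zeta [StarModule C D] (x x' : Matrix (Fin 2) (Fin 2) C) :
    S w (hat x) w * S v x' v = S w (hat (x * x')) w := by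
  have h := congrArg star (F.zeta_beta_hat x'ᴴ xᴴ)
  rw [star_mul, star_S, star_S, star_S, ← hat_star, ← hat_star, Matrix.conjTranspose_conjTranspose,
    Matrix.conjTranspose_conjTranspose, ← Matrix.conjTranspose_mul,
    Matrix.conjTranspose_conjTranspose] at h
  exact h

/-- The map `α`. -/
def al (v : Fin 2 → D) (w : Fin 3 → D) (x : Matrix (Fin 2) (Fin 2) C) : D :=
  S v x v - S w (hat x) w

theorem alpha_alpha [StarModule C D] (x x' : Matrix (Fin 2) (Fin 2) C) :
    al v w x * al v w x' = al v w ((1 - τ) • (x * x')) := by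
  simp only [al]
  rw [mul_sub, sub_mul, sub_mul, F.zeta_beta_hat, F.beta_hat_zeta, F.beta_beta, F.zeta_zeta,
    F.one_sub_c_zeta, hat_smul, S_smul, S_smul, S_smul, hat_mul, sub_smul, sub_smul, one_smul,
    one_smul]
  abel

omit F in
theorem star_al [StarModule C D] (x : Matrix (Fin 2) (Fin 2) C) :
    star (al v w x) = al v w xᴴ := by
  simp only [al]
  rw [star_sub, star_S, star_S, hat_star]

theorem beta_alpha [StarModule C D] (x : Matrix (Fin 2) (Fin 2) C)
    (y : Matrix (Fin 3) (Fin 3) C) :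
    S w y w * al v w x = S (xi v w) (i1 y * i0 x) (xi v w) := by
  have h := congrArg star (F.alpha_beta xᴴ yᴴ)
  rw [star_mul, star_S, star_S, Matrix.conjTranspose_mul, i0_star, i1_star,
    Matrix.conjTranspose_conjTranspose, Matrix.conjTranspose_conjTranspose] at h
  have h' := star_al (v := v) (w := w) xᴴ
  simp only [al] at h' ⊢
  rw [h', Matrix.conjTranspose_conjTranspose] at h
  exact h

theorem mu_beta [StarModule C D] (X : Matrix (Fin 2 × Fin 3) (Fin 2 × Fin 3) C)
    (y : Matrix (Fin 3) (Fin 3) C) :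
    S (xi v w) X (xi v w) * S w y w = S (xi v w) (τ • (X * i1 y)) (xi v w) := by
  have h := congrArg star (F.beta_mu yᴴ Xᴴ)
  rw [star_mul, star_S, star_S, star_S, Matrix.conjTranspose_smul, Matrix.conjTranspose_mul,
    i1_star, Matrix.conjTranspose_conjTranspose, Matrix.conjTranspose_conjTranspose, F.tsa] at h
  exact h

theorem mu_alpha [StarModule C D] (X : Matrix (Fin 2 × Fin 3) (Fin 2 × Fin 3) C)
    (x : Matrix (Fin 2) (Fin 2) C) :
    S (xi v w) X (xi v w) * al v w x = S (xi v w) ((1 - τ) • (X * i0 x)) (xi v w) := by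
  have h := congrArg star (F.alpha_mu xᴴ Xᴴ)
  rw [star_mul, star_S, star_S, Matrix.conjTranspose_smul, Matrix.conjTranspose_mul,
    i0_star, Matrix.conjTranspose_conjTranspose, Matrix.conjTranspose_conjTranspose,
    show star (1 - τ) = 1 - τ by rw [star_sub, star_one, F.tsa]] at h
  have h' := star_al (v := v) (w := w) xᴴ
  simp only [al] at h' ⊢
  rw [h', Matrix.conjTranspose_conjTranspose] at h
  exact h

/-- The map `Θ`. -/
def th (v : Fin 2 → D) (w : Fin 3 → D) (x : Matrix (Fin 2) (Fin 2) C)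
    (y : Matrix (Fin 3) (Fin 3) C) (X : Matrix (Fin 2 × Fin 3) (Fin 2 × Fin 3) C) : D :=
  al v w x + S w y w + S (xi v w) X (xi v w)

/-- The third coordinate of a product. -/
def prd (τ : C) (x x' : Matrix (Fin 2) (Fin 2) C) (y y' : Matrix (Fin 3) (Fin 3) C)
    (X X' : Matrix (Fin 2 × Fin 3) (Fin 2 × Fin 3) C) :
    Matrix (Fin 2 × Fin 3) (Fin 2 × Fin 3) C :=
  i0 x * i1 y' + i1 y * i0 x' - i0 (x * x') - i1 (y * y') +
    (1 - τ) • (i0 x * X' + X * i0 x') + τ • (i1 y * X' + X * i1 y') +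
    (τ * (1 - τ)) • (X * X')

theorem th_mul [StarModule C D] (x x' : Matrix (Fin 2) (Fin 2) C)
    (y y' : Matrix (Fin 3) (Fin 3) C)
    (X X' : Matrix (Fin 2 × Fin 3) (Fin 2 × Fin 3) C) :
    th v w x y X * th v w x' y' X' = th v w (x * x') (y * y') (prd τ x x' y y' X X') := by
  have e1 : al v w ((1 - τ) • (x * x')) =
      al v w (x * x') - S (xi v w) (i0 (x * x')) (xi v w) := by
    rw [F.mu_i0]
    simp only [al]
    rw [hat_smul, S_smul, S_smul, sub_smul, sub_smul, one_smul, one_smul, smul_sub]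
    abel
  have e2 : S w (τ • (y * y')) w = S w (y * y') w - S (xi v w) (i1 (y * y')) (xi v w) := by
    rw [← F.beta_eq, ← S_sub, ← sub_smul_one_aux τ]
  simp only [th, prd]
  rw [add_mul, add_mul, mul_add, mul_add, mul_add, mul_add, mul_add, mul_add]
  rw [F.alpha_alpha, F.beta_beta, F.mu_mu, F.beta_alpha, F.beta_mu, F.mu_alpha, F.mu_beta, e1, e2]
  have e3 : al v w x * S w y' w = S (xi v w) (i0 x * i1 y') (xi v w) := F.alpha_beta x y'
  have e4 : al v w x * S (xi v w) X' (xi v w) =
    S (xi v w) ((1 - τ) • (i0 x * X')) (xi v w) := F.alpha_mu x X'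
  rw [e3, e4]
  simp only [S_add, S_sub, smul_add]
  abel

omit F in
theorem th_star [StarModule C D] (x : Matrix (Fin 2) (Fin 2) C)
    (y : Matrix (Fin 3) (Fin 3) C)
    (X : Matrix (Fin 2 × Fin 3) (Fin 2 × Fin 3) C) :
    star (th v w x y X) = th v w xᴴ yᴴ Xᴴ := by
  simp only [th, star_add, star_S, star_al]

omit F [StarRing C] in
theorem al_add (x x' : Matrix (Fin 2) (Fin 2) C) :
    al v w (x + x') = al v w x + al v w x' := by
  have : hat (x + x') = hat x + hat x' := by
    ext i i'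
    induction i using Fin.lastCases with
    | last => simp
    | cast i =>
      induction i' using Fin.lastCases with
      | last => simp
      | cast i' => simp
  simp only [al, this, S_add]
  abel

omit F [StarRing C] in
theorem th_add (x x' : Matrix (Fin 2) (Fin 2) C)
    (y y' : Matrix (Fin 3) (Fin 3) C)
    (X X' : Matrix (Fin 2 × Fin 3) (Fin 2 × Fin 3) C) :
    th v w (x + x') (y + y') (X + X') = th v w x y X + th v w x' y' X' := by
  simp only [th, al_add, S_add]
  abel

omit F [StarRing C] in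
theorem th_smul (g : C) (x : Matrix (Fin 2) (Fin 2) C)
    (y : Matrix (Fin 3) (Fin 3) C)
    (X : Matrix (Fin 2 × Fin 3) (Fin 2 × Fin 3) C) :
    th v w (g • x) (g • y) (g • X) = g • th v w x y X := by
  simp only [th, al, hat_smul, S_smul, smul_add, smul_sub]

theorem th_one : th v w (1 : Matrix (Fin 2) (Fin 2) C) 1 0 = 1 := by
  have h2 : w 2 * w 2 = c := by
    have := F.ww 2 2
    rwa [F.sa, if_pos rfl] at this
  have h3 := F.wsum
  rw [Fin.sum_univ_castSucc (n := 2)] at h3
  simp only [Fin.reduceLast, F.sa, h2] at h3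
  have h4 : S v (1 : Matrix (Fin 2) (Fin 2) C) v = 1 - c := by
    rw [← F.vsum]
    simp [S, Matrix.one_apply]
  have h5 : S w (hat (1 : Matrix (Fin 2) (Fin 2) C)) w =
      ∑ i : Fin 2, w i.castSucc * star (w i.castSucc) := by
    simp only [S]
    rw [Fin.sum_univ_castSucc (n := 2)]
    simp only [Fin.sum_univ_castSucc (n := 2)]
    simp [Matrix.one_apply]
  have h6 : S w (1 : Matrix (Fin 3) (Fin 3) C) w = τ • (1 : D) := by
    rw [← F.wsum]
    simp [S, Matrix.one_apply]
  simp only [th, al, S_zero, h4, h5, h6, ← h3]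
  abel

end Frame

end Vale.Agent.P101.DD
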