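import Mathlib
import Vale.Agent.P101.DimDropAlg

/-! The relations of `I(2,3)` produce a frame. -/

noncomputable section

namespace Vale.Agent.P101.DD

variable {E : Type*} [CStarAlgebra E]

theorem exists_root (x : E) : ∃ r : E, star r = r ∧ r * r = star x * x ∧
    (∀ y, Commute (star x * x) y → Commute r y) ∧ (∀ y, r * y = - y → y = 0) := by
  let _ := CStarAlgebra.spectralOrder E
  let _ := CStarAlgebra.spectralOrderedRing E
  have hx : 0 ≤ star x * x := star_mul_self_nonneg x
  have hr : 0 ≤ CFC.sqrt (star x * x) := CFC.sqrt_nonneg _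
  refine ⟨CFC.sqrt (star x * x), (IsSelfAdjoint.of_nonneg hr).star_eq,
    CFC.sqrt_mul_sqrt_self _ hx, ?_, ?_⟩
  · intro y hy
    exact Commute.cfcₙ_nnreal hy _
  · intro y hy
    have h1 : 0 ≤ star y * CFC.sqrt (star x * x) * y := star_left_conjugate_nonneg hr y
    rw [mul_assoc, hy, mul_neg] at h1
    have h2 : star y * y ≤ 0 := by simpa using h1
    have h3 : star y * y = 0 := le_antisymm h2 (star_mul_self_nonneg y)
    exact CStarRing.star_mul_self_eq_zero_iff y |>.1 h3

theorem eq_zero_of_star_mul {y : E} (h : star y * y = 0) : y = 0 :=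
  (CStarRing.star_mul_self_eq_zero_iff y).1 h

theorem eq_zero_of_mul_star {y : E} (h : y * star y = 0) : y = 0 :=
  (CStarRing.mul_star_self_eq_zero_iff y).1 h

/-- The frame relations inside the C⋆-algebra, with `t` in place of the scalar. -/
structure Rel (t c P s : E) (v : Fin 2 → E) (w : Fin 3 → E) : Prop where
  ww : ∀ i i', star (w i) * w i' = if i = i' then c else 0
  vv : ∀ j j', star (v j) * v j' = if j = j' then P else 0
  wc : ∀ i, w i * c = t * w i
  vsum : ∑ j, v j * star (v j) = 1 - c
  comm : ∀ j, w 2 * v j = v j * w 2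
  sa : star (w 2) = w 2
  vP : ∀ j, v j * P = (1 - c) * v j
  vs : ∀ j, v j * s = w j.castSucc
  vw : ∀ j i, star (v j) * w (Fin.castSucc i) = if j = i then s else 0
  tv : ∀ j, t * v j = c * v j + w j.castSucc * star s
  cv : ∀ j, c * v j = v j * c
  csa : star c = c
  wsum : ∑ i, w i * star (w i) = t
  tsa : star t = t
  t_w : ∀ i, Commute t (w i)
  t_v : ∀ j, Commute t (v j)
  t_s : Commute t s
  t_P : Commute t P
  t_c : Commute t c

theorem exists_rel (Z s : E) (h1 : Z * Z = 0) (h2 : Z * star Z + star Z * Z + star s * s = 1)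
    (h3 : Z * star Z * s = s) :
    ∃ (t c P : E) (v : Fin 2 → E) (w : Fin 3 → E), Rel t c P s v w := by
  obtain ⟨rc, rc1, rc2, rc3, -⟩ := exists_root s
  obtain ⟨rP, rP1, rP2, rP3, rP4⟩ := exists_root (star Z)
  rw [star_star] at rP2 rP3
  obtain ⟨c, hc⟩ : ∃ c : E, c = star s * s := ⟨_, rfl⟩
  obtain ⟨P, hP⟩ : ∃ P : E, P = Z * star Z := ⟨_, rfl⟩
  rw [← hP] at rP2 rP3 h2 h3
  rw [← hc] at rc2 rc3 h2
  have z1 : star Z * star Z = 0 := by rw [← star_mul, h1, star_zero]
  have zs : Z * s = 0 := by
    rw [← h3, hP, ← mul_assoc, ← mul_assoc, h1, zero_mul, zero_mul]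
  have s'z' : star s * star Z = 0 := by rw [← star_mul, zs, star_zero]
  have s'P : star s * P = star s := by
    have := congrArg star h3
    rwa [star_mul, hP, star_mul, star_star, ← hP] at this
  have csa : star c = c := by rw [hc, star_mul, star_star]
  have cs : c * s = 0 := by
    have := congrArg (· * s) h2
    simp only [add_mul, one_mul] at this
    rw [h3, mul_assoc (star Z), zs, mul_zero, add_zero] at this
    simpa using this
  have s'c : star s * c = 0 := by
    have := congrArg star cs
    rwa [star_mul, csa, star_zero] at this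
  have c_eq : c = 1 - P - star Z * Z := by rw [← h2]; abel
  have cz : c * Z = Z * c := by
    rw [c_eq, hP]
    simp only [sub_mul, mul_sub, one_mul, mul_one]
    rw [mul_assoc (star Z) Z Z, h1, mul_zero, ← mul_assoc Z Z (star Z), h1, zero_mul, sub_zero,
      sub_zero, mul_assoc]
  have cz' : c * star Z = star Z * c := by
    have := congrArg star cz
    rw [star_mul, star_mul, csa] at this
    exact this.symm
  have cP : c * P = P * c := by
    rw [hP, ← mul_assoc, cz, mul_assoc, cz', mul_assoc]
  have ss : s * s = 0 := by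
    apply eq_zero_of_star_mul
    rw [star_mul, mul_assoc, ← mul_assoc (star s) s s, ← hc, cs, mul_zero]
  have sz's : s * star Z * s = 0 := by
    apply eq_zero_of_star_mul
    have e : star (s * star Z * s) = star s * Z * star s := by
      rw [star_mul, star_mul, star_star, mul_assoc]
    rw [e]
    calc star s * Z * star s * (s * star Z * s)
        = star s * (Z * (star s * s)) * (star Z * s) := by simp only [mul_assoc]
      _ = 0 := by rw [← hc, ← cz, ← mul_assoc (star s), s'c, zero_mul, zero_mul]
  obtain ⟨t, ht⟩ : ∃ t : E, t = c + s * star s + star Z * s * star s * Z := ⟨_, rfl⟩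
  have tsa : star t = t := by
    rw [ht, star_add, star_add, csa]
    simp only [star_mul, star_star, mul_assoc]
  have ts : t * s = s * c := by
    rw [ht]
    simp only [add_mul]
    rw [cs, mul_assoc s, ← hc, mul_assoc _ Z s, zs, mul_zero, zero_add, add_zero]
  have st : s * t = s * c := by
    rw [ht]
    simp only [mul_add]
    rw [← mul_assoc s s, ss, zero_mul]
    have : s * (star Z * s * star s * Z) = (s * star Z * s) * (star s * Z) := by
      simp only [mul_assoc]
    rw [this, sz's, zero_mul, add_zero, add_zero]
  have tz : t * Z = Z * t := by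
    rw [ht]
    simp only [add_mul, mul_add]
    rw [cz, mul_assoc _ Z Z, h1, mul_zero, add_zero, ← mul_assoc Z s, zs, zero_mul, add_zero]
    have : Z * (star Z * s * star s * Z) = (Z * star Z * s) * (star s * Z) := by
      simp only [mul_assoc]
    rw [this, ← hP, h3, mul_assoc s]
  have tz' : t * star Z = star Z * t := by
    have := congrArg star tz
    rw [star_mul, star_mul, tsa] at this
    exact this.symm
  have tc : t * c = c * c := by
    rw [ht]
    simp only [add_mul]
    rw [mul_assoc s, s'c, mul_zero, add_zero, mul_assoc _ Z c, ← cz, ← mul_assoc _ c Z,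
      mul_assoc (star Z * s) (star s) c, s'c, mul_zero, zero_mul, add_zero]
  have ct : c * t = c * c := by
    have := congrArg star tc
    rwa [star_mul, star_mul, tsa, csa] at this
  have tP : Commute t P := by
    rw [hP]
    exact (show Commute t Z from tz).mul_right (show Commute t (star Z) from tz')
  have tcc : Commute t c := show t * c = c * t by rw [tc, ct]
  have rcZ : Commute rc Z := rc3 Z cz
  have rcZ' : Commute rc (star Z) := rc3 _ cz'
  have rcP : Commute rc P := rc3 _ cP
  have rct : Commute rc t := rc3 _ tcc.symm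
  have rPt : Commute rP t := rP3 _ tP.symm
  have rPrc : Commute rP rc := rP3 _ rcP.symm
  have rPc : Commute rP c := rP3 _ cP.symm
  have s'rc : star s * rc = 0 := by
    apply eq_zero_of_mul_star
    rw [star_mul, star_star, rc1, mul_assoc, ← mul_assoc rc, rc2, cs, mul_zero]
  have rcs : rc * s = 0 := by
    have := congrArg star s'rc
    rwa [star_mul, star_star, rc1, star_zero] at this
  have rPZ' : rP * star Z = 0 := by
    apply eq_zero_of_star_mul
    rw [star_mul, star_star, rP1, mul_assoc, ← mul_assoc rP, rP2, hP, mul_assoc Z (star Z), z1,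
      mul_zero, mul_zero]
  have ZrP : Z * rP = 0 := by
    have := congrArg star rPZ'
    rwa [star_mul, star_star, rP1, star_zero] at this
  have trc : t * rc = rc * c := by
    have e : (t - c) * rc = 0 := by
      apply eq_zero_of_mul_star
      rw [star_mul, rc1, star_sub, tsa, csa, mul_assoc, ← mul_assoc rc, rc2, ← mul_assoc, sub_mul,
        tc, sub_self, zero_mul]
    rw [sub_mul, sub_eq_zero] at e
    rw [e, ← rc2, mul_assoc]
  have rPs : rP * s = s := by
    have e : rP * s - s = 0 := by
      apply rP4
      rw [mul_sub, ← mul_assoc, rP2, h3]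
      abel
    rwa [sub_eq_zero] at e
  have s'rP : star s * rP = star s := by
    have := congrArg star rPs
    rwa [star_mul, rP1] at this
  refine ⟨t, c, P, ![rP, star Z], ![s, star Z * s, rc], ?_⟩
  constructor
  · intro i i'
    fin_cases i <;> fin_cases i' <;> simp
    · exact hc.symm
    · rw [← mul_assoc, s'z', zero_mul]
    · exact s'rc
    · rw [mul_assoc, zs, mul_zero]
    · rw [mul_assoc, ← mul_assoc Z, ← hP, h3, hc]
    · rw [mul_assoc, ← rcZ.eq, ← mul_assoc, s'rc, zero_mul]
    · rw [rc1, rcs]
    · rw [rc1, ← mul_assoc, rcZ'.eq, mul_assoc, rcs, mul_zero]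
    · rw [rc1, rc2]
  · intro i i'
    fin_cases i <;> fin_cases i' <;> simp
    · rw [rP1, rP2]
    · rw [rP1, rPZ']
    · exact ZrP
    · exact hP.symm
  · intro i
    fin_cases i <;> simp
    · exact ts.symm
    · rw [← mul_assoc t, tz', mul_assoc, mul_assoc, ts]
    · exact trc.symm
  · simp
    rw [rP1, rP2, c_eq]
    abel
  · intro j
    fin_cases j <;> simp
    · exact rPrc.eq.symm
    · exact rcZ'.eq
  · simpa using rc1
  · intro j
    fin_cases j <;> simp
    · have e : (1 : E) - c = P + star Z * Z := by rw [c_eq]; abel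
      rw [e, add_mul, mul_assoc (star Z), ZrP, mul_zero, add_zero, ← rP2, mul_assoc]
    · have e : (1 : E) - c = P + star Z * Z := by rw [c_eq]; abel
      rw [e, add_mul, hP, mul_assoc Z, z1, mul_zero, zero_add, mul_assoc]
  · intro j
    fin_cases j <;> simp
    · exact rPs
  · intro j i
    fin_cases i <;> fin_cases j <;> simp
    · rw [rP1, rPs]
    · exact zs
    · rw [rP1, ← mul_assoc, rPZ', zero_mul]
    · rw [← mul_assoc, ← hP, h3]
  · intro j
    fin_cases j <;> simp
    · rw [ht]
      simp only [add_mul]
      rw [mul_assoc s, s'rP, mul_assoc _ Z rP, ZrP, mul_zero, add_zero]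
    · rw [ht]
      simp only [add_mul]
      rw [mul_assoc s, s'z', mul_zero, add_zero, mul_assoc (star Z * s * star s), ← hP,
        mul_assoc (star Z * s), s'P]
  · intro j
    fin_cases j <;> simp
    · exact rPc.eq.symm
    · exact cz'
  · exact csa
  · rw [Fin.sum_univ_three]
    simp
    rw [rc1, rc2, ht]
    simp only [mul_assoc]
    abel
  · exact tsa
  · intro i
    fin_cases i <;> simp
    · exact ts.trans st.symm
    · exact (show Commute t (star Z) from tz').mul_right (ts.trans st.symm)
    · exact rct.symm
  · intro j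
    fin_cases j <;> simp
    · exact rPt.symm
    · exact tz'
  · exact ts.trans st.symm
  · exact tP
  · exact tcc

end Vale.Agent.P101.DD
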