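import Mathlib
import Vale.Agent.P101.DimDrop
import Vale.Agent.P101.DimDropAlg
import Vale.Agent.P101.DimDropRel
import Vale.Agent.P101.DimDropCoef

/-! A unital star homomorphism from `I(2,3)` out of the relations of `I(2,3)`. -/

open scoped Kronecker Matrix

noncomputable section

namespace Vale.Agent.P101

namespace DD

/-- Continuous functional calculus of a selfadjoint element, on functions on the real line. -/
def psi {E : Type*} [CStarAlgebra E] (t : E) (ht : IsSelfAdjoint t) : C(ℝ, ℂ) →⋆ₐ[ℂ] E :=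
  (cfcHom (R := ℂ) (p := IsStarNormal) ht.isStarNormal).comp
    (ContinuousMap.compStarAlgHom' ℂ ℂ
      (⟨fun z : spectrum ℂ t => (z : ℂ).re, by fun_prop⟩ : C(spectrum ℂ t, ℝ)))

theorem psi_tau {E : Type*} [CStarAlgebra E] (t : E) (ht : IsSelfAdjoint t) :
    psi t ht tau = t := by
  have h := cfcHom_id (R := ℂ) (p := IsStarNormal) ht.isStarNormal
  rw [psi, StarAlgHom.comp_apply]
  conv_rhs => rw [← h]
  congr 1
  ext z
  exact (ht.mem_spectrum_eq_re z.2).symm

theorem psi_commute {E : Type*} [CStarAlgebra E] (t : E) (ht : IsSelfAdjoint t) (g : C(ℝ, ℂ))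
    (y : E) (hy : Commute t y) : Commute (psi t ht g) y := by
  rw [psi, StarAlgHom.comp_apply]
  exact ht.commute_cfcHom _ hy _

/-- The commutant of `t`. -/
abbrev cmt {E : Type*} [CStarAlgebra E] (t : E) : StarSubalgebra ℂ E :=
  StarSubalgebra.centralizer ℂ ({t} : Set E)

theorem mem_cmt {E : Type*} [CStarAlgebra E] {t : E} (ht : IsSelfAdjoint t) {y : E} :
    y ∈ cmt t ↔ Commute t y := by
  rw [StarSubalgebra.mem_centralizer_iff]
  constructor
  · intro h
    exact (h t rfl).1
  · rintro h g rfl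
    refine ⟨h, ?_⟩
    rw [ht.star_eq]
    exact h

/-- The functional calculus with values in the commutant. -/
def psiD {E : Type*} [CStarAlgebra E] (t : E) (ht : IsSelfAdjoint t) : C(ℝ, ℂ) →+* cmt t :=
  ((psi t ht : C(ℝ, ℂ) →⋆ₐ[ℂ] E) : C(ℝ, ℂ) →+* E).codRestrict (cmt t)
    (fun g => (mem_cmt ht).2 (psi_commute t ht g t (Commute.refl t)).symm)

theorem psiD_coe {E : Type*} [CStarAlgebra E] (t : E) (ht : IsSelfAdjoint t) (g : C(ℝ, ℂ)) :
    (psiD t ht g : E) = psi t ht g := rfl

theorem psiD_commute {E : Type*} [CStarAlgebra E] (t : E) (ht : IsSelfAdjoint t) (g : C(ℝ, ℂ))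
    (y : cmt t) : psiD t ht g * y = y * psiD t ht g := by
  apply Subtype.ext
  exact psi_commute t ht g y ((mem_cmt ht).1 y.2)

theorem psiD_star {E : Type*} [CStarAlgebra E] (t : E) (ht : IsSelfAdjoint t) (g : C(ℝ, ℂ)) :
    psiD t ht (star g) = star (psiD t ht g) := by
  apply Subtype.ext
  exact map_star (psi t ht) g

theorem psiD_tau {E : Type*} [CStarAlgebra E] (t : E) (ht : IsSelfAdjoint t) :
    (psiD t ht tau : E) = t := psi_tau t ht

/-- The algebra structure of the commutant over the continuous functions. -/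
abbrev algD {E : Type*} [CStarAlgebra E] (t : E) (ht : IsSelfAdjoint t) :
    Algebra C(ℝ, ℂ) (cmt t) := RingHom.toAlgebra' (psiD t ht) (psiD_commute t ht)

theorem starModD {E : Type*} [CStarAlgebra E] (t : E) (ht : IsSelfAdjoint t) :
    letI := algD t ht
    StarModule C(ℝ, ℂ) (cmt t) := by
  let _ := algD t ht
  refine ⟨fun g d => ?_⟩
  change star (psiD t ht g * d) = psiD t ht (star g) * star d
  rw [star_mul, psiD_star, ← psiD_star, psiD_commute]

theorem frameD {E : Type*} [CStarAlgebra E] {t c P s : E} {v : Fin 2 → E} {w : Fin 3 → E}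
    (R : Rel t c P s v w) (ht : IsSelfAdjoint t) :
    letI := algD t ht
    ∃ (c' P' s' : cmt t) (v' : Fin 2 → cmt t) (w' : Fin 3 → cmt t),
      Frame tau c' P' s' v' w' := by
  let _ := algD t ht
  have sm : ∀ (g : C(ℝ, ℂ)) (d : cmt t), ((g • d : cmt t) : E) = psi t ht g * (d : E) :=
    fun _ _ => rfl
  have st : ∀ (d : cmt t), ((tau • d : cmt t) : E) = t * (d : E) := by
    intro d
    rw [sm, psi_tau]
  refine ⟨⟨c, (mem_cmt ht).2 R.t_c⟩, ⟨P, (mem_cmt ht).2 R.t_P⟩, ⟨s, (mem_cmt ht).2 R.t_s⟩,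
    fun j => ⟨v j, (mem_cmt ht).2 (R.t_v j)⟩, fun j => ⟨w j, (mem_cmt ht).2 (R.t_w j)⟩, ?_⟩
  constructor
  · intro i i'
    apply Subtype.ext
    have := R.ww i i'
    split_ifs with h
    · rw [if_pos h] at this
      exact this
    · rw [if_neg h] at this
      exact this
  · intro i i'
    apply Subtype.ext
    have := R.vv i i'
    split_ifs with h
    · rw [if_pos h] at this
      exact this
    · rw [if_neg h] at this
      exact this
  · intro i
    apply Subtype.ext
    rw [st]
    exact R.wc i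
  · apply Subtype.ext
    have := R.vsum
    push_cast
    exact this
  · intro j
    exact Subtype.ext (R.comm j)
  · exact Subtype.ext R.sa
  · intro j
    exact Subtype.ext (R.vP j)
  · intro j
    exact Subtype.ext (R.vs j)
  · intro i i'
    apply Subtype.ext
    have := R.vw i i'
    split_ifs with h
    · rw [if_pos h] at this
      exact this
    · rw [if_neg h] at this
      exact this
  · intro j
    apply Subtype.ext
    rw [st]
    exact R.tv j
  · intro j
    exact Subtype.ext (R.cv j)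
  · exact Subtype.ext R.csa
  · apply Subtype.ext
    rw [st]
    have := R.wsum
    push_cast
    rw [mul_one]
    exact this
  · exact star_tau

end DD

open DD in
/-- The relations of `I(2,3)` give a unital star homomorphism from `I(2,3)`. -/
theorem dimDropHom {E : Type*} [CStarAlgebra E] (Z s : E) (h1 : Z * Z = 0)
    (h2 : Z * star Z + star Z * Z + star s * s = 1) (h3 : Z * star Z * s = s) :
    Nonempty (dimDrop23 →⋆ₐ[ℂ] E) := by
  obtain ⟨t, c, P, v, w, R⟩ := exists_rel Z s h1 h2 h3
  have ht : IsSelfAdjoint t := R.tsa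
  let _ := algD t ht
  have _ := starModD t ht
  obtain ⟨c', P', s', v', w', F⟩ := frameD R ht
  have sm : ∀ (r : ℂ) (d : cmt t), (((algebraMap ℂ C(ℝ, ℂ) r) • d : cmt t) : E) = r • (d : E) := by
    intro r d
    change psi t ht (algebraMap ℂ C(ℝ, ℂ) r) * (d : E) = _
    rw [AlgHomClass.commutes, Algebra.smul_def]
  have hone : ((Frame.th v' w' (K (xx 1)) (K (yy 1)) (XX 1) : cmt t) : E) = 1 := by
    rw [xx_one, yy_one, XX_one, K_one, K_one, F.th_one]
    rfl
  have hsm : ∀ (r : ℂ) (f : C(unitInterval, Matrix I6 I6 ℂ)),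
      ((Frame.th v' w' (K (xx (r • f))) (K (yy (r • f))) (XX (r • f)) : cmt t) : E) =
      r • ((Frame.th v' w' (K (xx f)) (K (yy f)) (XX f) : cmt t) : E) := by
    intro r f
    rw [xx_smul, yy_smul, XX_smul, K_smul, K_smul, Frame.th_smul, sm]
  refine ⟨{
    toFun := fun f => ((Frame.th v' w' (K (xx f)) (K (yy f)) (XX f) : cmt t) : E)
    map_one' := hone
    map_mul' := ?_
    map_zero' := ?_
    map_add' := ?_
    commutes' := ?_
    map_star' := ?_ }⟩
  · intro f g
    have e : ((f * g : dimDrop23) : C(unitInterval, Matrix I6 I6 ℂ)) = f * g := rfl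
    rw [e, xx_mul f.2 g.2, yy_mul f.2 g.2, XX_mul f.2 g.2, K_mul, K_mul, ← F.th_mul]
    rfl
  · have e : ((0 : dimDrop23) : C(unitInterval, Matrix I6 I6 ℂ)) = (0 : ℂ) • 1 :=
      (zero_smul ℂ (1 : C(unitInterval, Matrix I6 I6 ℂ))).symm
    rw [e, hsm, zero_smul]
  · intro f g
    have e : ((f + g : dimDrop23) : C(unitInterval, Matrix I6 I6 ℂ)) = f + g := rfl
    rw [e, xx_add, yy_add, XX_add, K_add, K_add, Frame.th_add]
    rfl
  · intro r
    have e : ((algebraMap ℂ dimDrop23 r : dimDrop23) : C(unitInterval, Matrix I6 I6 ℂ)) =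
        r • 1 := by
      rw [← Algebra.algebraMap_eq_smul_one]
      rfl
    rw [e, hsm, hone, Algebra.algebraMap_eq_smul_one]
  · intro f
    have e : ((star f : dimDrop23) : C(unitInterval, Matrix I6 I6 ℂ)) =
        star (f : C(unitInterval, Matrix I6 I6 ℂ)) := rfl
    rw [e, xx_star, yy_star, XX_star, K_star, K_star, ← Frame.th_star]
    rfl

end Vale.Agent.P101
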