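import Vale.Agent.P101.GenOne

/-! # Stage 1: cutting a selfadjoint element into hat functions -/

open Filter Topology

namespace Vale.Agent.P101

section Block

variable {E : Type*} [CStarAlgebra E]

theorem pow_sum_of_orthogonal {ι : Type*} [DecidableEq ι] (S : Finset ι) (z : ι → E)
    (hz : ∀ i ∈ S, ∀ j ∈ S, i ≠ j → z i * z j = 0) (n : ℕ) :
    (∑ i ∈ S, z i) ^ (n + 1) = ∑ i ∈ S, z i ^ (n + 1) := by
  induction n with
  | zero => simp
  | succ n ih =>
    rw [pow_succ, ih, Finset.sum_mul]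
    refine Finset.sum_congr rfl fun i hi => ?_
    rw [Finset.mul_sum, Finset.sum_eq_single i]
    · rw [← pow_succ]
    · intro j hj hji
      rw [pow_succ, mul_assoc, hz i hi j hj (Ne.symm hji), mul_zero]
    · intro h
      exact absurd hi h

theorem norm_sum_le_of_orthogonal_selfAdjoint {ι : Type*} [DecidableEq ι] (S : Finset ι) (z : ι → E)
    (hsa : ∀ i ∈ S, IsSelfAdjoint (z i))
    (hz : ∀ i ∈ S, ∀ j ∈ S, i ≠ j → z i * z j = 0) {M : ℝ} (hM : 0 ≤ M) (hn : ∀ i ∈ S, ‖z i‖ ≤ M) :
    ‖∑ i ∈ S, z i‖ ≤ M := by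
  have hsum : IsSelfAdjoint (∑ i ∈ S, z i) := by
    rw [IsSelfAdjoint, star_sum]
    exact Finset.sum_congr rfl fun i hi => hsa i hi
  have key : ∀ k : ℕ, ‖∑ i ∈ S, z i‖ ^ (2 ^ k) ≤ S.card * M ^ (2 ^ k) := by
    intro k
    have h1 : ‖(∑ i ∈ S, z i) ^ (2 ^ k)‖ = ‖∑ i ∈ S, z i‖ ^ (2 ^ k) := by
      have := congrArg NNReal.toReal (hsum.nnnorm_pow_two_pow k)
      simpa using this
    rw [← h1]
    obtain ⟨n, hn'⟩ : ∃ n, 2 ^ k = n + 1 := ⟨2 ^ k - 1, by have := Nat.one_le_two_pow (n := k); omega⟩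
    rw [hn', pow_sum_of_orthogonal S z hz n]
    refine (norm_sum_le _ _).trans ?_
    rw [← nsmul_eq_mul]
    refine Finset.sum_le_card_nsmul _ _ _ fun i hi => ?_
    refine (norm_pow_le' _ (Nat.succ_pos n)).trans ?_
    exact pow_le_pow_left₀ (norm_nonneg _) (hn i hi) _
  by_contra hlt
  push Not at hlt
  have hpos : 0 < ‖∑ i ∈ S, z i‖ := hM.trans_lt hlt
  rcases hM.eq_or_lt with hM0 | hMpos
  · have := key 0
    rw [← hM0] at this
    simp at this
    rw [this] at hpos
    simp at hpos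
  · have h1 : 1 < ‖∑ i ∈ S, z i‖ / M := by rwa [one_lt_div hMpos]
    obtain ⟨k, hk⟩ := (tendsto_pow_atTop_atTop_of_one_lt h1).eventually_gt_atTop (S.card : ℝ)
      |>.exists_forall_of_atTop
    have h2 := hk (2 ^ k) (Nat.lt_two_pow_self).le
    rw [div_pow, lt_div_iff₀ (pow_pos hMpos _)] at h2
    exact absurd (key k) (not_le.2 h2)

theorem norm_sum_le_of_block {ι : Type*} [DecidableEq ι] (S : Finset ι) (y : ι → E)
    (h1 : ∀ i ∈ S, ∀ j ∈ S, i ≠ j → star (y i) * y j = 0)
    (h2 : ∀ i ∈ S, ∀ j ∈ S, i ≠ j → y i * star (y j) = 0) {M : ℝ} (hM : 0 ≤ M)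
    (hn : ∀ i ∈ S, ‖y i‖ ≤ M) : ‖∑ i ∈ S, y i‖ ≤ M := by
  have h3 : star (∑ i ∈ S, y i) * ∑ i ∈ S, y i = ∑ i ∈ S, star (y i) * y i := by
    rw [star_sum, Finset.sum_mul]
    refine Finset.sum_congr rfl fun i hi => ?_
    rw [Finset.mul_sum, Finset.sum_eq_single i]
    · intro j hj hji
      exact h1 i hi j hj (Ne.symm hji)
    · intro h
      exact absurd hi h
  have h4 : ‖∑ i ∈ S, y i‖ * ‖∑ i ∈ S, y i‖ ≤ M * M := by
    rw [← CStarRing.norm_star_mul_self, h3]
    refine norm_sum_le_of_orthogonal_selfAdjoint S _ (fun i _ => IsSelfAdjoint.star_mul_self _)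
      (fun i hi j hj hij => ?_) (mul_nonneg hM hM) (fun i hi => ?_)
    · calc star (y i) * y i * (star (y j) * y j) = star (y i) * (y i * star (y j)) * y j := by
            noncomm_ring
        _ = 0 := by rw [h2 i hi j hj hij]; simp
    · rw [CStarRing.norm_star_mul_self]
      exact mul_le_mul (hn i hi) (hn i hi) (norm_nonneg _) hM
  exact abs_le_of_sq_le_sq' (by nlinarith) hM |>.2

end Block

section Hat

/-- hat function centred at `i`. -/
noncomputable def hat (i : ℕ) (s : ℝ) : ℝ := max 0 (1 - |s - i|)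

theorem hat_nonneg (i : ℕ) (s : ℝ) : 0 ≤ hat i s := le_max_left _ _

theorem hat_le_one (i : ℕ) (s : ℝ) : hat i s ≤ 1 :=
  max_le zero_le_one (by linarith [abs_nonneg (s - i)])

theorem continuous_hat (i : ℕ) : Continuous (hat i) := by
  unfold hat
  fun_prop

theorem hat_mul_hat {i j : ℕ} (h : i + 2 ≤ j ∨ j + 2 ≤ i) (s : ℝ) : hat i s * hat j s = 0 := by
  have key : ∀ {i j : ℕ}, i + 2 ≤ j → hat i s * hat j s = 0 := by
    intro i j h
    have h' : (i : ℝ) + 2 ≤ j := by exact_mod_cast h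
    rcases le_total s (i + 1) with hs | hs
    · have : hat j s = 0 := max_eq_left (by
        rw [abs_of_nonpos (by linarith)]; linarith)
      rw [this, mul_zero]
    · have : hat i s = 0 := max_eq_left (by
        rw [abs_of_nonneg (by linarith)]; linarith)
      rw [this, zero_mul]
  rcases h with h | h
  · exact key h
  · rw [mul_comm]; exact key h

theorem sum_hat (m : ℕ) (s : ℝ) (h0 : 0 ≤ s) (hm : s ≤ m) :
    ∑ i ∈ Finset.range (m + 1), hat i s = 1 := by
  induction m with
  | zero =>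
    have : s = 0 := le_antisymm (by simpa using hm) h0
    simp [hat, this]
  | succ m ih =>
    rw [Finset.sum_range_succ]
    push_cast at hm
    rcases le_total s m with hs | hs
    · rw [ih hs]
      have : hat (m + 1) s = 0 := max_eq_left (by
        push_cast
        rw [abs_of_nonpos (by linarith)]; linarith)
      rw [this, add_zero]
    · rw [Finset.sum_range_succ, Finset.sum_eq_zero, zero_add]
      · unfold hat
        push_cast
        rw [abs_of_nonneg (by linarith), abs_of_nonpos (by linarith), max_eq_right (by linarith),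
          max_eq_right (by linarith)]
        ring
      · intro i hi
        have hi' : (i : ℝ) + 1 ≤ m := by exact_mod_cast Finset.mem_range.1 hi
        refine max_eq_left ?_
        rw [abs_of_nonneg (by linarith)]
        linarith

theorem abs_mul_hat_le (i : ℕ) (s : ℝ) : |(s - i) * hat i s| ≤ 1 := by
  rw [abs_mul, abs_of_nonneg (hat_nonneg i s)]
  unfold hat
  rcases le_total (|s - i|) 1 with h | h
  · rw [max_eq_right (by linarith)]
    nlinarith [abs_nonneg (s - i)]
  · rw [max_eq_left (by linarith), mul_zero]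
    exact zero_le_one

end Hat

section Near

variable {E : Type*} [CStarAlgebra E]

/-- sums `∑ a_i q b_{i+d}` over a parity class are small. -/
theorem norm_band_le (a b : ℕ → E) (q : E) {A B : ℝ} (hA : 0 ≤ A) (hB : 0 ≤ B)
    (ha : ∀ i, ‖a i‖ ≤ A) (hb : ∀ i, ‖b i‖ ≤ B)
    (haa : ∀ i j, (i + 2 ≤ j ∨ j + 2 ≤ i) → star (a i) * a j = 0)
    (hbb : ∀ i j, (i + 2 ≤ j ∨ j + 2 ≤ i) → b i * star (b j) = 0) (m : ℕ) :
    ‖∑ i ∈ Finset.range m, a i * q * b i‖ ≤ 2 * (A * ‖q‖ * B) := by
  classical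
  have hbound : ∀ i, ‖a i * q * b i‖ ≤ A * ‖q‖ * B := fun i =>
    (norm_mul_le _ _).trans (mul_le_mul ((norm_mul_le _ _).trans
      (mul_le_mul_of_nonneg_right (ha i) (norm_nonneg _))) (hb i) (norm_nonneg _)
      (mul_nonneg hA (norm_nonneg _)))
  have hpos : 0 ≤ A * ‖q‖ * B := mul_nonneg (mul_nonneg hA (norm_nonneg _)) hB
  have hblock : ∀ p : ℕ → Prop, ∀ [DecidablePred p], (∀ i j, p i → p j → i ≠ j → (i + 2 ≤ j ∨ j + 2 ≤ i)) →
      ‖∑ i ∈ (Finset.range m).filter p, a i * q * b i‖ ≤ A * ‖q‖ * B := by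
    intro p _ hp
    refine norm_sum_le_of_block _ _ (fun i hi j hj hij => ?_) (fun i hi j hj hij => ?_) hpos
      (fun i _ => hbound i)
    · have h1 := haa i j (hp i j (Finset.mem_filter.1 hi).2 (Finset.mem_filter.1 hj).2 hij)
      calc star (a i * q * b i) * (a j * q * b j)
          = star (b i) * star q * (star (a i) * a j) * q * b j := by
            simp only [star_mul]; noncomm_ring
        _ = 0 := by rw [h1]; simp
    · have h1 := hbb i j (hp i j (Finset.mem_filter.1 hi).2 (Finset.mem_filter.1 hj).2 hij)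
      calc a i * q * b i * star (a j * q * b j)
          = a i * q * (b i * star (b j)) * star q * star (a j) := by
            simp only [star_mul]; noncomm_ring
        _ = 0 := by rw [h1]; simp
  rw [← Finset.sum_filter_add_sum_filter_not (Finset.range m) (fun i => i % 2 = 0)]
  refine (norm_add_le _ _).trans ?_
  have h1 := hblock (fun i => i % 2 = 0) (fun i j hi hj hij => by omega)
  have h2 := hblock (fun i => ¬ i % 2 = 0) (fun i j hi hj hij => by omega)
  linarith

end Near

section Split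

theorem sum_split {M : Type*} [AddCommMonoid M] (m c : ℕ) (f : ℕ → ℕ → M)
    (hf : ∀ i j, (m < i ∨ m < j) → f i j = 0) :
    ∑ i ∈ Finset.range (m + 1), ∑ j ∈ Finset.range (m + 1), f i j =
      (∑ d ∈ Finset.range c, ∑ i ∈ Finset.range (m + 1), f i (i + d)) +
      (∑ d ∈ Finset.Ico 1 c, ∑ i ∈ Finset.range (m + 1), f (i + d) i) +
      ∑ i ∈ Finset.range (m + 1), ∑ j ∈ Finset.range (m + 1),
        if (i + c ≤ j ∨ j + c ≤ i) then f i j else 0 := by
  classical
  have h1 : ∀ i, ∑ d ∈ Finset.range c, f i (i + d) =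
      ∑ j ∈ Finset.range (m + 1), if (i ≤ j ∧ j < i + c) then f i j else 0 := by
    intro i
    rw [← Finset.sum_filter]
    have : ∑ d ∈ Finset.range c, f i (i + d) = ∑ j ∈ Finset.Ico i (i + c), f i j := by
      rw [Finset.sum_Ico_eq_sum_range]
      simp
    rw [this]
    symm
    refine Finset.sum_subset (fun j hj => ?_) (fun j hj hj' => ?_)
    · rw [Finset.mem_filter] at hj
      exact Finset.mem_Ico.2 hj.2
    · rw [Finset.mem_Ico] at hj
      refine hf i j (Or.inr ?_)
      by_contra hcon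
      exact hj' (Finset.mem_filter.2 ⟨Finset.mem_range.2 (by omega), hj⟩)
  have h2 : ∀ j, ∑ d ∈ Finset.Ico 1 c, f (j + d) j =
      ∑ i ∈ Finset.range (m + 1), if (j < i ∧ i < j + c) then f i j else 0 := by
    intro j
    rw [← Finset.sum_filter]
    have : ∑ d ∈ Finset.Ico 1 c, f (j + d) j = ∑ i ∈ Finset.Ico (j + 1) (j + c), f i j := by
      rw [Finset.sum_Ico_eq_sum_range, Finset.sum_Ico_eq_sum_range]
      have hc : j + c - (j + 1) = c - 1 := by omega
      rw [hc]
      exact Finset.sum_congr rfl fun k _ => by rw [add_assoc]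
    rw [this]
    symm
    refine Finset.sum_subset (fun i hi => ?_) (fun i hi hi' => ?_)
    · rw [Finset.mem_filter] at hi
      exact Finset.mem_Ico.2 ⟨hi.2.1, hi.2.2⟩
    · rw [Finset.mem_Ico] at hi
      refine hf i j (Or.inl ?_)
      by_contra hcon
      exact hi' (Finset.mem_filter.2 ⟨Finset.mem_range.2 (by omega), hi⟩)
  rw [Finset.sum_comm (s := Finset.range c), Finset.sum_comm (s := Finset.Ico 1 c)]
  rw [Finset.sum_congr rfl (fun i _ => h1 i), Finset.sum_congr rfl (fun j _ => h2 j)]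
  rw [Finset.sum_comm (s := Finset.range (m + 1))
    (f := fun j i => if (j < i ∧ i < j + c) then f i j else 0)]
  rw [← Finset.sum_add_distrib, ← Finset.sum_add_distrib]
  refine Finset.sum_congr rfl fun i _ => ?_
  rw [← Finset.sum_add_distrib, ← Finset.sum_add_distrib]
  refine Finset.sum_congr rfl fun j _ => ?_
  by_cases ha : i + c ≤ j ∨ j + c ≤ i
  · rw [if_pos ha, if_neg (by omega), if_neg (by omega)]
    simp
  · rw [if_neg ha]
    by_cases hb : i ≤ j
    · rw [if_pos (by omega), if_neg (by omega)]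
      simp
    · rw [if_neg (by omega), if_pos (by omega)]
      simp

end Split

section Main

variable {E : Type*} [CStarAlgebra E]

theorem near_far {H : E} {m : ℕ} {e : ℕ → E} {l δ : ℝ} (hδ : 0 ≤ δ)
    (hcomm : ∀ i, Commute H (e i)) (hH : IsSelfAdjoint H)
    (he : ∀ i, IsSelfAdjoint (e i)) (hem : ∀ i, m < i → e i = 0)
    (hsum : ∑ i ∈ Finset.range (m + 1), e i = 1)
    (he0 : ∀ i j, (i + 2 ≤ j ∨ j + 2 ≤ i) → e i * e j = 0) (hn : ∀ i, ‖e i‖ ≤ 1)
    (hx : ∀ i : ℕ, ‖(H - (l + δ * i) • (1 : E)) * e i‖ ≤ δ) (c : ℕ) (q : E) :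
    ∃ near far : E, q = near + far ∧ ‖H * near - near * H‖ ≤ 2 * c * (4 + 2 * c) * δ * ‖q‖ ∧
      far = ∑ i ∈ Finset.range (m + 1), ∑ j ∈ Finset.range (m + 1),
        if (i + c ≤ j ∨ j + c ≤ i) then e i * q * e j else 0 := by
  classical
  set x : ℕ → E := fun i => (H - (l + δ * i) • (1 : E)) * e i with hxdef
  have hxe : ∀ i, x i = e i * (H - (l + δ * i) • (1 : E)) := by
    intro i
    simp only [hxdef]
    exact ((hcomm i).sub_left ((Commute.one_left (e i)).smul_left _)).eq
  have hxs : ∀ i, star (x i) = x i := by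
    intro i
    conv_lhs => rw [hxe]
    simp only [hxdef, star_mul, star_sub, star_smul, star_one, (he i).star_eq, hH.star_eq,
      star_trivial]
  have hee : ∀ i j, (i + 2 ≤ j ∨ j + 2 ≤ i) → star (e i) * e j = 0 := fun i j h => by
    rw [(he i).star_eq]; exact he0 i j h
  have hee' : ∀ i j, (i + 2 ≤ j ∨ j + 2 ≤ i) → e i * star (e j) = 0 := fun i j h => by
    rw [(he j).star_eq]; exact he0 i j h
  have hxx : ∀ i j, (i + 2 ≤ j ∨ j + 2 ≤ i) → star (x i) * x j = 0 := fun i j h => by
    rw [hxs, hxe j]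
    simp only [hxdef]
    rw [mul_assoc, ← mul_assoc (e i), he0 i j h]
    simp
  have hxx' : ∀ i j, (i + 2 ≤ j ∨ j + 2 ≤ i) → x i * star (x j) = 0 := fun i j h => by
    rw [hxs, ← hxs i]; exact hxx i j h
  -- commutator of a band
  have hband : ∀ (f g : ℕ → ℕ) (s : ℝ), (∀ i j, (i + 2 ≤ j ∨ j + 2 ≤ i) → (f i + 2 ≤ f j ∨ f j + 2 ≤ f i)) →
      (∀ i j, (i + 2 ≤ j ∨ j + 2 ≤ i) → (g i + 2 ≤ g j ∨ g j + 2 ≤ g i)) →
      (∀ i, (f i : ℝ) - g i = s) → ∀ n,
      ‖H * (∑ i ∈ Finset.range n, e (f i) * q * e (g i)) -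
        (∑ i ∈ Finset.range n, e (f i) * q * e (g i)) * H‖ ≤ (4 + 2 * |s|) * δ * ‖q‖ := by
    intro f g s hf hg hfg n
    have hident : H * (∑ i ∈ Finset.range n, e (f i) * q * e (g i)) -
        (∑ i ∈ Finset.range n, e (f i) * q * e (g i)) * H =
        (∑ i ∈ Finset.range n, x (f i) * q * e (g i)) -
        (∑ i ∈ Finset.range n, e (f i) * q * x (g i)) +
        (δ * s) • ∑ i ∈ Finset.range n, e (f i) * q * e (g i) := by
      rw [Finset.mul_sum, Finset.sum_mul, Finset.smul_sum, ← Finset.sum_sub_distrib,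
        ← Finset.sum_sub_distrib, ← Finset.sum_add_distrib]
      refine Finset.sum_congr rfl fun i _ => ?_
      rw [hxe (g i)]
      simp only [hxdef, sub_mul, mul_sub, smul_mul_assoc, mul_smul_comm, one_mul, mul_one,
        mul_assoc]
      rw [← hfg i]
      module
    have b1 := norm_band_le (fun i => x (f i)) (fun i => e (g i)) q hδ zero_le_one
      (fun i => hx _) (fun i => hn _) (fun i j h => hxx _ _ (hf i j h))
      (fun i j h => hee' _ _ (hg i j h)) n
    have b2 := norm_band_le (fun i => e (f i)) (fun i => x (g i)) q zero_le_one hδ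
      (fun i => hn _) (fun i => hx _) (fun i j h => hee _ _ (hf i j h))
      (fun i j h => hxx' _ _ (hg i j h)) n
    have b3 := norm_band_le (fun i => e (f i)) (fun i => e (g i)) q zero_le_one zero_le_one
      (fun i => hn _) (fun i => hn _) (fun i j h => hee _ _ (hf i j h))
      (fun i j h => hee' _ _ (hg i j h)) n
    rw [hident]
    refine (norm_add_le _ _).trans ?_
    rw [norm_smul, Real.norm_eq_abs, abs_mul, abs_of_nonneg hδ]
    have h4 := norm_sub_le (∑ i ∈ Finset.range n, x (f i) * q * e (g i))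
      (∑ i ∈ Finset.range n, e (f i) * q * x (g i))
    have h5 : δ * |s| * ‖∑ i ∈ Finset.range n, e (f i) * q * e (g i)‖ ≤
        δ * |s| * (2 * (1 * ‖q‖ * 1)) := mul_le_mul_of_nonneg_left b3 (by positivity)
    nlinarith
  refine ⟨(∑ d ∈ Finset.range c, ∑ i ∈ Finset.range (m + 1), e i * q * e (i + d)) +
      (∑ d ∈ Finset.Ico 1 c, ∑ i ∈ Finset.range (m + 1), e (i + d) * q * e i), _, ?_, ?_, rfl⟩
  · rw [← sum_split m c (fun i j => e i * q * e j)]
    · simp_rw [← Finset.mul_sum, ← Finset.sum_mul]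
      rw [hsum, one_mul, mul_one]
    · rintro i j (h | h)
      · rw [hem i h]; simp
      · rw [hem j h]; simp
  · have h1 : ∀ d ∈ Finset.range c, ‖H * (∑ i ∈ Finset.range (m + 1), e i * q * e (i + d)) -
        (∑ i ∈ Finset.range (m + 1), e i * q * e (i + d)) * H‖ ≤ (4 + 2 * c) * δ * ‖q‖ := by
      intro d hd
      have := hband (fun i => i) (fun i => i + d) (-(d : ℝ)) (fun i j h => h)
        (fun i j h => by omega) (fun i => by push_cast; ring) (m + 1)
      refine this.trans ?_
      rw [abs_neg, abs_of_nonneg (Nat.cast_nonneg d)]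
      have hdc : (d : ℝ) ≤ c := by exact_mod_cast (Finset.mem_range.1 hd).le
      gcongr
    have h2 : ∀ d ∈ Finset.Ico 1 c, ‖H * (∑ i ∈ Finset.range (m + 1), e (i + d) * q * e i) -
        (∑ i ∈ Finset.range (m + 1), e (i + d) * q * e i) * H‖ ≤ (4 + 2 * c) * δ * ‖q‖ := by
      intro d hd
      have := hband (fun i => i + d) (fun i => i) (d : ℝ) (fun i j h => by omega)
        (fun i j h => h) (fun i => by push_cast; ring) (m + 1)
      refine this.trans ?_
      rw [abs_of_nonneg (Nat.cast_nonneg d)]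
      have hdc : (d : ℝ) ≤ c := by exact_mod_cast (Finset.mem_Ico.1 hd).2.le
      gcongr
    rw [mul_add, add_mul, add_sub_add_comm, Finset.mul_sum, Finset.mul_sum, Finset.sum_mul,
      Finset.sum_mul, ← Finset.sum_sub_distrib, ← Finset.sum_sub_distrib]
    refine (norm_add_le _ _).trans ?_
    have h3 := (norm_sum_le _ _).trans (Finset.sum_le_card_nsmul _ _ _ h1)
    have h4 := (norm_sum_le _ _).trans (Finset.sum_le_card_nsmul _ _ _ h2)
    rw [Finset.card_range, nsmul_eq_mul] at h3
    rw [Nat.card_Ico, nsmul_eq_mul] at h4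
    have h5 : ((c - 1 : ℕ) : ℝ) * ((4 + 2 * c) * δ * ‖q‖) ≤ c * ((4 + 2 * c) * δ * ‖q‖) := by
      have : ((c - 1 : ℕ) : ℝ) ≤ c := by exact_mod_cast Nat.sub_le c 1
      exact mul_le_mul_of_nonneg_right this (by positivity)
    linarith

end Main

theorem stage1 {E : Type*} [CStarAlgebra E] (H : E) (hH : IsSelfAdjoint H)
    (hg : GenOne {z | ∃ q, z = H * q - q * H}) (c : ℕ) :
    ∃ (m : ℕ) (e : ℕ → E), (∀ i, IsSelfAdjoint (e i)) ∧ (∀ i, m < i → e i = 0) ∧
      ∑ i ∈ Finset.range (m + 1), e i = 1 ∧ (∀ i j, (i + 2 ≤ j ∨ j + 2 ≤ i) → e i * e j = 0) ∧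
      GenOne {z | ∃ i j q, (i + c ≤ j ∨ j + c ≤ i) ∧ z = e i * q * e j} := by
  classical
  obtain ⟨N, a, s, b, hs, h1⟩ := hg
  choose q hq using hs
  set R : ℝ := ‖H‖ + 1 with hR
  have hRpos : 0 < R := by positivity
  set K : ℝ := ∑ i, ‖a i‖ * ‖q i‖ * ‖b i‖ with hK
  have hK0 : 0 ≤ K := Finset.sum_nonneg fun i _ => by positivity
  obtain ⟨m, hm⟩ := exists_nat_gt (2 * c * (4 + 2 * c) * (2 * R) * K)
  have hm0 : 0 ≤ 2 * c * (4 + 2 * c) * (2 * R) * K := by positivity
  have hmpos : (0 : ℝ) < m := hm0.trans_lt hm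
  set δ : ℝ := 2 * R / m with hδ
  have hδpos : 0 < δ := by positivity
  let φ : ℝ → ℝ := fun t => (t + R) / δ
  have hφ : Continuous φ := by fun_prop
  have hspec : ∀ t ∈ spectrum ℝ H, 0 ≤ φ t ∧ φ t ≤ m := by
    intro t ht
    have h2 : |t| ≤ ‖H‖ := by
      have := spectrum.norm_le_norm_mul_of_mem ht
      rcases subsingleton_or_nontrivial E with hE | hE
      · exact absurd ht (by simp [spectrum.of_subsingleton])
      · simpa using this
    have h3 := abs_le.1 h2
    constructor
    · exact div_nonneg (by linarith) hδpos.le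
    · rw [div_le_iff₀ hδpos, hδ]
      have : (m : ℝ) * (2 * R / m) = 2 * R := by field_simp
      rw [this]
      linarith
  let e' : ℕ → E := fun i => cfc (fun t : ℝ => hat i (φ t)) H
  let e : ℕ → E := fun i => if i ≤ m then e' i else 0
  have he'sa : ∀ i, IsSelfAdjoint (e' i) := fun i => IsSelfAdjoint.cfc
  have hcont : ∀ i, Continuous (fun t : ℝ => hat i (φ t)) := fun i => (continuous_hat i).comp hφ
  have hesa : ∀ i, IsSelfAdjoint (e i) := by
    intro i
    simp only [e]
    split_ifs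
    · exact he'sa i
    · exact IsSelfAdjoint.zero E
  have hem : ∀ i, m < i → e i = 0 := fun i hi => if_neg (not_le.2 hi)
  have hsum : ∑ i ∈ Finset.range (m + 1), e i = 1 := by
    have h2 : ∑ i ∈ Finset.range (m + 1), e i = ∑ i ∈ Finset.range (m + 1), e' i :=
      Finset.sum_congr rfl fun i hi => if_pos (Nat.lt_succ_iff.1 (Finset.mem_range.1 hi))
    rw [h2]
    simp only [e']
    rw [← cfc_sum (fun i t => hat i (φ t)) H (Finset.range (m + 1))
      (fun i _ => (hcont i).continuousOn)]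
    have h3 : cfc (∑ i ∈ Finset.range (m + 1), fun t : ℝ => hat i (φ t)) H =
        cfc (fun _ : ℝ => (1 : ℝ)) H :=
      cfc_congr fun t ht => by
        simpa using sum_hat m (φ t) (hspec t ht).1 (hspec t ht).2
    rw [h3, cfc_const_one ℝ H]
  have he'0 : ∀ i j, (i + 2 ≤ j ∨ j + 2 ≤ i) → e' i * e' j = 0 := by
    intro i j h
    simp only [e']
    rw [← cfc_mul _ _ H (hcont i).continuousOn (hcont j).continuousOn]
    have : (fun t : ℝ => hat i (φ t) * hat j (φ t)) = fun _ => 0 := by
      ext t; exact hat_mul_hat h _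
    rw [this, cfc_const_zero ℝ H]
  have he0 : ∀ i j, (i + 2 ≤ j ∨ j + 2 ≤ i) → e i * e j = 0 := by
    intro i j h
    simp only [e]
    split_ifs <;> simp [he'0 i j h]
  have hn : ∀ i, ‖e i‖ ≤ 1 := by
    intro i
    simp only [e]
    split_ifs
    · refine norm_cfc_le zero_le_one fun t _ => ?_
      rw [Real.norm_eq_abs, abs_of_nonneg (hat_nonneg _ _)]
      exact hat_le_one _ _
    · simp
  have hcomm' : ∀ i, Commute H (e' i) := by
    intro i
    have := cfc_commute_cfc (fun t : ℝ => t) (fun t : ℝ => hat i (φ t)) H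
    rwa [cfc_id' ℝ H hH] at this
  have hcomm : ∀ i, Commute H (e i) := by
    intro i
    simp only [e]
    split_ifs
    · exact hcomm' i
    · exact Commute.zero_right _
  have hx : ∀ i : ℕ, ‖(H - (-R + δ * i) • (1 : E)) * e i‖ ≤ δ := by
    intro i
    simp only [e]
    split_ifs
    · have h2 : H - (-R + δ * i) • (1 : E) = cfc (fun t : ℝ => t - (-R + δ * i)) H := by
        rw [cfc_sub (fun t : ℝ => t) (fun _ => (-R + δ * i)) H, cfc_id' ℝ H hH,
          cfc_const _ H hH, Algebra.algebraMap_eq_smul_one]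
      rw [h2]
      simp only [e']
      rw [← cfc_mul (fun t : ℝ => t - (-R + δ * i)) (fun t : ℝ => hat i (φ t)) H
        (by fun_prop) (hcont i).continuousOn]
      refine norm_cfc_le hδpos.le fun t _ => ?_
      have h3 : (t - (-R + δ * i)) * hat i (φ t) = δ * ((φ t - i) * hat i (φ t)) := by
        simp only [φ]
        field_simp
        ring
      rw [h3, norm_mul, Real.norm_eq_abs, abs_of_pos hδpos, Real.norm_eq_abs]
      have := abs_mul_hat_le i (φ t)
      nlinarith
    · rw [mul_zero, norm_zero]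
      exact hδpos.le
  choose near far hnf hnear hfar using fun q =>
    near_far (l := -R) hδpos.le hcomm hH hesa hem hsum he0 hn hx c q
  refine ⟨m, e, hesa, hem, hsum, he0, ?_⟩
  set S : Set E := {z | ∃ i j q, (i + c ≤ j ∨ j + c ≤ i) ∧ z = e i * q * e j} with hS
  have hfargen : ∀ q, IsGen S (far q) := by
    intro q
    rw [hfar q]
    have hsumgen : ∀ (T : Finset ℕ) (g : ℕ → E), (∀ i ∈ T, IsGen S (g i)) →
        IsGen S (∑ i ∈ T, g i) := by
      intro T g
      induction T using Finset.induction_on with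
      | empty => intro _; simpa using IsGen.zero S
      | insert a T ha ih =>
        intro hT
        rw [Finset.sum_insert ha]
        exact (hT a (Finset.mem_insert_self a T)).add
          (ih fun i hi => hT i (Finset.mem_insert_of_mem hi))
    refine hsumgen _ _ fun i _ => hsumgen _ _ fun j _ => ?_
    split_ifs with h
    · simpa using IsGen.single (S := S) 1 (show e i * q * e j ∈ S from ⟨i, j, q, h, rfl⟩) 1
    · exact IsGen.zero S
  have hkey : ∀ (a b q n f : E), q = n + f →
      a * (H * q - q * H) * b - a * (H * n - n * H) * b = a * (H * f - f * H) * b := by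
    intro a b q n f h
    rw [h]
    noncomm_ring
  have hsumgenF : ∀ (g : Fin N → E), (∀ i, IsGen S (g i)) → IsGen S (∑ i, g i) := by
    intro g hg
    have : ∀ T : Finset (Fin N), IsGen S (∑ i ∈ T, g i) := by
      intro T
      induction T using Finset.induction_on with
      | empty => simpa using IsGen.zero S
      | insert a T ha ih =>
        rw [Finset.sum_insert ha]
        exact (hg a).add ih
    exact this Finset.univ
  -- the error term
  set X : E := ∑ i, a i * (H * near (q i) - near (q i) * H) * b i with hX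
  have hXn : ‖X‖ < 1 := by
    have h2 : ‖X‖ ≤ ∑ i, ‖a i‖ * (2 * c * (4 + 2 * c) * δ * ‖q i‖) * ‖b i‖ := by
      refine (norm_sum_le _ _).trans (Finset.sum_le_sum fun i _ => ?_)
      refine (norm_mul_le _ _).trans (mul_le_mul_of_nonneg_right ?_ (norm_nonneg _))
      exact (norm_mul_le _ _).trans (mul_le_mul_of_nonneg_left (hnear _) (norm_nonneg _))
    have h3 : ∑ i, ‖a i‖ * (2 * c * (4 + 2 * c) * δ * ‖q i‖) * ‖b i‖ =
        2 * c * (4 + 2 * c) * δ * K := by
      rw [hK, Finset.mul_sum]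
      exact Finset.sum_congr rfl fun i _ => by ring
    rw [h3] at h2
    refine h2.trans_lt ?_
    have h4 : 2 * c * (4 + 2 * c) * δ * K = (2 * c * (4 + 2 * c) * (2 * R) * K) / m := by
      rw [hδ]; ring
    rw [h4, div_lt_one hmpos]
    exact hm
  have hY : IsGen S (1 - X) := by
    have h2 : 1 - X = ∑ i, a i * (H * far (q i) - far (q i) * H) * b i := by
      rw [← h1, hX, ← Finset.sum_sub_distrib]
      refine Finset.sum_congr rfl fun i _ => ?_
      rw [hq i]
      exact hkey _ _ _ _ _ (hnf (q i))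
    rw [h2]
    refine hsumgenF _ fun i => ?_
    refine IsGen.mul_right (IsGen.mul_left ?_ _) _
    rw [sub_eq_add_neg]
    exact ((hfargen _).mul_left H).add ((hfargen _).mul_right H).neg
  obtain ⟨u, hu⟩ := isUnit_one_sub_of_norm_lt_one hXn
  have h5 := hY.mul_left (↑u⁻¹ : E)
  rw [← hu, Units.inv_mul] at h5
  exact h5

end Vale.Agent.P101
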