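import Vale.Agent.P101.GenOne

/-! Stage 2: from a partition of unity with a full far-off-diagonal part to two orthogonal
full elements, and then to one full square-zero element. -/

namespace Vale.Agent.P101

universe u

section expand

variable {Q : Type*} [Ring Q] {D : Type*} [Ring D]

/-- ordered product of `φ k (t k)`, `k < N` -/
def prodN (φ : ℕ → D →+* Q) (t : ℕ → D) : ℕ → Q
  | 0 => 1
  | N + 1 => prodN φ t N * φ N (t N)

theorem prodN_congr (φ : ℕ → D →+* Q) {t t' : ℕ → D} :
    ∀ N, (∀ k < N, t k = t' k) → prodN φ t N = prodN φ t' N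
  | 0, _ => rfl
  | N + 1, h => by
    rw [prodN, prodN, prodN_congr φ N fun k hk => h k (by omega), h N (by omega)]

theorem prodN_commute {φ : ℕ → D →+* Q}
    (hφ : ∀ i j, i ≠ j → ∀ x y, Commute (φ i x) (φ j y)) (t : ℕ → D) (d : D) :
    ∀ N k, N ≤ k → Commute (prodN φ t N) (φ k d)
  | 0, _, _ => Commute.one_left _
  | N + 1, k, h => by
    rw [prodN]
    exact (prodN_commute hφ t d N k (by omega)).mul_left (hφ N k (by omega) _ _)

theorem expand {φ : ℕ → D →+* Q} (hφ : ∀ i j, i ≠ j → ∀ x y, Commute (φ i x) (φ j y))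
    {n : ℕ} (a s b : Fin n → D) (h : ∑ i, a i * s i * b i = 1) :
    ∀ (N : ℕ) (X : Q), (∀ k < N, ∀ d, Commute (φ k d) X) →
      (∀ l : ℕ → Fin n, prodN φ (fun k => s (l k)) N * X = 0) → X = 0 := by
  intro N
  induction N with
  | zero =>
    intro X _ hl
    by_cases hn : n = 0
    · subst hn
      have h1 : (1 : D) = 0 := by rw [← h]; simp
      have h2 : (1 : Q) = 0 := by rw [← map_one (φ 0), h1, map_zero]
      rw [← one_mul X, h2, zero_mul]
    · have : 0 < n := Nat.pos_of_ne_zero hn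
      simpa [prodN] using hl fun _ => ⟨0, this⟩
  | succ N ih =>
    intro X hX hl
    have key : ∀ j, φ N (s j) * X = 0 := by
      intro j
      apply ih
      · intro k hk d
        exact (hφ k N (by omega) _ _).mul_right (hX k (by omega) d)
      · intro l
        have h1 := hl (Function.update l N j)
        rw [prodN] at h1
        simp only [Function.update_self] at h1
        rw [← mul_assoc]
        rw [prodN_congr φ (t' := fun k => s (l k)) N fun k hk => by
          rw [Function.update_of_ne (by omega)]] at h1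
        exact h1
    have h1 : X = ∑ j, φ N (a j) * (φ N (s j) * X) * φ N (b j) := by
      calc X = φ N (∑ i, a i * s i * b i) * X := by rw [h, map_one, one_mul]
        _ = _ := by
          rw [map_sum, Finset.sum_mul]
          refine Finset.sum_congr rfl fun j _ => ?_
          rw [map_mul, map_mul, mul_assoc, (hX N (by omega) (b j)).eq]
          noncomm_ring
    rw [h1]
    exact Finset.sum_eq_zero fun j _ => by rw [key j]; simp

theorem extract {φ : ℕ → D →+* Q} (hφ : ∀ i j, i ≠ j → ∀ x y, Commute (φ i x) (φ j y))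
    (u t v : ℕ → D) :
    ∀ (N : ℕ) (X : Q), (∀ k < N, ∀ d, Commute (φ k d) X) →
      prodN φ t N * X = 0 → prodN φ (fun k => u k * t k * v k) N * X = 0 := by
  intro N
  induction N with
  | zero => intro X _ h; simpa [prodN] using h
  | succ N ih =>
    intro X hX h
    have h1 := ih (φ N (u N) * (φ N (t N) * X)) ?_ ?_
    · rw [prodN, map_mul, map_mul]
      have h2 : prodN φ (fun k => u k * t k * v k) N * (φ N (u N) * φ N (t N) * φ N (v N)) * X
          = prodN φ (fun k => u k * t k * v k) N * (φ N (u N) * φ N (t N)) * (φ N (v N) * X) := by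
        noncomm_ring
      rw [h2, (hX N (by omega) (v N)).eq]
      have h3 : prodN φ (fun k => u k * t k * v k) N * (φ N (u N) * φ N (t N)) * (X * φ N (v N))
          = (prodN φ (fun k => u k * t k * v k) N * (φ N (u N) * (φ N (t N) * X))) * φ N (v N) := by
        noncomm_ring
      rw [h3, h1, zero_mul]
    · intro k hk d
      exact (hφ k N (by omega) _ _).mul_right
        ((hφ k N (by omega) _ _).mul_right (hX k (by omega) d))
    · have h2 : prodN φ t N * (φ N (u N) * (φ N (t N) * X))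
          = (prodN φ t N * φ N (u N)) * (φ N (t N) * X) := by noncomm_ring
      rw [h2, (prodN_commute hφ t (u N) N N le_rfl).eq]
      have h3 : φ N (u N) * prodN φ t N * (φ N (t N) * X)
          = φ N (u N) * (prodN φ t N * φ N (t N) * X) := by noncomm_ring
      rw [h3]
      rw [prodN] at h
      rw [h, mul_zero]

end expand

section partition

variable {E : Type*} [Ring E]

/-- the partition of unity of the sum of `N` commuting partitions of unity -/
def Fs (ε : ℕ → ℕ → E) (m : ℕ) : ℕ → ℤ → E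
  | 0, v => if v = 0 then 1 else 0
  | N + 1, v => ∑ t ∈ Finset.range (m + 1), Fs ε m N (v - t) * ε N t

variable {ε : ℕ → ℕ → E} {m : ℕ}

theorem Fs_commute (hc : ∀ n n' t t', n ≠ n' → Commute (ε n t) (ε n' t')) (t : ℕ) :
    ∀ N k v, N ≤ k → Commute (Fs ε m N v) (ε k t)
  | 0, k, v, _ => by
    rw [Fs]; split_ifs
    · exact Commute.one_left _
    · exact Commute.zero_left _
  | N + 1, k, v, h => by
    rw [Fs]
    exact Commute.sum_left _ _ _ fun i _ =>
      (Fs_commute hc t N k _ (by omega)).mul_left (hc _ _ _ _ (by omega))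

theorem Fs_support : ∀ (N : ℕ) (v : ℤ), (v < 0 ∨ (m : ℤ) * N < v) → Fs ε m N v = 0
  | 0, v, h => by
    rw [Fs, if_neg]
    rintro rfl
    simp at h
  | N + 1, v, h => by
    rw [Fs]
    refine Finset.sum_eq_zero fun t ht => ?_
    rw [Fs_support N, zero_mul]
    have := Finset.mem_range.1 ht
    push_cast at h
    rcases h with h | h
    · left; omega
    · right
      have : (t : ℤ) ≤ m := by exact_mod_cast Nat.lt_succ_iff.1 this
      nlinarith

theorem Fs_sum (h1 : ∀ n, ∑ t ∈ Finset.range (m + 1), ε n t = 1) :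
    ∀ (N : ℕ) (s : Finset ℤ), Finset.Icc 0 ((m : ℤ) * N) ⊆ s → ∑ v ∈ s, Fs ε m N v = 1 := by
  intro N
  induction N with
  | zero =>
    intro s hs
    have h0 : (0 : ℤ) ∈ s := hs (by simp)
    rw [Finset.sum_eq_single_of_mem 0 h0]
    · simp [Fs]
    · intro b _ hb; simp [Fs, hb]
  | succ N ih =>
    intro s hs
    simp only [Fs]
    rw [Finset.sum_comm]
    rw [← h1 N]
    refine Finset.sum_congr rfl fun t ht => ?_
    rw [← Finset.sum_mul]
    have h2 : ∑ v ∈ s, Fs ε m N (v - t) = ∑ w ∈ s.image (fun v : ℤ => v - t), Fs ε m N w := by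
      rw [Finset.sum_image]
      intro a _ b _ hab
      simpa using hab
    rw [h2, ih, one_mul]
    intro w hw
    rw [Finset.mem_Icc] at hw
    rw [Finset.mem_image]
    refine ⟨w + t, hs ?_, by ring⟩
    rw [Finset.mem_Icc]
    have : (t : ℤ) ≤ m := by exact_mod_cast Nat.lt_succ_iff.1 (Finset.mem_range.1 ht)
    push_cast
    constructor
    · omega
    · nlinarith

theorem Fs_mul (hc : ∀ n n' t t', n ≠ n' → Commute (ε n t) (ε n' t'))
    (h0 : ∀ n (t t' : ℕ), (t + 2 ≤ t' ∨ t' + 2 ≤ t) → ε n t * ε n t' = 0) :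
    ∀ (N : ℕ) (v w : ℤ), (N : ℤ) < |v - w| → Fs ε m N v * Fs ε m N w = 0
  | 0, v, w, h => by
    rw [Fs, Fs]
    split_ifs with h1 h2
    · subst h1; subst h2; simp at h
    · simp
    · simp
    · simp
  | N + 1, v, w, h => by
    rw [Fs, Fs, Finset.sum_mul_sum]
    refine Finset.sum_eq_zero fun t _ => Finset.sum_eq_zero fun t' _ => ?_
    have h1 : Fs ε m N (v - t) * ε N t * (Fs ε m N (w - t') * ε N t')
        = (Fs ε m N (v - t) * Fs ε m N (w - t')) * (ε N t * ε N t') := by
      have := (Fs_commute (m := m) hc t N N (w - t') le_rfl).eq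
      calc _ = Fs ε m N (v - t) * (ε N t * Fs ε m N (w - t')) * ε N t' := by noncomm_ring
        _ = _ := by rw [← this]; noncomm_ring
    rw [h1]
    by_cases hd : t + 2 ≤ t' ∨ t' + 2 ≤ t
    · rw [h0 N t t' hd, mul_zero]
    · rw [Fs_mul hc h0 N, zero_mul]
      push Not at hd
      push_cast at h
      have h3 : |v - w| ≤ |v - t - (w - t')| + 1 := by
        have : v - w = (v - t - (w - t')) + ((t : ℤ) - t') := by ring
        rw [this]
        refine (abs_add_le _ _).trans ?_
        gcongr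
        rw [abs_le]; constructor <;> omega
      omega

/-- the product of one hat from each copy -/
def Gs (ε : ℕ → ℕ → E) (τ : ℕ → ℕ) : ℕ → E
  | 0 => 1
  | N + 1 => Gs ε τ N * ε N (τ N)

theorem Gs_commute (hc : ∀ n n' t t', n ≠ n' → Commute (ε n t) (ε n' t')) (τ : ℕ → ℕ) (t : ℕ) :
    ∀ N k, N ≤ k → Commute (Gs ε τ N) (ε k t)
  | 0, _, _ => Commute.one_left _
  | N + 1, k, h => by
    rw [Gs]
    exact (Gs_commute hc τ t N k (by omega)).mul_left (hc _ _ _ _ (by omega))

theorem Fs_mul_Gs (hc : ∀ n n' t t', n ≠ n' → Commute (ε n t) (ε n' t'))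
    (h0 : ∀ n (t t' : ℕ), (t + 2 ≤ t' ∨ t' + 2 ≤ t) → ε n t * ε n t' = 0) (τ : ℕ → ℕ) :
    ∀ (N : ℕ) (v : ℤ), (N : ℤ) < |v - ∑ k ∈ Finset.range N, (τ k : ℤ)| →
      Fs ε m N v * Gs ε τ N = 0
  | 0, v, h => by
    rw [Fs, Gs]
    split_ifs with h1
    · subst h1; simp at h
    · simp
  | N + 1, v, h => by
    rw [Fs, Gs, Finset.sum_mul]
    refine Finset.sum_eq_zero fun t _ => ?_
    have h1 : Fs ε m N (v - t) * ε N t * (Gs ε τ N * ε N (τ N))
        = (Fs ε m N (v - t) * Gs ε τ N) * (ε N t * ε N (τ N)) := by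
      have := (Gs_commute hc τ t N N le_rfl).eq
      calc _ = Fs ε m N (v - t) * (ε N t * Gs ε τ N) * ε N (τ N) := by noncomm_ring
        _ = _ := by rw [← this]; noncomm_ring
    rw [h1]
    by_cases hd : t + 2 ≤ τ N ∨ τ N + 2 ≤ t
    · rw [h0 N t (τ N) hd, mul_zero]
    · rw [Fs_mul_Gs hc h0 τ N, zero_mul]
      push Not at hd
      push_cast at h
      rw [Finset.sum_range_succ] at h
      set S := ∑ k ∈ Finset.range N, (τ k : ℤ)
      have h3 : |v - (S + τ N)| ≤ |v - t - S| + 1 := by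
        have : v - (S + τ N) = (v - t - S) + ((t : ℤ) - τ N) := by ring
        rw [this]
        refine (abs_add_le _ _).trans ?_
        gcongr
        rw [abs_le]; constructor <;> omega
      omega

open Classical in
/-- sum of the pieces with index in `U` -/
noncomputable def Us (ε : ℕ → ℕ → E) (m N : ℕ) (U : Set ℤ) : E :=
  ∑ v ∈ (Finset.Icc 0 ((m : ℤ) * N)).filter (fun v => v ∈ U), Fs ε m N v

theorem Us_mul (hc : ∀ n n' t t', n ≠ n' → Commute (ε n t) (ε n' t'))
    (h0 : ∀ n (t t' : ℕ), (t + 2 ≤ t' ∨ t' + 2 ≤ t) → ε n t * ε n t' = 0) {N : ℕ} {U V : Set ℤ}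
    (hUV : ∀ v ∈ U, ∀ w ∈ V, (N : ℤ) < |v - w|) : Us ε m N U * Us ε m N V = 0 := by
  classical
  rw [Us, Us, Finset.sum_mul_sum]
  refine Finset.sum_eq_zero fun v hv => Finset.sum_eq_zero fun w hw => ?_
  exact Fs_mul hc h0 N v w (hUV v (Finset.mem_filter.1 hv).2 w (Finset.mem_filter.1 hw).2)

theorem Us_mul_Gs (hc : ∀ n n' t t', n ≠ n' → Commute (ε n t) (ε n' t'))
    (h0 : ∀ n (t t' : ℕ), (t + 2 ≤ t' ∨ t' + 2 ≤ t) → ε n t * ε n t' = 0)
    (h1 : ∀ n, ∑ t ∈ Finset.range (m + 1), ε n t = 1) {N : ℕ} {U : Set ℤ} (τ : ℕ → ℕ)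
    (hU : ∀ v : ℤ, |v - ∑ k ∈ Finset.range N, (τ k : ℤ)| ≤ N → v ∈ U) :
    Us ε m N U * Gs ε τ N = Gs ε τ N := by
  classical
  have h2 : Us ε m N U * Gs ε τ N
      = ∑ v ∈ Finset.Icc 0 ((m : ℤ) * N), Fs ε m N v * Gs ε τ N := by
    rw [Us, Finset.sum_mul]
    refine Finset.sum_subset (Finset.filter_subset _ _) fun v hv hv' => ?_
    refine Fs_mul_Gs hc h0 τ N v ?_
    by_contra h3
    push Not at h3
    exact hv' (Finset.mem_filter.2 ⟨hv, hU v h3⟩)
  rw [h2, ← Finset.sum_mul, Fs_sum h1 N _ (Finset.Subset.refl _), one_mul]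

/-- the discrete intermediate value step -/
theorem exists_path {N m : ℕ} (hN : 0 < N) (hm : m ≤ N) (i j : ℕ → ℕ)
    (hi : ∀ k, i k ≤ m) (hj : ∀ k, j k ≤ m) (hij : ∀ k, i k + 10 ≤ j k ∨ j k + 10 ≤ i k)
    (r : ℤ) : ∃ τ : ℕ → ℕ, (∀ k, τ k = i k ∨ τ k = j k) ∧ ∃ l : ℤ,
      (10 * l + r) * N ≤ ∑ k ∈ Finset.range N, (τ k : ℤ) ∧
        ∑ k ∈ Finset.range N, (τ k : ℤ) ≤ (10 * l + r + 1) * N := by
  classical
  let T : ℕ → ℕ → ℕ := fun R k => if k < R then max (i k) (j k) else min (i k) (j k)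
  have hT : ∀ R k, T R k = i k ∨ T R k = j k := by
    intro R k
    simp only [T]
    split_ifs
    · exact (le_total (i k) (j k)).elim (fun h => Or.inr (max_eq_right h))
        (fun h => Or.inl (max_eq_left h))
    · exact (le_total (i k) (j k)).elim (fun h => Or.inl (min_eq_left h))
        (fun h => Or.inr (min_eq_right h))
  let Sg : ℕ → ℤ := fun R => ∑ k ∈ Finset.range N, (T R k : ℤ)
  have hstep : ∀ R, Sg (R + 1) ≤ Sg R + m := by
    intro R
    by_cases hR : R < N
    · have h1 : Sg (R + 1) - Sg R = (T (R + 1) R : ℤ) - T R R := by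
        simp only [Sg]
        rw [← Finset.sum_sub_distrib]
        rw [Finset.sum_eq_single_of_mem R (Finset.mem_range.2 hR)]
        intro k _ hk
        have : T (R + 1) k = T R k := by
          simp only [T]
          rcases lt_trichotomy k R with h | h | h
          · rw [if_pos (by omega), if_pos h]
          · exact absurd h hk
          · rw [if_neg (by omega), if_neg (by omega)]
        rw [this, sub_self]
      have h2 : (T (R + 1) R : ℤ) ≤ m := by
        rcases hT (R + 1) R with h | h <;> rw [h] <;> [exact_mod_cast hi R; exact_mod_cast hj R]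
      have h3 : (0 : ℤ) ≤ T R R := by positivity
      omega
    · have h1 : Sg (R + 1) = Sg R := by
        simp only [Sg]
        refine Finset.sum_congr rfl fun k hk => ?_
        have := Finset.mem_range.1 hk
        have : T (R + 1) k = T R k := by
          simp only [T]
          rw [if_pos (by omega), if_pos (by omega)]
        rw [this]
      rw [h1]; simp
  have hend : Sg 0 + 10 * N ≤ Sg N := by
    have : ∑ k ∈ Finset.range N, ((T 0 k : ℤ) + 10) ≤ Sg N := by
      simp only [Sg]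
      refine Finset.sum_le_sum fun k hk => ?_
      have hk' := Finset.mem_range.1 hk
      have e1 : T 0 k = min (i k) (j k) := by simp [T]
      have e2 : T N k = max (i k) (j k) := by simp [T, hk']
      rw [e1, e2]
      have := hij k
      push_cast
      omega
    rw [Finset.sum_add_distrib] at this
    simpa [Sg, mul_comm] using this
  -- choose `l` with `Sg 0 ≤ (10 l + r) N < Sg 0 + 10 N`
  have hN' : (0 : ℤ) < 10 * N := by positivity
  let l : ℤ := -((r * N - Sg 0) / (10 * N))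
  have hl1 : Sg 0 ≤ (10 * l + r) * N ∧ (10 * l + r) * N < Sg 0 + 10 * N := by
    have e1 := Int.emod_add_mul_ediv (r * N - Sg 0) (10 * N)
    have e2 := Int.emod_nonneg (r * N - Sg 0) hN'.ne'
    have e3 := Int.emod_lt_of_pos (r * N - Sg 0) hN'
    have e4 : (10 * l + r) * N = r * N - 10 * N * ((r * N - Sg 0) / (10 * N)) := by
      simp only [l]; ring
    rw [e4]
    constructor <;> linarith
  have hex : ∃ R, (10 * l + r) * N ≤ Sg R := ⟨N, by linarith [hl1.2]⟩
  let R := Nat.find hex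
  have hR : (10 * l + r) * N ≤ Sg R := Nat.find_spec hex
  refine ⟨T R, hT R, l, hR, ?_⟩
  change Sg R ≤ _
  have hNm : (m : ℤ) ≤ N := by exact_mod_cast hm
  rcases Nat.eq_zero_or_pos R with h0 | h0
  · rw [h0]
    have : (0 : ℤ) ≤ N := by positivity
    nlinarith [hl1.1]
  · have h1 : Sg (R - 1) < (10 * l + r) * N := by
      have := Nat.find_min hex (m := R - 1) (by omega)
      push Not at this
      exact this
    have h2 := hstep (R - 1)
    rw [Nat.sub_add_cancel h0] at h2
    nlinarith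

end partition

section labels

variable {E : Type u} [Ring E] [StarRing E] [Algebra ℂ E] [StarModule ℂ E]

theorem labels (hcp : HasCopies E) {m : ℕ} {e : ℕ → E}
    (hem : ∀ i, m < i → e i = 0) (hsum : ∑ i ∈ Finset.range (m + 1), e i = 1)
    (he0 : ∀ i j, (i + 2 ≤ j ∨ j + 2 ≤ i) → e i * e j = 0)
    (hg : GenOne {z : E | ∃ i j q, (i + 10 ≤ j ∨ j + 10 ≤ i) ∧ z = e i * q * e j}) :
    ∃ f₁ f₂ : E, f₁ * f₂ = 0 ∧ f₂ * f₁ = 0 ∧ GenOne {f₁ * f₁} ∧ GenOne {f₂ * f₂} := by
  classical
  obtain ⟨n, a, s, b, hs, h1⟩ := hg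
  choose i j q hij hq using hs
  by_cases htriv : (1 : E) = 0
  · refine ⟨0, 0, by simp, by simp, ?_, ?_⟩ <;>
    exact ⟨0, Fin.elim0, Fin.elim0, Fin.elim0, fun i => i.elim0, by simp [htriv]⟩
  set S : Set E := Set.range a ∪ Set.range b ∪ Set.range q ∪ Set.range (fun k : Fin (m + 1) => e k)
    with hS
  have hSf : S.Finite :=
    (((Set.finite_range a).union (Set.finite_range b)).union (Set.finite_range q)).union
      (Set.finite_range _)
  obtain ⟨ρ, hρ⟩ := hcp S hSf
  have hsub : S ⊆ (StarAlgebra.adjoin ℂ S : Set E) := StarAlgebra.subset_adjoin ℂ S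
  have heD : ∀ k, e k ∈ StarAlgebra.adjoin ℂ S := by
    intro k
    by_cases hk : k < m + 1
    · exact hsub (Or.inr ⟨⟨k, hk⟩, rfl⟩)
    · rw [hem k (by omega)]
      exact zero_mem _
  let e' : ℕ → StarAlgebra.adjoin ℂ S := fun k => ⟨e k, heD k⟩
  let A' : Fin n → StarAlgebra.adjoin ℂ S := fun i => ⟨a i, hsub (Or.inl (Or.inl (Or.inl ⟨i, rfl⟩)))⟩
  let B' : Fin n → StarAlgebra.adjoin ℂ S := fun i => ⟨b i, hsub (Or.inl (Or.inl (Or.inr ⟨i, rfl⟩)))⟩
  let Q' : Fin n → StarAlgebra.adjoin ℂ S := fun i => ⟨q i, hsub (Or.inl (Or.inr ⟨i, rfl⟩))⟩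
  let S' : Fin n → StarAlgebra.adjoin ℂ S := fun l => e' (i l) * Q' l * e' (j l)
  have hone : ∑ l, A' l * S' l * B' l = 1 := by
    apply Subtype.ext
    push_cast
    rw [← h1]
    exact Finset.sum_congr rfl fun l _ => by rw [hq l]; rfl
  have hsum' : ∑ t ∈ Finset.range (m + 1), e' t = 1 := by
    apply Subtype.ext
    push_cast
    exact hsum
  have he0' : ∀ i j, (i + 2 ≤ j ∨ j + 2 ≤ i) → e' i * e' j = 0 := fun i j h =>
    Subtype.ext (he0 i j h)
  let ε : ℕ → ℕ → E := fun n t => ρ n (e' t)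
  have hc : ∀ n n' t t', n ≠ n' → Commute (ε n t) (ε n' t') := fun n n' t t' h => hρ n n' h _ _
  have h0 : ∀ n (t t' : ℕ), (t + 2 ≤ t' ∨ t' + 2 ≤ t) → ε n t * ε n t' = 0 := by
    intro n t t' h
    simp only [ε]
    rw [← map_mul, he0' t t' h, map_zero]
  have h1' : ∀ n, ∑ t ∈ Finset.range (m + 1), ε n t = 1 := by
    intro n
    simp only [ε]
    rw [← map_sum, hsum', map_one]
  let N : ℕ := m + 1
  have hN : 0 < N := Nat.succ_pos m
  let U : ℤ → Set ℤ := fun r => {v | ∃ l : ℤ, (10 * l + r - 1) * N ≤ v ∧ v ≤ (10 * l + r + 2) * N}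
  let f : ℤ → E := fun r => Us ε m N (U r)
  have hdis : ∀ v ∈ U 1, ∀ w ∈ U 6, (N : ℤ) < |v - w| := by
    rintro v ⟨l, hl1, hl2⟩ w ⟨l', hl1', hl2'⟩
    have hNpos : (0 : ℤ) < N := by exact_mod_cast hN
    rcases le_or_gt l l' with h | h
    · have : (10 * l + 1 + 2) * (N : ℤ) + 2 * N ≤ (10 * l' + 6 - 1) * N := by nlinarith
      rw [abs_sub_comm, lt_abs]; left; linarith
    · have h' : l' + 1 ≤ l := h
      have : (10 * l' + 6 + 2) * (N : ℤ) + 2 * N ≤ (10 * l + 1 - 1) * N := by nlinarith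
      rw [lt_abs]; left; linarith
  have hdis' : ∀ v ∈ U 6, ∀ w ∈ U 1, (N : ℤ) < |v - w| := fun v hv w hw => by
    rw [abs_sub_comm]; exact hdis w hw v hv
  have hfull : ∀ r, GenOne {f r * f r} := by
    intro r
    refine genOne_of_hom fun Q _ π hπ => ?_
    have hπ' : π (f r * f r) = 0 := hπ _ rfl
    let φ : ℕ → StarAlgebra.adjoin ℂ S →+* Q := fun k =>
      π.comp (ρ k : StarAlgebra.adjoin ℂ S →+* E)
    have hφ : ∀ i j, i ≠ j → ∀ x y, Commute (φ i x) (φ j y) := fun i j h x y =>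
      (hρ i j h x y).map π
    refine expand hφ A' S' B' hone N 1 (fun _ _ _ => Commute.one_right _) fun l => ?_
    -- for the trivial indices
    by_cases hbad : ∃ k < N, m < i (l k) ∨ m < j (l k)
    · obtain ⟨k, hk, hk'⟩ := hbad
      have hSk : S' (l k) = 0 := by
        apply Subtype.ext
        rcases hk' with h | h
        · change e (i (l k)) * q (l k) * e (j (l k)) = 0
          rw [hem _ h]; simp
        · change e (i (l k)) * q (l k) * e (j (l k)) = 0
          rw [hem _ h]; simp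
      have : ∀ N', k < N' → prodN φ (fun k => S' (l k)) N' = 0 := by
        intro N'
        induction N' with
        | zero => intro h; omega
        | succ N' ih =>
          intro h
          rw [prodN]
          rcases Nat.lt_succ_iff_lt_or_eq.1 h with h | h
          · rw [ih h, zero_mul]
          · subst h
            rw [hSk, map_zero, mul_zero]
      rw [this N hk, zero_mul]
    · push Not at hbad
      -- modify outside `k < N`
      let i' : ℕ → ℕ := fun k => if k < N then i (l k) else min (i (l 0)) (j (l 0))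
      let i'' : ℕ → ℕ := fun k => if k < N then i (l k) else i (l 0)
      let j'' : ℕ → ℕ := fun k => if k < N then j (l k) else j (l 0)
      obtain ⟨τ, hτ, L, hL1, hL2⟩ := exists_path (N := N) (m := m) hN (Nat.le_succ m) i'' j''
        (fun k => by simp only [i'']; split_ifs with h; exacts [(hbad k h).1, (hbad 0 hN).1])
        (fun k => by simp only [j'']; split_ifs with h; exacts [(hbad k h).2, (hbad 0 hN).2])
        (fun k => by simp only [i'', j'']; split_ifs with h; exacts [hij _, hij _]) r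
      have hG : f r * Gs ε τ N = Gs ε τ N := by
        refine Us_mul_Gs hc h0 h1' τ fun v hv => ⟨L, ?_, ?_⟩
        · rw [abs_le] at hv; nlinarith [hv.1]
        · rw [abs_le] at hv; nlinarith [hv.2]
      have hG2 : π (Gs ε τ N) = 0 := by
        rw [← hG, ← hG, ← mul_assoc, map_mul, hπ', zero_mul]
      have hGφ : ∀ N', π (Gs ε τ N') = prodN φ (fun k => e' (τ k)) N' := by
        intro N'
        induction N' with
        | zero => simp [Gs, prodN]
        | succ N' ih => rw [Gs, prodN, map_mul, ih]; rfl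
      rw [hGφ] at hG2
      let u : ℕ → StarAlgebra.adjoin ℂ S := fun k =>
        if τ k = i'' k then 1 else e' (i (l k)) * Q' (l k)
      let w : ℕ → StarAlgebra.adjoin ℂ S := fun k =>
        if τ k = i'' k then Q' (l k) * e' (j (l k)) else 1
      have hfac : ∀ k < N, S' (l k) = u k * e' (τ k) * w k := by
        intro k hk
        by_cases h : τ k = i'' k
        · simp only [u, w, if_pos h, S']
          rw [h]; simp only [i'', if_pos hk]; noncomm_ring
        · have h' := (hτ k).resolve_left h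
          simp only [u, w, if_neg h, S']
          rw [h']; simp only [j'', if_pos hk]; noncomm_ring
      rw [prodN_congr φ N hfac]
      exact extract hφ u (fun k => e' (τ k)) w N 1 (fun _ _ _ => Commute.one_right _)
        (by rw [hG2, zero_mul])
  exact ⟨f 1, f 6, Us_mul hc h0 hdis, Us_mul hc h0 hdis', hfull 1, hfull 6⟩

theorem nil_merge (hcp : HasCopies E) {f₁ f₂ : E} (h12 : f₁ * f₂ = 0) (h21 : f₂ * f₁ = 0)
    (hf1 : GenOne {f₁ * f₁}) (hf2 : GenOne {f₂ * f₂}) {k : ℕ} (z : Fin (k + 2) → E)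
    (hz : ∀ i, z i * z i = 0) (hg : GenOne (Set.range z)) :
    ∃ z' : Fin (k + 1) → E, (∀ i, z' i * z' i = 0) ∧ GenOne (Set.range z') := by
  classical
  obtain ⟨n1, a1, s1, b1, hs1, h1⟩ := hf1
  obtain ⟨n2, a2, s2, b2, hs2, h2⟩ := hf2
  obtain ⟨n, a, s, b, hs, h⟩ := hg
  set S : Set E := Set.range z ∪ {f₁, f₂} ∪ Set.range a1 ∪ Set.range b1 ∪ Set.range a2 ∪
    Set.range b2 ∪ Set.range a ∪ Set.range b with hS
  have hSf : S.Finite := by
    refine Set.Finite.union (Set.Finite.union (Set.Finite.union (Set.Finite.union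
      (Set.Finite.union (Set.Finite.union (Set.Finite.union ?_ ?_) ?_) ?_) ?_) ?_) ?_) ?_
    all_goals first | exact Set.finite_range _ | exact Set.toFinite _
  obtain ⟨ρ, hρ⟩ := hcp S hSf
  have hsub : S ⊆ (StarAlgebra.adjoin ℂ S : Set E) := StarAlgebra.subset_adjoin ℂ S
  let Z : Fin (k + 2) → StarAlgebra.adjoin ℂ S := fun i => ⟨z i, hsub (by simp [hS])⟩
  let F1 : StarAlgebra.adjoin ℂ S := ⟨f₁, hsub (by simp [hS])⟩
  let F2 : StarAlgebra.adjoin ℂ S := ⟨f₂, hsub (by simp [hS])⟩
  let A1 : Fin n1 → StarAlgebra.adjoin ℂ S := fun i => ⟨a1 i, hsub (by simp [hS])⟩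
  let B1 : Fin n1 → StarAlgebra.adjoin ℂ S := fun i => ⟨b1 i, hsub (by simp [hS])⟩
  let A2 : Fin n2 → StarAlgebra.adjoin ℂ S := fun i => ⟨a2 i, hsub (by simp [hS])⟩
  let B2 : Fin n2 → StarAlgebra.adjoin ℂ S := fun i => ⟨b2 i, hsub (by simp [hS])⟩
  let A : Fin n → StarAlgebra.adjoin ℂ S := fun i => ⟨a i, hsub (by simp [hS])⟩
  let B : Fin n → StarAlgebra.adjoin ℂ S := fun i => ⟨b i, hsub (by simp [hS])⟩
  have e1 : ∑ i, A1 i * (F1 * F1) * B1 i = 1 := by
    apply Subtype.ext
    push_cast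
    rw [← h1]
    exact Finset.sum_congr rfl fun i _ => by rw [Set.mem_singleton_iff.1 (hs1 i)]
  have e2 : ∑ i, A2 i * (F2 * F2) * B2 i = 1 := by
    apply Subtype.ext
    push_cast
    rw [← h2]
    exact Finset.sum_congr rfl fun i _ => by rw [Set.mem_singleton_iff.1 (hs2 i)]
  choose ix hix using hs
  have e3 : ∑ i, A i * Z (ix i) * B i = 1 := by
    apply Subtype.ext
    push_cast
    rw [← h]
    exact Finset.sum_congr rfl fun i _ => by rw [← hix i]
  have hZ : ∀ i, Z i * Z i = 0 := fun i => Subtype.ext (hz i)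
  have hF12 : F1 * F2 = 0 := Subtype.ext h12
  have hF21 : F2 * F1 = 0 := Subtype.ext h21
  have hc : ∀ x y, Commute (ρ 0 x) (ρ 1 y) := hρ 0 1 (by norm_num)
  let z' : Fin (k + 1) → E := Fin.cons (ρ 0 (Z 0) * ρ 1 F1 + ρ 0 (Z 1) * ρ 1 F2)
    fun i => ρ 0 (Z i.succ.succ)
  refine ⟨z', ?_, ?_⟩
  · intro i
    refine Fin.cases ?_ (fun i => ?_) i
    · simp only [z', Fin.cons_zero]
      have c1 : ∀ x y x' y', ρ 0 x * ρ 1 y * (ρ 0 x' * ρ 1 y') = ρ 0 (x * x') * ρ 1 (y * y') := by
        intro x y x' y'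
        rw [map_mul, map_mul]
        calc _ = ρ 0 x * (ρ 1 y * ρ 0 x') * ρ 1 y' := by noncomm_ring
          _ = _ := by rw [← (hc x' y).eq]; noncomm_ring
      rw [mul_add, add_mul, add_mul, c1, c1, c1, c1, hZ, hZ, hF12, hF21]
      simp
    · simp only [z', Fin.cons_succ]
      rw [← map_mul, hZ, map_zero]
  · refine genOne_of_hom fun Q _ π hπ => ?_
    let φ : StarAlgebra.adjoin ℂ S →+* Q := π.comp (ρ 0 : StarAlgebra.adjoin ℂ S →+* E)
    let ψ : StarAlgebra.adjoin ℂ S →+* Q := π.comp (ρ 1 : StarAlgebra.adjoin ℂ S →+* E)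
    have hφψ : ∀ x y, Commute (φ x) (ψ y) := fun x y => (hc x y).map π
    have k0 : φ (Z 0) * ψ F1 + φ (Z 1) * ψ F2 = 0 := by
      have := hπ _ ⟨0, rfl⟩
      simp only [z', Fin.cons_zero] at this
      rw [map_add, map_mul, map_mul] at this
      exact this
    have ks : ∀ i : Fin k, φ (Z i.succ.succ) = 0 := fun i => by
      have := hπ _ ⟨i.succ, rfl⟩
      simp only [z', Fin.cons_succ] at this
      exact this
    have k1 : φ (Z 0) = 0 := by
      have e4 : φ (Z 0) * ψ (F1 * F1) = 0 := by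
        have := congrArg (fun t => t * ψ F1) k0
        simp only [add_mul, zero_mul, mul_assoc, ← map_mul, hF21, map_zero, mul_zero,
          add_zero] at this
        exact this
      calc φ (Z 0) = φ (Z 0) * ψ (∑ i, A1 i * (F1 * F1) * B1 i) := by rw [e1, map_one, mul_one]
        _ = ∑ i, ψ (A1 i) * (φ (Z 0) * ψ (F1 * F1)) * ψ (B1 i) := by
          rw [map_sum, Finset.mul_sum]
          refine Finset.sum_congr rfl fun i _ => ?_
          rw [map_mul, map_mul ψ (A1 i)]
          calc _ = (φ (Z 0) * ψ (A1 i)) * ψ (F1 * F1) * ψ (B1 i) := by noncomm_ring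
            _ = _ := by rw [(hφψ _ _).eq]; noncomm_ring
        _ = 0 := by rw [e4]; simp
    have k2 : φ (Z 1) = 0 := by
      rw [k1, zero_mul, zero_add] at k0
      have e4 : φ (Z 1) * ψ (F2 * F2) = 0 := by
        rw [map_mul, ← mul_assoc, k0, zero_mul]
      calc φ (Z 1) = φ (Z 1) * ψ (∑ i, A2 i * (F2 * F2) * B2 i) := by rw [e2, map_one, mul_one]
        _ = ∑ i, ψ (A2 i) * (φ (Z 1) * ψ (F2 * F2)) * ψ (B2 i) := by
          rw [map_sum, Finset.mul_sum]
          refine Finset.sum_congr rfl fun i _ => ?_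
          rw [map_mul, map_mul ψ (A2 i)]
          calc _ = (φ (Z 1) * ψ (A2 i)) * ψ (F2 * F2) * ψ (B2 i) := by noncomm_ring
            _ = _ := by rw [(hφψ _ _).eq]; noncomm_ring
        _ = 0 := by rw [e4]; simp
    have kall : ∀ i, φ (Z i) = 0 := by
      intro i
      refine Fin.cases k1 (fun i => ?_) i
      refine Fin.cases k2 (fun i => ks i) i
    rw [← map_one φ, ← e3, map_sum]
    exact Finset.sum_eq_zero fun i _ => by rw [map_mul, map_mul, kall]; simp

theorem nil_all (hcp : HasCopies E) {f₁ f₂ : E} (h12 : f₁ * f₂ = 0) (h21 : f₂ * f₁ = 0)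
    (hf1 : GenOne {f₁ * f₁}) (hf2 : GenOne {f₂ * f₂}) : ∀ (k : ℕ) (z : Fin (k + 1) → E),
    (∀ i, z i * z i = 0) → GenOne (Set.range z) → ∃ z : E, z * z = 0 ∧ GenOne {z} := by
  intro k
  induction k with
  | zero =>
    intro z hz hg
    refine ⟨z 0, hz 0, ?_⟩
    have : Set.range z = {z 0} := by
      ext x; constructor
      · rintro ⟨i, rfl⟩
        have : i = 0 := Fin.ext (by omega)
        rw [this]; rfl
      · rintro rfl; exact ⟨0, rfl⟩
    rwa [this] at hg
  | succ k ih =>
    intro z hz hg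
    obtain ⟨z', hz', hg'⟩ := nil_merge hcp h12 h21 hf1 hf2 z hz hg
    exact ih z' hz' hg'

/-- **Stage 2.** -/
theorem stage2 (hcp : HasCopies E) {m : ℕ} {e : ℕ → E}
    (hem : ∀ i, m < i → e i = 0) (hsum : ∑ i ∈ Finset.range (m + 1), e i = 1)
    (he0 : ∀ i j, (i + 2 ≤ j ∨ j + 2 ≤ i) → e i * e j = 0)
    (hg : GenOne {z : E | ∃ i j q, (i + 10 ≤ j ∨ j + 10 ≤ i) ∧ z = e i * q * e j}) :
    ∃ z : E, z * z = 0 ∧ GenOne {z} := by
  obtain ⟨f₁, f₂, h12, h21, hf1, hf2⟩ := labels hcp hem hsum he0 hg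
  obtain ⟨n, a, s, b, hs, h1⟩ := hg
  -- add a zero letter in front
  let z : Fin (n + 1) → E := Fin.cons 0 s
  refine nil_all hcp h12 h21 hf1 hf2 n z ?_ ?_
  · intro i
    refine Fin.cases ?_ (fun i => ?_) i
    · simp [z]
    · simp only [z, Fin.cons_succ]
      obtain ⟨i1, j1, q1, hij, hq⟩ := hs i
      rw [hq]
      have : e i1 * q1 * e j1 * (e i1 * q1 * e j1) = e i1 * q1 * (e j1 * e i1) * q1 * e j1 := by
        noncomm_ring
      rw [this, he0 j1 i1 (by omega)]
      simp
  · exact ⟨n, a, s, b, fun i => ⟨i.succ, by simp [z]⟩, h1⟩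

end labels

end Vale.Agent.P101
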