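import Vale.Agent.P101.Stage0
import Vale.Agent.P101.Stage1
import Vale.Agent.P101.Stage2
import Vale.Agent.P101.Absorption
import Vale.Agent.P101.LemmaF
import Vale.Agent.P101.Absorb
import Vale.Agent.P101.DimDropHom
import Vale.Agent.P101.Characters
import Vale.Agent.P101.Copies

/-! The core theorem: a unital C*-algebra with commuting copies and without characters admits
elements satisfying the relations of the dimension drop algebra `I(2,3)`. -/

namespace Vale.Agent.P101

universe u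

/-- from a C*-algebra without characters which has commuting copies: a full square-zero element. -/
theorem exists_full_nilpotent {E : Type u} [CStarAlgebra E] (hcp : HasCopies E)
    (h : IsEmpty (E →⋆ₐ[ℂ] ℂ)) : ∃ z : E, z * z = 0 ∧ GenOne {z} := by
  obtain ⟨H, hH, hg⟩ := stage0 hcp (genOne_commutators h)
  obtain ⟨m, e, -, hem, hsum, he0, hg'⟩ := stage1 H hH hg 10
  exact stage2 hcp hem hsum he0 hg'

theorem exists_relations {E : Type u} [CStarAlgebra E] (hcp : HasCopies E)
    (h : IsEmpty (E →⋆ₐ[ℂ] ℂ)) : ∃ Z s : E, Z * Z = 0 ∧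
      Z * star Z + star Z * Z + star s * s = 1 ∧ Z * star Z * s = s := by
  letI := CStarAlgebra.spectralOrder E
  haveI := CStarAlgebra.spectralOrderedRing E
  obtain ⟨z, hz, hg⟩ := exists_full_nilpotent hcp h
  obtain ⟨K, α, β, V, h1, h2, h3, h4, h5, h6, h7, h8⟩ := lemmaF z hz hg
  obtain ⟨Z, x, c, hZ, hsum, hc, hcx, hx⟩ := glue_absorb hcp α β V h1 h2 h3 h4 h5 h6 h7 h8
  obtain ⟨s, hs, hs'⟩ := absorb (Z * star Z) c x hc hcx hx
  exact ⟨Z, s, hZ, by rw [hs, hsum], hs'⟩

/-- **Core theorem.** -/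
theorem exists_dimDrop23_hom {E : Type u} [CStarAlgebra E] (hcp : HasCopies E)
    (h : IsEmpty (E →⋆ₐ[ℂ] ℂ)) : Nonempty (dimDrop23 →⋆ₐ[ℂ] E) := by
  obtain ⟨Z, s, h1, h2, h3⟩ := exists_relations hcp h
  exact dimDropHom Z s h1 h2 h3

end Vale.Agent.P101
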