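import Mathlib

/-!
# The sequence algebra `A_ω` and the central sequence algebra `F_ω(A)`

`ℓ^∞(ℕ, A)` is Mathlib's C⋆-algebra `ℕ →ᵇ A` of bounded functions on the discrete space `ℕ`
(pointwise operations, supremum norm).
-/

open Filter Topology BoundedContinuousFunction

noncomputable section

namespace Vale.Agent.P101

/-- The closed two-sided ideal `{(a_n) : lim_{n→ω} ‖a_n‖ = 0}` of `ℓ^∞(ℕ, A)`. -/
def nullIdeal (A : Type*) [CStarAlgebra A] (ω : Ultrafilter ℕ) : Ideal (ℕ →ᵇ A) where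
  carrier := {a | Tendsto (fun n => ‖a n‖) ω (𝓝 0)}
  add_mem' := by
    intro a b ha hb
    refine squeeze_zero (fun n => norm_nonneg _) (fun n => ?_)
      (show Tendsto (fun n => ‖a n‖ + ‖b n‖) ω (𝓝 0) by
        simpa using Tendsto.add (show Tendsto (fun n => ‖a n‖) ω (𝓝 0) from ha)
          (show Tendsto (fun n => ‖b n‖) ω (𝓝 0) from hb))
    simpa using norm_add_le (a n) (b n)
  zero_mem' := by
    change Tendsto (fun n => ‖(0 : ℕ →ᵇ A) n‖) ω (𝓝 0)
    simp
  smul_mem' := by
    intro c a ha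
    refine squeeze_zero (fun n => norm_nonneg _) (fun n => ?_)
      (show Tendsto (fun n => ‖c‖ * ‖a n‖) ω (𝓝 0) by
        simpa using Tendsto.const_mul ‖c‖ (show Tendsto (fun n => ‖a n‖) ω (𝓝 0) from ha))
    simp only [smul_eq_mul, BoundedContinuousFunction.coe_mul, Pi.mul_apply]
    exact (norm_mul_le _ _).trans (mul_le_mul_of_nonneg_right (c.norm_coe_le_norm n) (norm_nonneg _))

theorem mem_nullIdeal {A : Type*} [CStarAlgebra A] {ω : Ultrafilter ℕ} {a : ℕ →ᵇ A} :
    a ∈ nullIdeal A ω ↔ Tendsto (fun n => ‖a n‖) ω (𝓝 0) := Iff.rfl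

instance nullIdeal.isTwoSided (A : Type*) [CStarAlgebra A] (ω : Ultrafilter ℕ) :
    (nullIdeal A ω).IsTwoSided where
  mul_mem_of_left := by
    intro a c ha
    rw [mem_nullIdeal] at *
    refine squeeze_zero (fun n => norm_nonneg _) (fun n => ?_)
      (show Tendsto (fun n => ‖a n‖ * ‖c‖) ω (𝓝 0) by simpa using ha.mul_const ‖c‖)
    simp only [BoundedContinuousFunction.coe_mul, Pi.mul_apply]
    exact (norm_mul_le _ _).trans (mul_le_mul_of_nonneg_left (c.norm_coe_le_norm n) (norm_nonneg _))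

/-- The sequence algebra `A_ω = ℓ^∞(ℕ, A) / {(a_n) : lim_{n→ω} ‖a_n‖ = 0}`. -/
abbrev SeqAlg (A : Type*) [CStarAlgebra A] (ω : Ultrafilter ℕ) : Type _ :=
  (ℕ →ᵇ A) ⧸ nullIdeal A ω

variable {A : Type*} [CStarAlgebra A] {ω : Ultrafilter ℕ}

/-- The quotient map `ℓ^∞(ℕ, A) → A_ω`, as a ring homomorphism. -/
abbrev cls (ω : Ultrafilter ℕ) : (ℕ →ᵇ A) →+* SeqAlg A ω := Ideal.Quotient.mk (nullIdeal A ω)

theorem cls_eq_cls {a b : ℕ →ᵇ A} : cls ω a = cls ω b ↔ Tendsto (fun n => ‖a n - b n‖) ω (𝓝 0) := by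
  rw [Ideal.Quotient.mk_eq_mk_iff_sub_mem, mem_nullIdeal]
  simp

theorem star_mem_nullIdeal {a : ℕ →ᵇ A} (ha : a ∈ nullIdeal A ω) : star a ∈ nullIdeal A ω := by
  rw [mem_nullIdeal] at *
  simpa using ha

/-- The involution of `A_ω`, induced by the pointwise involution of sequences. -/
instance SeqAlg.instStar : Star (SeqAlg A ω) where
  star := Quotient.map' star (fun a b h => by
    rw [Submodule.quotientRel_def] at *
    rw [← star_sub]
    exact star_mem_nullIdeal h)

theorem star_cls (a : ℕ →ᵇ A) : star (cls ω a) = cls ω (star a) := rfl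

instance SeqAlg.instStarRing : StarRing (SeqAlg A ω) where
  star_involutive := by
    intro x
    obtain ⟨a, rfl⟩ := Ideal.Quotient.mk_surjective x
    rw [star_cls, star_cls, star_star]
  star_mul := by
    intro x y
    obtain ⟨a, rfl⟩ := Ideal.Quotient.mk_surjective x
    obtain ⟨b, rfl⟩ := Ideal.Quotient.mk_surjective y
    rw [← map_mul, star_cls, star_cls, star_cls, star_mul, map_mul]
  star_add := by
    intro x y
    obtain ⟨a, rfl⟩ := Ideal.Quotient.mk_surjective x
    obtain ⟨b, rfl⟩ := Ideal.Quotient.mk_surjective y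
    rw [← map_add, star_cls, star_cls, star_cls, star_add, map_add]

theorem smul_cls (c : ℂ) (a : ℕ →ᵇ A) : c • cls ω a = cls ω (c • a) := rfl

instance SeqAlg.instStarModule : StarModule ℂ (SeqAlg A ω) where
  star_smul := by
    intro c x
    obtain ⟨a, rfl⟩ := Ideal.Quotient.mk_surjective x
    rw [smul_cls, star_cls, star_cls, star_smul, ← smul_cls]

/-- The embedding of `A` in `A_ω` as the constant sequences. -/
def constSeq (A : Type*) [CStarAlgebra A] (ω : Ultrafilter ℕ) : A →⋆ₐ[ℂ] SeqAlg A ω where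
  toFun := fun a => cls ω (BoundedContinuousFunction.const ℕ a)
  map_one' := rfl
  map_mul' := fun _ _ => rfl
  map_zero' := rfl
  map_add' := fun _ _ => rfl
  commutes' := fun _ => rfl
  map_star' := fun _ => rfl

/-- The central sequence algebra `F_ω(A) = A_ω ∩ A'`: the elements of `A_ω` which commute with
(the constant sequences of) all elements of `A`. -/
def centralSeq (A : Type*) [CStarAlgebra A] (ω : Ultrafilter ℕ) : StarSubalgebra ℂ (SeqAlg A ω) :=
  StarSubalgebra.centralizer ℂ (Set.range (constSeq A ω))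

end Vale.Agent.P101
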