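import Vale.Agent.P101.Basic

/-! The two-sided ideal calculus: `GenOne S` holds iff every ring homomorphism killing `S` is
trivial. -/

namespace Vale.Agent.P101

universe u

variable {E : Type u} [Ring E]

/-- finite sums `∑ a s b` with `s ∈ S`. -/
def IsGen (S : Set E) (z : E) : Prop :=
  ∃ (n : ℕ) (a s b : Fin n → E), (∀ i, s i ∈ S) ∧ ∑ i, a i * s i * b i = z

theorem IsGen.zero (S : Set E) : IsGen S 0 :=
  ⟨0, Fin.elim0, Fin.elim0, Fin.elim0, fun i => i.elim0, by simp⟩

theorem IsGen.single {S : Set E} (a : E) {s : E} (hs : s ∈ S) (b : E) : IsGen S (a * s * b) :=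
  ⟨1, fun _ => a, fun _ => s, fun _ => b, fun _ => hs, by simp⟩

theorem IsGen.add {S : Set E} {x y : E} (hx : IsGen S x) (hy : IsGen S y) : IsGen S (x + y) := by
  obtain ⟨n, a, s, b, hs, rfl⟩ := hx
  obtain ⟨m, a', s', b', hs', rfl⟩ := hy
  refine ⟨n + m, Fin.append a a', Fin.append s s', Fin.append b b', ?_, ?_⟩
  · intro i
    refine Fin.addCases (fun j => ?_) (fun j => ?_) i
    · simpa using hs j
    · simpa using hs' j
  · simp [Fin.sum_univ_add]

theorem IsGen.mul_left {S : Set E} {x : E} (hx : IsGen S x) (c : E) : IsGen S (c * x) := by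
  obtain ⟨n, a, s, b, hs, rfl⟩ := hx
  refine ⟨n, fun i => c * a i, s, b, hs, ?_⟩
  rw [Finset.mul_sum]
  exact Finset.sum_congr rfl fun i _ => by noncomm_ring

theorem IsGen.mul_right {S : Set E} {x : E} (hx : IsGen S x) (c : E) : IsGen S (x * c) := by
  obtain ⟨n, a, s, b, hs, rfl⟩ := hx
  refine ⟨n, a, s, fun i => b i * c, hs, ?_⟩
  rw [Finset.sum_mul]
  exact Finset.sum_congr rfl fun i _ => by noncomm_ring

theorem IsGen.neg {S : Set E} {x : E} (hx : IsGen S x) : IsGen S (-x) := by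
  simpa using hx.mul_left (-1)

theorem isGen_of_mem_span {S : Set E} {z : E} (hz : z ∈ TwoSidedIdeal.span S) : IsGen S z := by
  rw [TwoSidedIdeal.mem_span_iff_mem_addSubgroup_closure] at hz
  induction hz using AddSubgroup.closure_induction with
  | mem x hx =>
    obtain ⟨y, hy, b, -, rfl⟩ := hx
    obtain ⟨a, -, s, hs, rfl⟩ := hy
    exact IsGen.single a hs b
  | zero => exact IsGen.zero S
  | add x y _ _ hx hy => exact hx.add hy
  | neg x _ hx => exact hx.neg

/-- The criterion used everywhere. -/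
theorem genOne_of_hom {S : Set E}
    (h : ∀ (Q : Type u) [Ring Q] (π : E →+* Q), (∀ s ∈ S, π s = 0) → (1 : Q) = 0) :
    GenOne S := by
  have h1 := h (TwoSidedIdeal.span S).ringCon.Quotient (TwoSidedIdeal.span S).ringCon.mk' ?_
  · have h2 : (1 : E) ∈ TwoSidedIdeal.span S := by
      rw [TwoSidedIdeal.mem_iff, ← (TwoSidedIdeal.span S).ringCon.eq]
      exact h1
    exact isGen_of_mem_span h2
  · intro s hs
    have h3 : s ∈ TwoSidedIdeal.span S := TwoSidedIdeal.subset_span hs
    rw [TwoSidedIdeal.mem_iff, ← (TwoSidedIdeal.span S).ringCon.eq] at h3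
    exact h3

theorem GenOne.hom {S : Set E} (h : GenOne S) {Q : Type*} [Ring Q] (π : E →+* Q)
    (hπ : ∀ s ∈ S, π s = 0) : (1 : Q) = 0 := by
  obtain ⟨n, a, s, b, hs, h1⟩ := h
  rw [← map_one π, ← h1, map_sum]
  exact Finset.sum_eq_zero fun i _ => by rw [map_mul, map_mul, hπ _ (hs i)]; simp

end Vale.Agent.P101
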