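import Vale.Agent.P101.Stage2

/-! Stage 3: gluing the commuting copies of the data `a, b, v` of Lemma F. -/

namespace Vale.Agent.P101

section prod

variable {Q : Type*} [Ring Q] {D : Type*} [Ring D]

theorem prodN_mul {φ : ℕ → D →+* Q} (hφ : ∀ i j, i ≠ j → ∀ x y, Commute (φ i x) (φ j y))
    (t t' : ℕ → D) : ∀ N, prodN φ t N * prodN φ t' N = prodN φ (fun k => t k * t' k) N
  | 0 => by simp [prodN]
  | N + 1 => by
    rw [prodN, prodN, prodN, ← prodN_mul hφ t t' N, map_mul]
    calc _ = prodN φ t N * (φ N (t N) * prodN φ t' N) * φ N (t' N) := by noncomm_ring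
      _ = _ := by rw [← (prodN_commute hφ t' (t N) N N le_rfl).eq]; noncomm_ring

theorem mul_prodN {φ : ℕ → D →+* Q} (hφ : ∀ i j, i ≠ j → ∀ x y, Commute (φ i x) (φ j y))
    (t : ℕ → D) (d : D) (m : ℕ) :
    ∀ N, m < N → φ m d * prodN φ t N = prodN φ (Function.update t m (d * t m)) N
  | 0, h => by omega
  | N + 1, h => by
    rw [prodN, prodN]
    rcases Nat.lt_succ_iff_lt_or_eq.1 h with h | h
    · rw [← mul_assoc, mul_prodN hφ t d m N h, Function.update_of_ne (by omega)]
    · subst h
      rw [Function.update_self, map_mul]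
      rw [prodN_congr φ (t := Function.update t m (d * t m)) (t' := t) m
        fun k hk => by rw [Function.update_of_ne (by omega)]]
      rw [← mul_assoc, ← (prodN_commute hφ t d m m le_rfl).eq, mul_assoc]

theorem mul_prodN_zero {φ : ℕ → D →+* Q} (hφ : ∀ i j, i ≠ j → ∀ x y, Commute (φ i x) (φ j y))
    {t : ℕ → D} {d : D} {m N : ℕ} (hm : m < N) (h : d * t m = 0) : φ m d * prodN φ t N = 0 := by
  have e : ∀ N, m < N → prodN φ (Function.update t m 0) N = 0 := by
    intro N
    induction N with
    | zero => intro h; omega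
    | succ N ih =>
      intro h
      rw [prodN]
      rcases Nat.lt_succ_iff_lt_or_eq.1 h with h | h
      · rw [ih h, zero_mul]
      · subst h
        rw [Function.update_self, map_zero, mul_zero]
  rw [mul_prodN hφ t d m N hm, h, e N hm]

theorem mul_prodN_self {φ : ℕ → D →+* Q} (hφ : ∀ i j, i ≠ j → ∀ x y, Commute (φ i x) (φ j y))
    {t : ℕ → D} {d : D} {m N : ℕ} (hm : m < N) (h : d * t m = t m) :
    φ m d * prodN φ t N = prodN φ t N := by
  rw [mul_prodN hφ t d m N hm, h, Function.update_eq_self]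

theorem star_prodN [StarRing Q] [StarRing D] {φ : ℕ → D →+* Q}
    (hφ : ∀ i j, i ≠ j → ∀ x y, Commute (φ i x) (φ j y))
    (hs : ∀ n d, φ n (star d) = star (φ n d)) (t : ℕ → D) :
    ∀ N, star (prodN φ t N) = prodN φ (fun k => star (t k)) N
  | 0 => by simp [prodN]
  | N + 1 => by
    rw [prodN, prodN, star_mul, star_prodN hφ hs t N, ← hs,
      (prodN_commute hφ (fun k => star (t k)) (star (t N)) N N le_rfl).eq]

end prod

section glue

variable {E : Type*} [Ring E] [StarRing E] {D : Type*} [Ring D] [StarRing D]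

/-- `γ_n = b_0 ⋯ b_{n-1}` -/
def gam (φ : ℕ → D →+* E) (b : D) (n : ℕ) : E := prodN φ (fun _ => b) n

/-- `Z_n = ∑_{m<n} b_0 ⋯ b_{m-1} a_m` -/
def Zs (φ : ℕ → D →+* E) (a b : D) : ℕ → E
  | 0 => 0
  | n + 1 => Zs φ a b n + gam φ b n * φ n a

variable {φ : ℕ → D →+* E} {a b : D}

theorem gam_succ (n : ℕ) : gam φ b (n + 1) = gam φ b n * φ n b := rfl

theorem gam_comm (hφ : ∀ i j, i ≠ j → ∀ x y, Commute (φ i x) (φ j y)) {n k : ℕ} (h : n ≤ k)
    (d : D) : Commute (gam φ b n) (φ k d) := prodN_commute hφ _ d n k h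

theorem sgam_comm (hφ : ∀ i j, i ≠ j → ∀ x y, Commute (φ i x) (φ j y))
    (hs : ∀ n d, φ n (star d) = star (φ n d)) {n k : ℕ} (h : n ≤ k)
    (d : D) : Commute (star (gam φ b n)) (φ k d) := by
  have := (gam_comm (b := b) hφ h (star d)).star_star
  rwa [← hs, star_star] at this

theorem Zs_comm (hφ : ∀ i j, i ≠ j → ∀ x y, Commute (φ i x) (φ j y)) {k : ℕ} (d : D) :
    ∀ n, n ≤ k → Commute (Zs φ a b n) (φ k d)
  | 0, _ => Commute.zero_left _
  | n + 1, h => by
    rw [Zs]
    exact (Zs_comm hφ d n (by omega)).add_left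
      ((gam_comm hφ (by omega) d).mul_left (hφ _ _ (by omega) _ _))

theorem sZs_comm (hφ : ∀ i j, i ≠ j → ∀ x y, Commute (φ i x) (φ j y))
    (hs : ∀ n d, φ n (star d) = star (φ n d)) {k : ℕ} (d : D) {n : ℕ} (h : n ≤ k) :
    Commute (star (Zs φ a b n)) (φ k d) := by
  have := (Zs_comm (a := a) (b := b) hφ (star d) n h).star_star
  rwa [← hs, star_star] at this

variable (hφ : ∀ i j, i ≠ j → ∀ x y, Commute (φ i x) (φ j y))
  (hs : ∀ n d, φ n (star d) = star (φ n d))
  (haa : a * a = 0) (hab : a * b + b * a = 0) (hsab : star a * b + b * star a = 0)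
  (hbb : star b * b = 1 - (star a * a + a * star a)) (hnb : b * star b = star b * b)

include hφ hs hnb in
theorem gam_normal : ∀ n, gam φ b n * star (gam φ b n) = star (gam φ b n) * gam φ b n := by
  intro n
  rw [gam, star_prodN hφ hs, prodN_mul hφ, prodN_mul hφ]
  simp only [hnb]

include hφ hab in
theorem Zg_anti : ∀ n, Zs φ a b n * gam φ b n + gam φ b n * Zs φ a b n = 0
  | 0 => by simp [Zs]
  | n + 1 => by
    have ih := Zg_anti n
    rw [Zs, gam_succ]
    set Z := Zs φ a b n
    set g := gam φ b n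
    have c1 : φ n a * g = g * φ n a := ((gam_comm hφ le_rfl a).eq).symm
    have c2 : φ n b * Z = Z * φ n b := ((Zs_comm hφ b n le_rfl).eq).symm
    have c3 : φ n b * g = g * φ n b := ((gam_comm hφ le_rfl b).eq).symm
    have c4 : φ n a * φ n b + φ n b * φ n a = 0 := by rw [← map_mul, ← map_mul, ← map_add, hab, map_zero]
    calc (Z + g * φ n a) * (g * φ n b) + g * φ n b * (Z + g * φ n a)
        = Z * g * φ n b + g * (φ n a * g) * φ n b + g * (φ n b * Z) + g * (φ n b * g) * φ n a := by
          noncomm_ring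
      _ = Z * g * φ n b + g * (g * φ n a) * φ n b + g * (Z * φ n b) + g * (g * φ n b) * φ n a := by
          rw [c1, c2, c3]
      _ = (Z * g + g * Z) * φ n b + g * g * (φ n a * φ n b + φ n b * φ n a) := by noncomm_ring
      _ = 0 := by rw [ih, c4]; simp

include hφ hs hsab hnb in
theorem sZg_anti : ∀ n, star (Zs φ a b n) * gam φ b n + gam φ b n * star (Zs φ a b n) = 0
  | 0 => by simp [Zs]
  | n + 1 => by
    have ih := sZg_anti n
    rw [Zs, gam_succ, star_add, star_mul, ← hs]
    have hn := gam_normal hφ hs hnb n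
    set Z := Zs φ a b n
    set g := gam φ b n
    have c1 : φ n (star a) * star g = star g * φ n (star a) := ((sgam_comm hφ hs le_rfl _).eq).symm
    have c1' : φ n (star a) * g = g * φ n (star a) := ((gam_comm hφ le_rfl _).eq).symm
    have c2 : φ n b * star Z = star Z * φ n b := ((sZs_comm hφ hs b le_rfl).eq).symm
    have c3 : φ n b * star g = star g * φ n b := ((sgam_comm hφ hs le_rfl b).eq).symm
    have c4 : φ n (star a) * φ n b + φ n b * φ n (star a) = 0 := by
      rw [← map_mul, ← map_mul, ← map_add, hsab, map_zero]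
    calc (star Z + φ n (star a) * star g) * (g * φ n b)
          + g * φ n b * (star Z + φ n (star a) * star g)
        = star Z * g * φ n b + φ n (star a) * star g * g * φ n b + g * (φ n b * star Z)
          + g * φ n b * (φ n (star a) * star g) := by noncomm_ring
      _ = star Z * g * φ n b + star g * (φ n (star a) * g) * φ n b + g * (star Z * φ n b)
          + g * (φ n b * star g) * φ n (star a) := by
            rw [c1, c2]; noncomm_ring
      _ = star Z * g * φ n b + star g * (g * φ n (star a)) * φ n b + g * (star Z * φ n b)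
          + g * (star g * φ n b) * φ n (star a) := by rw [c1', c3]
      _ = (star Z * g + g * star Z) * φ n b + (star g * g) * φ n (star a) * φ n b
          + (g * star g) * φ n b * φ n (star a) := by noncomm_ring
      _ = (star Z * g + g * star Z) * φ n b
          + (star g * g) * (φ n (star a) * φ n b + φ n b * φ n (star a)) := by
            rw [hn]; noncomm_ring
      _ = 0 := by rw [ih, c4]; simp

include hφ haa hab in
theorem Zs_sq : ∀ n, Zs φ a b n * Zs φ a b n = 0
  | 0 => by simp [Zs]
  | n + 1 => by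
    have ih := Zs_sq n
    have hz := Zg_anti hφ hab n
    rw [Zs]
    set Z := Zs φ a b n
    set g := gam φ b n
    have c1 : φ n a * g = g * φ n a := ((gam_comm hφ le_rfl a).eq).symm
    have c2 : φ n a * Z = Z * φ n a := ((Zs_comm hφ a n le_rfl).eq).symm
    have c4 : φ n a * φ n a = 0 := by rw [← map_mul, haa, map_zero]
    calc (Z + g * φ n a) * (Z + g * φ n a)
        = Z * Z + Z * g * φ n a + g * (φ n a * Z) + g * (φ n a * g) * φ n a := by noncomm_ring
      _ = Z * Z + Z * g * φ n a + g * (Z * φ n a) + g * (g * φ n a) * φ n a := by rw [c1, c2]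
      _ = Z * Z + (Z * g + g * Z) * φ n a + g * g * (φ n a * φ n a) := by noncomm_ring
      _ = 0 := by rw [ih, hz, c4]; simp

include hφ hs hsab hbb hnb in
theorem Zs_sum : ∀ n, Zs φ a b n * star (Zs φ a b n) + star (Zs φ a b n) * Zs φ a b n
    + star (gam φ b n) * gam φ b n = 1
  | 0 => by simp [Zs, gam, prodN]
  | n + 1 => by
    have ih := Zs_sum n
    have hz := sZg_anti hφ hs hsab hnb n
    have hn := gam_normal hφ hs hnb n
    rw [Zs, gam_succ, star_add, star_mul, star_mul, ← hs, ← hs]
    have hz' : Zs φ a b n * star (gam φ b n) + star (gam φ b n) * Zs φ a b n = 0 := by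
      have := congrArg star hz
      simpa [add_comm] using this
    set Z := Zs φ a b n
    set g := gam φ b n
    have c1 : φ n (star a) * star g = star g * φ n (star a) := ((sgam_comm hφ hs le_rfl _).eq).symm
    have c2 : φ n a * star Z = star Z * φ n a := ((sZs_comm hφ hs a le_rfl).eq).symm
    have c3 : φ n (star a) * Z = Z * φ n (star a) := ((Zs_comm hφ _ n le_rfl).eq).symm
    have c5 : φ n a * star g = star g * φ n a := ((sgam_comm hφ hs le_rfl _).eq).symm
    have c6 : φ n (star a) * g = g * φ n (star a) := ((gam_comm hφ le_rfl _).eq).symm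
    have c7 : φ n (star b) * star g = star g * φ n (star b) :=
      ((sgam_comm hφ hs le_rfl _).eq).symm
    have c8 : φ n (star b) * g = g * φ n (star b) := ((gam_comm hφ le_rfl _).eq).symm
    have c4 : φ n (star b) * φ n b + (φ n (star a) * φ n a + φ n a * φ n (star a)) = 1 := by
      rw [← map_mul, ← map_mul, ← map_mul, ← map_add, ← map_add, hbb, sub_add_cancel, map_one]
    calc (Z + g * φ n a) * (star Z + φ n (star a) * star g)
          + (star Z + φ n (star a) * star g) * (Z + g * φ n a)
          + φ n (star b) * star g * (g * φ n b)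
        = Z * star Z + star Z * Z + Z * (φ n (star a) * star g) + g * (φ n a * star Z)
          + g * φ n a * (φ n (star a) * star g) + star Z * g * φ n a
          + (φ n (star a) * star g) * Z + (φ n (star a) * star g) * g * φ n a
          + (φ n (star b) * star g) * g * φ n b := by noncomm_ring
      _ = Z * star Z + star Z * Z + Z * (star g * φ n (star a)) + g * (star Z * φ n a)
          + g * (φ n a * star g) * φ n (star a) + star Z * g * φ n a
          + star g * (φ n (star a) * Z) + star g * (φ n (star a) * g) * φ n a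
          + star g * (φ n (star b) * g) * φ n b := by rw [c1, c2, c7]; noncomm_ring
      _ = Z * star Z + star Z * Z + Z * (star g * φ n (star a)) + g * (star Z * φ n a)
          + g * (star g * φ n a) * φ n (star a) + star Z * g * φ n a
          + star g * (Z * φ n (star a)) + star g * (g * φ n (star a)) * φ n a
          + star g * (g * φ n (star b)) * φ n b := by rw [c3, c5, c6, c8]
      _ = Z * star Z + star Z * Z + (Z * star g + star g * Z) * φ n (star a)
          + (star Z * g + g * star Z) * φ n a + (g * star g) * (φ n a * φ n (star a))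
          + (star g * g) * (φ n (star a) * φ n a) + (star g * g) * (φ n (star b) * φ n b) := by
          noncomm_ring
      _ = Z * star Z + star Z * Z + (star g * g) * (φ n (star b) * φ n b
          + (φ n (star a) * φ n a + φ n a * φ n (star a))) := by
          rw [hz', hz, hn]; noncomm_ring
      _ = 1 := by rw [c4, mul_one, ih]

/-! ### the action on vectors killed by `b_m`, `b_m*` -/

/-- killed by `b_m` and `b_m*` -/
def Kill (φ : ℕ → D →+* E) (b : D) (m : ℕ) (Y : E) : Prop :=
  φ m b * Y = 0 ∧ φ m (star b) * Y = 0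

include hφ in
theorem Kill.mul_left {m p : ℕ} {Y : E} (h : Kill φ b m Y) (hp : p ≠ m) (d : D) :
    Kill φ b m (φ p d * Y) := by
  constructor
  · rw [← mul_assoc, (hφ m p hp.symm b d).eq, mul_assoc, h.1, mul_zero]
  · rw [← mul_assoc, (hφ m p hp.symm (star b) d).eq, mul_assoc, h.2, mul_zero]

include hφ in
theorem gam_kill {m : ℕ} {Y : E} (h : Kill φ b m Y) : ∀ n, m < n → gam φ b n * Y = 0
  | 0, h' => by omega
  | n + 1, h' => by
    rw [gam_succ]
    rcases Nat.lt_succ_iff_lt_or_eq.1 h' with h1 | h1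
    · rw [(gam_comm hφ le_rfl b).eq, mul_assoc, gam_kill h n h1, mul_zero]
    · subst h1
      rw [mul_assoc, h.1, mul_zero]

include hφ hs in
theorem sgam_kill {m : ℕ} {Y : E} (h : Kill φ b m Y) : ∀ n, m < n → star (gam φ b n) * Y = 0
  | 0, h' => by omega
  | n + 1, h' => by
    rw [gam_succ, star_mul, ← hs]
    rcases Nat.lt_succ_iff_lt_or_eq.1 h' with h1 | h1
    · rw [mul_assoc, sgam_kill h n h1, mul_zero]
    · subst h1
      rw [← (sgam_comm hφ hs le_rfl _).eq, mul_assoc, h.2, mul_zero]

include hφ in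
theorem Zs_kill {m : ℕ} {Y : E} (h : Kill φ b m Y) :
    ∀ n, m < n → Zs φ a b n * Y = Zs φ a b (m + 1) * Y
  | 0, h' => by omega
  | n + 1, h' => by
    rcases Nat.lt_succ_iff_lt_or_eq.1 h' with h1 | h1
    · rw [Zs, add_mul, Zs_kill h n h1, (gam_comm hφ le_rfl a).eq, mul_assoc, gam_kill hφ h n h1,
        mul_zero, add_zero]
    · subst h1; rfl

include hφ hs in
theorem sZs_kill {m : ℕ} {Y : E} (h : Kill φ b m Y) :
    ∀ n, m < n → star (Zs φ a b n) * Y = star (Zs φ a b (m + 1)) * Y
  | 0, h' => by omega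
  | n + 1, h' => by
    rcases Nat.lt_succ_iff_lt_or_eq.1 h' with h1 | h1
    · rw [Zs, star_add, add_mul, sZs_kill h n h1, star_mul, mul_assoc, sgam_kill hφ hs h n h1,
        mul_zero, add_zero]
    · subst h1; rfl

include hφ hs hab hsab in
theorem Kill.Zs_mul {m : ℕ} {Y : E} (h : Kill φ b m Y) {n : ℕ} (hn : m < n) :
    Kill φ b m (Zs φ a b n * Y) := by
  rw [Zs_kill hφ h n hn, Zs, add_mul]
  have hab' : φ m b * φ m a = - (φ m a * φ m b) := by
    rw [eq_neg_iff_add_eq_zero, ← map_mul, ← map_mul, ← map_add, add_comm, hab, map_zero]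
  have hab'' : φ m (star b) * φ m a = - (φ m a * φ m (star b)) := by
    have := congrArg star hsab
    simp only [star_add, star_mul, star_star, star_zero] at this
    rw [eq_neg_iff_add_eq_zero, ← map_mul, ← map_mul, ← map_add, this, map_zero]
  constructor
  · rw [mul_add, ← mul_assoc, ← (Zs_comm hφ b m le_rfl).eq, mul_assoc, h.1, mul_zero, zero_add,
      ← mul_assoc, ← mul_assoc, ← (gam_comm hφ le_rfl b).eq, mul_assoc (gam φ b m), hab']
    rw [mul_neg, neg_mul, mul_assoc, mul_assoc, h.1]; simp
  · rw [mul_add, ← mul_assoc, ← (Zs_comm hφ (star b) m le_rfl).eq, mul_assoc, h.2, mul_zero,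
      zero_add, ← mul_assoc, ← mul_assoc, ← (gam_comm hφ le_rfl (star b)).eq,
      mul_assoc (gam φ b m), hab'']
    rw [mul_neg, neg_mul, mul_assoc, mul_assoc, h.2]; simp

include hφ hs hab hsab in
theorem Kill.sZs_mul {m : ℕ} {Y : E} (h : Kill φ b m Y) {n : ℕ} (hn : m < n) :
    Kill φ b m (star (Zs φ a b n) * Y) := by
  rw [sZs_kill hφ hs h n hn, Zs, star_add, add_mul, star_mul, ← hs]
  have hab' : φ m b * φ m (star a) = - (φ m (star a) * φ m b) := by
    rw [eq_neg_iff_add_eq_zero, ← map_mul, ← map_mul, ← map_add, add_comm, hsab, map_zero]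
  have hab'' : φ m (star b) * φ m (star a) = - (φ m (star a) * φ m (star b)) := by
    have := congrArg star hab
    simp only [star_add, star_mul, star_zero] at this
    rw [eq_neg_iff_add_eq_zero, ← map_mul, ← map_mul, ← map_add, this, map_zero]
  constructor
  · rw [mul_add, ← mul_assoc, ← (sZs_comm hφ hs b le_rfl).eq, mul_assoc, h.1, mul_zero, zero_add,
      ← mul_assoc, ← mul_assoc, hab']
    rw [neg_mul, neg_mul, mul_assoc, mul_assoc, ← mul_assoc (φ m b),
      ← (sgam_comm hφ hs le_rfl b).eq, mul_assoc, h.1]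
    simp
  · rw [mul_add, ← mul_assoc, ← (sZs_comm hφ hs (star b) le_rfl).eq, mul_assoc, h.2, mul_zero,
      zero_add, ← mul_assoc, ← mul_assoc, hab'']
    rw [neg_mul, neg_mul, mul_assoc, mul_assoc, ← mul_assoc (φ m (star b)),
      ← (sgam_comm hφ hs le_rfl (star b)).eq, mul_assoc, h.2]
    simp

include hφ in
theorem Zs_pass {m p n : ℕ} (hn : m < n) (hp : m < p) {Y : E} (h : Kill φ b m Y) (d : D) :
    Zs φ a b n * (φ p d * Y) = φ p d * (Zs φ a b n * Y) := by
  rw [Zs_kill hφ (h.mul_left hφ (by omega) d) n hn, Zs_kill hφ h n hn, ← mul_assoc,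
    (Zs_comm hφ d (m + 1) (by omega)).eq, mul_assoc]

include hφ hs in
theorem sZs_pass {m p n : ℕ} (hn : m < n) (hp : m < p) {Y : E} (h : Kill φ b m Y) (d : D) :
    star (Zs φ a b n) * (φ p d * Y) = φ p d * (star (Zs φ a b n) * Y) := by
  rw [sZs_kill hφ hs (h.mul_left hφ (by omega) d) n hn, sZs_kill hφ hs h n hn, ← mul_assoc,
    (sZs_comm hφ hs d (by omega)).eq, mul_assoc]

include hφ hs hsab hbb hnb in
theorem Zs_unit {m n : ℕ} (hn : m < n) {Y : E} (h : Kill φ b m Y) :
    Zs φ a b n * (star (Zs φ a b n) * Y) + star (Zs φ a b n) * (Zs φ a b n * Y) = Y := by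
  have e := Zs_sum hφ hs hsab hbb hnb n
  have e2 := congrArg (fun t => t * Y) e
  simp only [add_mul, mul_assoc, gam_kill hφ h n hn, mul_zero, add_zero, one_mul] at e2
  exact e2

end glue

end Vale.Agent.P101
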