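import Mathlib

/-! One-sided approximate intertwining. -/

open Filter Topology

namespace Vale.Agent.P101

universe u

variable {A B : Type*} [CStarAlgebra A] [CStarAlgebra B]

/-- conjugation of `ι x` -/
def lamc (ι : A →⋆ₐ[ℂ] B) (w : B) (x : A) : B := w * ι x * star w

theorem lamc_norm (ι : A →⋆ₐ[ℂ] B) (hι : Function.Injective ι) {w : B} (hw : w ∈ unitary B)
    (x : A) : ‖lamc ι w x‖ = ‖x‖ := by
  unfold lamc
  rw [CStarRing.norm_mul_mem_unitary _ (Unitary.star_mem hw),
    CStarRing.norm_mem_unitary_mul _ hw, NonUnitalStarAlgHom.norm_map ι hι]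

/-- one step -/
theorem intertwine_step (ι : A →⋆ₐ[ℂ] B)
    (h : ∀ (F : Finset A) (G : Finset B) (ε : ℝ), 0 < ε → ∃ v ∈ unitary B,
      (∀ a ∈ F, ‖v * ι a - ι a * v‖ < ε) ∧ ∀ b ∈ G, ∃ a : A, ‖star v * b * v - ι a‖ < ε)
    (a : ℕ → A) (b : ℕ → B) (n : ℕ) (s : unitary B × Finset A) :
    ∃ s' : unitary B × Finset A, s.2 ⊆ s'.2 ∧ (∀ j ≤ n, a j ∈ s'.2) ∧
      (∀ x ∈ s.2, ‖lamc ι (s'.1 : B) x - lamc ι (s.1 : B) x‖ < (1 / 2) ^ n) ∧
      (∀ j ≤ n, ∃ c ∈ s'.2, ‖b j - lamc ι (s'.1 : B) c‖ < (1 / 2) ^ n) := by
  classical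
  obtain ⟨⟨w, hw⟩, F⟩ := s
  obtain ⟨v, hv, hv1, hv2⟩ := h F ((Finset.range (n + 1)).image fun j => star w * b j * w)
    ((1 / 2) ^ n) (by positivity)
  have hv3 : ∀ j : ℕ, ∃ c : A, j ≤ n → ‖star v * (star w * b j * w) * v - ι c‖ < (1 / 2) ^ n := by
    intro j
    by_cases hj : j ≤ n
    · obtain ⟨c, hc⟩ := hv2 _ (Finset.mem_image_of_mem _ (Finset.mem_range.2
        (Nat.lt_succ_of_le hj)))
      exact ⟨c, fun _ => hc⟩
    · exact ⟨0, fun h => absurd h hj⟩
  choose c hc using hv3
  have hwv : w * v ∈ unitary B := mul_mem hw hv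
  have hw1 : w * star w = 1 := Unitary.mul_star_self_of_mem hw
  have hw2 : star w * w = 1 := Unitary.star_mul_self_of_mem hw
  have hv4 : v * star v = 1 := Unitary.mul_star_self_of_mem hv
  refine ⟨(⟨w * v, hwv⟩, F ∪ (Finset.range (n + 1)).image a ∪ (Finset.range (n + 1)).image c),
    ?_, ?_, ?_, ?_⟩
  · intro x hx
    simp only [Finset.mem_union]
    exact Or.inl (Or.inl hx)
  · intro j hj
    simp only [Finset.mem_union]
    exact Or.inl (Or.inr (Finset.mem_image_of_mem _ (Finset.mem_range.2
      (Nat.lt_succ_of_le hj))))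
  · intro x hx
    change ‖w * v * ι x * star (w * v) - w * ι x * star w‖ < _
    have e1 : w * v * ι x * star (w * v) - w * ι x * star w
        = w * ((v * ι x - ι x * v) * star v) * star w := by
      rw [star_mul]
      calc _ = w * v * ι x * (star v * star w) - w * ι x * (v * star v) * star w := by
            rw [hv4, mul_one]
        _ = _ := by noncomm_ring
    rw [e1, CStarRing.norm_mul_mem_unitary _ (Unitary.star_mem hw),
      CStarRing.norm_mem_unitary_mul _ hw, CStarRing.norm_mul_mem_unitary _ (Unitary.star_mem hv)]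
    exact hv1 x hx
  · intro j hj
    refine ⟨c j, ?_, ?_⟩
    · simp only [Finset.mem_union]
      exact Or.inr (Finset.mem_image_of_mem _ (Finset.mem_range.2 (Nat.lt_succ_of_le hj)))
    · change ‖b j - w * v * ι (c j) * star (w * v)‖ < _
      have e1 : b j - w * v * ι (c j) * star (w * v)
          = (w * v) * (star v * (star w * b j * w) * v - ι (c j)) * star (w * v) := by
        calc _ = (w * (v * star v) * star w) * b j * (w * (v * star v) * star w)
              - w * v * ι (c j) * star (w * v) := by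
              rw [hv4, mul_one, hw1, one_mul, mul_one]
          _ = _ := by rw [star_mul]; noncomm_ring
      rw [e1, CStarRing.norm_mul_mem_unitary _ (Unitary.star_mem hwv),
        CStarRing.norm_mem_unitary_mul _ hwv]
      exact hc j hj

/-- **One-sided approximate intertwining.** -/
theorem intertwine [TopologicalSpace.SeparableSpace A] [TopologicalSpace.SeparableSpace B]
    (ι : A →⋆ₐ[ℂ] B) (hι : Function.Injective ι)
    (h : ∀ (F : Finset A) (G : Finset B) (ε : ℝ), 0 < ε → ∃ v ∈ unitary B,
      (∀ a ∈ F, ‖v * ι a - ι a * v‖ < ε) ∧ ∀ b ∈ G, ∃ a : A, ‖star v * b * v - ι a‖ < ε) :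
    Nonempty (A ≃⋆ₐ[ℂ] B) := by
  classical
  let a := TopologicalSpace.denseSeq A
  let b := TopologicalSpace.denseSeq B
  choose nxt hn1 hn2 hn3 hn4 using intertwine_step ι h a b
  let s : ℕ → unitary B × Finset A := fun n => Nat.rec (1, ∅) (fun n s => nxt n s) n
  have hs : ∀ n, s (n + 1) = nxt n (s n) := fun n => rfl
  let w : ℕ → B := fun n => ((s n).1 : B)
  have hw : ∀ n, w n ∈ unitary B := fun n => (s n).1.2
  have hmono : ∀ m n, m ≤ n → (s m).2 ⊆ (s n).2 := by
    intro m n hmn
    induction hmn with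
    | refl => exact fun x hx => hx
    | step _ ih => exact fun x hx => by rw [hs]; exact hn1 _ _ (ih hx)
  have hstep : ∀ m, ∀ x ∈ (s m).2, ∀ n, m ≤ n →
      ‖lamc ι (w (n + 1)) x - lamc ι (w n) x‖ < (1 / 2) ^ n := by
    intro m x hx n hmn
    have := hn3 n (s n) x (hmono m n hmn hx)
    simp only [w]
    rw [hs]
    exact this
  -- estimate for elements of the finite sets
  have hdist : ∀ m, ∀ x ∈ (s m).2, ∀ k,
      dist (lamc ι (w (m + k)) x) (lamc ι (w (m + (k + 1))) x) ≤ (1 / 2) ^ m * (1 / 2) ^ k := by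
    intro m x hx k
    rw [dist_comm, dist_eq_norm, ← pow_add]
    exact (hstep m x hx (m + k) (Nat.le_add_right _ _)).le
  have hcau1 : ∀ m, ∀ x ∈ (s m).2, CauchySeq fun n => lamc ι (w n) x := by
    intro m x hx
    have h1 : CauchySeq fun k => lamc ι (w (m + k)) x :=
      cauchySeq_of_le_geometric _ _ (by norm_num) (hdist m x hx)
    have h2 : CauchySeq fun k => lamc ι (w (k + m)) x := by
      simpa only [add_comm] using h1
    exact (cauchySeq_shift m).1 h2
  have hsub : ∀ n x y, lamc ι (w n) x - lamc ι (w n) y = lamc ι (w n) (x - y) := by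
    intro n x y
    unfold lamc
    rw [map_sub]; noncomm_ring
  have hcau : ∀ x, CauchySeq fun n => lamc ι (w n) x := by
    intro x
    rw [Metric.cauchySeq_iff']
    intro ε hε
    obtain ⟨j, hj⟩ : ∃ j, dist x (a j) < ε / 3 :=
      (TopologicalSpace.denseRange_denseSeq A).exists_dist_lt x (by positivity)
    have hmem : a j ∈ (s (j + 1)).2 := by rw [hs]; exact hn2 j (s j) j le_rfl
    obtain ⟨N, hN⟩ := Metric.cauchySeq_iff'.1 (hcau1 (j + 1) (a j) hmem) (ε / 3) (by positivity)
    refine ⟨N, fun n hn => ?_⟩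
    have h1 : ∀ n, dist (lamc ι (w n) x) (lamc ι (w n) (a j)) < ε / 3 := fun n => by
      rw [dist_eq_norm, hsub, lamc_norm ι hι (hw n), ← dist_eq_norm]; exact hj
    have h2 := h1 n
    have h3 := h1 N
    have h4 := hN n hn
    rw [dist_comm (lamc ι (w N) x)] at h3
    have h5 := dist_triangle4 (lamc ι (w n) x) (lamc ι (w n) (a j)) (lamc ι (w N) (a j))
      (lamc ι (w N) x)
    linarith
  have hlim : ∀ x, ∃ y, Tendsto (fun n => lamc ι (w n) x) atTop (𝓝 y) := fun x =>
    cauchySeq_tendsto_of_complete (hcau x)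
  choose L hL using hlim
  have hLnorm : ∀ x, ‖L x‖ = ‖x‖ := by
    intro x
    have h1 := (hL x).norm
    have h2 : (fun n => ‖lamc ι (w n) x‖) = fun _ => ‖x‖ :=
      funext fun n => lamc_norm ι hι (hw n) x
    rw [h2] at h1
    exact tendsto_nhds_unique h1 tendsto_const_nhds
  let Φ : A →⋆ₐ[ℂ] B :=
    { toFun := L
      map_one' := by
        refine tendsto_nhds_unique (hL 1) ?_
        have : (fun n => lamc ι (w n) 1) = fun _ => (1 : B) := funext fun n => by
          unfold lamc
          rw [map_one, mul_one, Unitary.mul_star_self_of_mem (hw n)]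
        rw [this]; exact tendsto_const_nhds
      map_mul' := fun x y => by
        refine tendsto_nhds_unique (hL (x * y)) ?_
        have : (fun n => lamc ι (w n) (x * y)) = fun n => lamc ι (w n) x * lamc ι (w n) y :=
          funext fun n => by
            unfold lamc
            have h2 : star (w n) * w n = 1 := Unitary.star_mul_self_of_mem (hw n)
            rw [map_mul]
            calc _ = w n * ι x * 1 * ι y * star (w n) := by noncomm_ring
              _ = _ := by rw [← h2]; noncomm_ring
        rw [this]; exact (hL x).mul (hL y)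
      map_zero' := by
        refine tendsto_nhds_unique (hL 0) ?_
        have : (fun n => lamc ι (w n) 0) = fun _ => (0 : B) := funext fun n => by
          unfold lamc; simp
        rw [this]; exact tendsto_const_nhds
      map_add' := fun x y => by
        refine tendsto_nhds_unique (hL (x + y)) ?_
        have : (fun n => lamc ι (w n) (x + y)) = fun n => lamc ι (w n) x + lamc ι (w n) y :=
          funext fun n => by
            unfold lamc
            rw [map_add]; noncomm_ring
        rw [this]; exact (hL x).add (hL y)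
      commutes' := fun r => by
        refine tendsto_nhds_unique (hL (algebraMap ℂ A r)) ?_
        have : (fun n => lamc ι (w n) (algebraMap ℂ A r)) = fun _ => algebraMap ℂ B r :=
          funext fun n => by
            unfold lamc
            rw [AlgHomClass.commutes, ← Algebra.commutes, mul_assoc,
              Unitary.mul_star_self_of_mem (hw n), mul_one]
        rw [this]; exact tendsto_const_nhds
      map_star' := fun x => by
        refine tendsto_nhds_unique (hL (star x)) ?_
        have : (fun n => lamc ι (w n) (star x)) = fun n => star (lamc ι (w n) x) :=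
          funext fun n => by
            unfold lamc
            rw [map_star, star_mul, star_mul, star_star, mul_assoc]
        rw [this]; exact (hL x).star }
  have hiso : Isometry Φ := AddMonoidHomClass.isometry_of_norm Φ hLnorm
  have hclosed : IsClosed (Set.range Φ) := hiso.isClosedEmbedding.isClosed_range
  have hsurj : Function.Surjective Φ := by
    rw [← Set.range_eq_univ]
    have hdense : DenseRange Φ := by
      intro y
      rw [Metric.mem_closure_iff]
      intro ε hε
      obtain ⟨j, hj⟩ : ∃ j, dist y (b j) < ε / 2 :=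
        (TopologicalSpace.denseRange_denseSeq B).exists_dist_lt y (by positivity)
      obtain ⟨n, hn, hjn⟩ : ∃ n, (2 : ℝ) * (1 / 2) ^ n < ε / 2 ∧ j ≤ n := by
        have h1 : Tendsto (fun n : ℕ => (2 : ℝ) * (1 / 2) ^ n) atTop (𝓝 (2 * 0)) :=
          (tendsto_pow_atTop_nhds_zero_of_lt_one (by norm_num) (by norm_num)).const_mul 2
        rw [mul_zero] at h1
        have h2 := h1.eventually (gt_mem_nhds (show (0 : ℝ) < ε / 2 by positivity))
        obtain ⟨n, h3, h4⟩ := (h2.and (eventually_ge_atTop j)).exists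
        exact ⟨n, h3, h4⟩
      obtain ⟨c, hc, hc'⟩ := hn4 n (s n) j hjn
      rw [← hs] at hc hc'
      have h1 : dist (lamc ι (w (n + 1)) c) (L c) ≤ (1 / 2) ^ n := by
        have h2 : Tendsto (fun k => lamc ι (w (n + 1 + k)) c) atTop (𝓝 (L c)) := by
          have := (hL c).comp (tendsto_add_atTop_nat (n + 1))
          refine this.congr fun k => ?_
          simp only [Function.comp_apply]
          rw [add_comm]
        have h3 := dist_le_of_le_geometric_of_tendsto₀ (1 / 2) ((1 / 2) ^ (n + 1)) (by norm_num)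
          (hdist (n + 1) c hc) h2
        have h4 : ((1 : ℝ) / 2) ^ (n + 1) / (1 - 1 / 2) = (1 / 2) ^ n := by
          rw [pow_succ]; ring
        rw [h4] at h3
        exact h3
      refine ⟨Φ c, ⟨c, rfl⟩, ?_⟩
      have h5 : dist (b j) (lamc ι (w (n + 1)) c) < (1 / 2) ^ n := by
        rw [dist_eq_norm]; exact hc'
      have h6 := dist_triangle4 y (b j) (lamc ι (w (n + 1)) c) (Φ c)
      have h7 : dist (lamc ι (w (n + 1)) c) (Φ c) ≤ (1 / 2) ^ n := h1
      linarith
    exact hclosed.closure_eq ▸ hdense.closure_eq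
  exact ⟨StarAlgEquiv.ofBijective Φ ⟨hiso.injective, hsurj⟩⟩

end Vale.Agent.P101
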