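import Mathlib

/-! Matrix units from anticommuting modes. -/

namespace Vale.Agent.P101

section units

variable {E : Type*} [Ring E] [StarRing E]

/-- the letter for one mode -/
def wl (a : E) (e : Bool) : E := if e then star a else a * star a

/-- the product over the modes -/
def Wf : (k : ℕ) → (Fin k → E) → (Fin k → Bool) → E
  | 0, _, _ => 1
  | k + 1, a, ε => wl (a 0) (ε 0) * Wf k (fun i => a i.succ) (fun i => ε i.succ)

theorem wl_commute {a y : E} (h1 : Commute y a) (h2 : Commute y (star a)) (e : Bool) :
    Commute y (wl a e) ∧ Commute y (star (wl a e)) := by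
  unfold wl
  split_ifs
  · exact ⟨h2, by simpa using h1⟩
  · refine ⟨h1.mul_right h2, ?_⟩
    rw [star_mul, star_star]
    exact h1.mul_right h2

theorem Wf_commute {y : E} : ∀ (k : ℕ) (a : Fin k → E) (ε : Fin k → Bool),
    (∀ i, Commute y (a i)) → (∀ i, Commute y (star (a i))) →
    Commute y (Wf k a ε) ∧ Commute y (star (Wf k a ε))
  | 0, _, _, _, _ => by simp [Wf]
  | k + 1, a, ε, h1, h2 => by
    obtain ⟨i1, i2⟩ := Wf_commute (y := y) k (fun i => a i.succ) (fun i => ε i.succ)
      (fun i => h1 _) (fun i => h2 _)
    obtain ⟨l1, l2⟩ := wl_commute (h1 0) (h2 0) (ε 0)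
    rw [Wf, star_mul]
    exact ⟨l1.mul_right i1, i2.mul_right l2⟩

/-- the standing relations (`F` is a cut-off element) -/
structure CutRel {k : ℕ} (a : Fin k → E) (F : E) : Prop where
  sq : ∀ i, a i * a i = 0
  anti : ∀ i j, i ≠ j → a i * a j + a j * a i = 0
  santi : ∀ i j, i ≠ j → a i * star (a j) + star (a j) * a i = 0
  comm : ∀ i, Commute F (a i)
  scomm : ∀ i, Commute F (star (a i))
  one : ∀ i, F * (a i * star (a i) + star (a i) * a i) = F

theorem CutRel.succ {k : ℕ} {a : Fin (k + 1) → E} {F : E} (h : CutRel a F) :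
    CutRel (fun i : Fin k => a i.succ) F where
  sq := fun i => h.sq _
  anti := fun i j hij => h.anti _ _ (fun e => hij (Fin.succ_injective _ e))
  santi := fun i j hij => h.santi _ _ (fun e => hij (Fin.succ_injective _ e))
  comm := fun i => h.comm _
  scomm := fun i => h.scomm _
  one := fun i => h.one _

theorem CutRel.even {k : ℕ} {a : Fin (k + 1) → E} {F : E} (h : CutRel a F) (i : Fin k) :
    Commute (a 0 * star (a 0)) (a i.succ) ∧ Commute (a 0 * star (a 0)) (star (a i.succ)) := by
  have h1 := h.anti 0 i.succ (Fin.succ_ne_zero i).symm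
  have h2 := h.santi i.succ 0 (Fin.succ_ne_zero i)
  have h3 := h.santi 0 i.succ (Fin.succ_ne_zero i).symm
  have h4 : star (a 0) * star (a i.succ) + star (a i.succ) * star (a 0) = 0 := by
    have := congrArg star h1
    simp only [star_add, star_mul, star_zero] at this
    rw [add_comm, this]
  have e1 : a i.succ * a 0 = -(a 0 * a i.succ) := by
    rw [eq_neg_iff_add_eq_zero, add_comm, h1]
  have e2 : a i.succ * star (a 0) = -(star (a 0) * a i.succ) := by
    rw [eq_neg_iff_add_eq_zero, h2]
  have e3 : star (a i.succ) * a 0 = -(a 0 * star (a i.succ)) := by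
    rw [eq_neg_iff_add_eq_zero, add_comm, h3]
  have e4 : star (a i.succ) * star (a 0) = -(star (a 0) * star (a i.succ)) := by
    rw [eq_neg_iff_add_eq_zero, add_comm, h4]
  constructor
  · change a 0 * star (a 0) * a i.succ = a i.succ * (a 0 * star (a 0))
    rw [← mul_assoc, e1, neg_mul, mul_assoc (a 0) (a i.succ), e2]; noncomm_ring
  · change a 0 * star (a 0) * star (a i.succ) = star (a i.succ) * (a 0 * star (a 0))
    rw [← mul_assoc, e3, neg_mul, mul_assoc (a 0) (star (a i.succ)), e4]; noncomm_ring

theorem CutRel.idem {k : ℕ} {a : Fin k → E} {F : E} (h : CutRel a F) (i : Fin k) :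
    F * (a i * star (a i) * (a i * star (a i))) = F * (a i * star (a i)) ∧
    F * (star (a i) * (a i * star (a i))) = F * star (a i) := by
  have h1 := h.sq i
  have h2 := h.one i
  have h3 : star (a i) * star (a i) = 0 := by rw [← star_mul, h1, star_zero]
  constructor
  · calc F * (a i * star (a i) * (a i * star (a i)))
        = F * (a i * star (a i) + star (a i) * a i) * (a i * star (a i))
          - F * star (a i) * (a i * a i) * star (a i) := by noncomm_ring
      _ = _ := by rw [h2, h1]; simp
  · calc F * (star (a i) * (a i * star (a i)))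
        = F * (a i * star (a i) + star (a i) * a i) * star (a i)
          - F * a i * (star (a i) * star (a i)) := by noncomm_ring
      _ = _ := by rw [h2, h3]; simp

theorem Wf_gram : ∀ (k : ℕ) (a : Fin k → E) (F : E), CutRel a F → ∀ ε δ : Fin k → Bool,
    F * (star (Wf k a ε) * Wf k a δ) = if ε = δ then F * Wf k a (fun _ => false) else 0
  | 0, a, F, h, ε, δ => by
    have : ε = δ := Subsingleton.elim _ _
    simp [Wf, this]
  | k + 1, a, F, h, ε, δ => by
    have ih := Wf_gram k (fun i => a i.succ) F h.succ (fun i => ε i.succ) (fun i => δ i.succ)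
    have hF := Wf_commute (y := F) k (fun i => a i.succ) (fun i => ε i.succ)
      (fun i => h.comm _) (fun i => h.scomm _)
    have hev := Wf_commute (y := a 0 * star (a 0)) k (fun i => a i.succ) (fun i => ε i.succ)
      (fun i => (h.even i).1) (fun i => (h.even i).2)
    have h1 := h.sq 0
    have h3 : star (a 0) * star (a 0) = 0 := by rw [← star_mul, h1, star_zero]
    -- the letters
    have hl : F * (star (wl (a 0) (ε 0)) * wl (a 0) (δ 0))
        = if ε 0 = δ 0 then F * (a 0 * star (a 0)) else 0 := by
      cases hε : ε 0 <;> cases hδ : δ 0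
      · simp only [wl, Bool.false_eq_true, if_false, star_mul, star_star, if_true]
        exact (h.idem 0).1
      · simp only [wl, Bool.false_eq_true, if_false, star_mul, star_star, if_true]
        rw [mul_assoc (a 0), h3]; simp
      · simp only [wl, Bool.true_eq_false, Bool.false_eq_true, if_false, star_mul, star_star,
          if_true]
        rw [← mul_assoc (a 0), h1]; simp
      · simp only [wl, if_true, star_star]
    rw [Wf, Wf, star_mul]
    set U := Wf k (fun i => a i.succ) (fun i => ε i.succ)
    set U' := Wf k (fun i => a i.succ) (fun i => δ i.succ)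
    have e1 : F * (star U * star (wl (a 0) (ε 0)) * (wl (a 0) (δ 0) * U'))
        = star U * (F * (star (wl (a 0) (ε 0)) * wl (a 0) (δ 0))) * U' := by
      calc _ = (F * star U) * star (wl (a 0) (ε 0)) * (wl (a 0) (δ 0) * U') := by noncomm_ring
        _ = _ := by rw [hF.2.eq]; noncomm_ring
    rw [e1, hl]
    by_cases h0 : ε 0 = δ 0
    · rw [if_pos h0]
      have e2 : star U * (F * (a 0 * star (a 0))) * U'
          = (a 0 * star (a 0)) * (F * (star U * U')) := by
        have c1 : Commute F (a 0 * star (a 0)) := (h.comm 0).mul_right (h.scomm 0)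
        calc _ = (star U * F) * (a 0 * star (a 0)) * U' := by noncomm_ring
          _ = (F * star U) * (a 0 * star (a 0)) * U' := by rw [hF.2.eq]
          _ = F * (star U * (a 0 * star (a 0))) * U' := by noncomm_ring
          _ = F * ((a 0 * star (a 0)) * star U) * U' := by rw [hev.2.eq]
          _ = (F * (a 0 * star (a 0))) * star U * U' := by noncomm_ring
          _ = _ := by rw [c1.eq]; noncomm_ring
      rw [e2, ih]
      by_cases h' : (fun i : Fin k => ε i.succ) = (fun i => δ i.succ)
      · rw [if_pos h', if_pos]
        · have c1 : Commute F (a 0 * star (a 0)) := (h.comm 0).mul_right (h.scomm 0)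
          rw [Wf, ← mul_assoc, ← c1.eq]
          simp only [wl, Bool.false_eq_true, if_false]
          noncomm_ring
        · funext i
          refine Fin.cases h0 (fun i => congrFun h' i) i
      · rw [if_neg h', if_neg, mul_zero]
        intro h''; exact h' (by rw [h''])
    · rw [if_neg h0, if_neg]
      · simp
      · intro h''; exact h0 (by rw [h''])

theorem Wf_sum : ∀ (k : ℕ) (a : Fin k → E) (F : E), CutRel a F →
    ∑ ε : Fin k → Bool, F * (Wf k a ε * star (Wf k a ε)) = F
  | 0, a, F, h => by simp [Wf]
  | k + 1, a, F, h => by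
    have ih := Wf_sum k (fun i => a i.succ) F h.succ
    rw [← (Fin.consEquiv (fun _ => Bool)).sum_comp, Fintype.sum_prod_type]
    have key : ∀ e : Bool, ∑ ε : Fin k → Bool,
        F * (Wf (k + 1) a (Fin.consEquiv (fun _ => Bool) (e, ε))
          * star (Wf (k + 1) a (Fin.consEquiv (fun _ => Bool) (e, ε))))
        = F * (wl (a 0) e * star (wl (a 0) e)) := by
      intro e
      have hc := wl_commute (h.comm 0) (h.scomm 0) e
      calc _ = ∑ ε : Fin k → Bool, wl (a 0) e * (F * (Wf k (fun i => a i.succ) ε
            * star (Wf k (fun i => a i.succ) ε))) * star (wl (a 0) e) := by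
            refine Finset.sum_congr rfl fun ε _ => ?_
            rw [Wf, star_mul]
            simp only [Fin.consEquiv_apply, Fin.cons_zero, Fin.cons_succ]
            set U := Wf k (fun i => a i.succ) ε
            calc _ = (F * wl (a 0) e) * U * (star U * star (wl (a 0) e)) := by noncomm_ring
              _ = _ := by rw [hc.1.eq]; noncomm_ring
        _ = wl (a 0) e * F * star (wl (a 0) e) := by rw [← Finset.sum_mul, ← Finset.mul_sum, ih]
        _ = _ := by rw [← hc.1.eq]; noncomm_ring
    simp only [key]
    rw [Fintype.sum_bool]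
    simp only [wl, if_true, Bool.false_eq_true, if_false, star_star, star_mul]
    rw [(h.idem 0).1, ← mul_add, add_comm (star (a 0) * a 0), h.one 0]

theorem Wf_mul_p : ∀ (k : ℕ) (a : Fin k → E) (F : E), CutRel a F → ∀ ε : Fin k → Bool,
    F * (Wf k a ε * Wf k a (fun _ => false)) = F * Wf k a ε
  | 0, a, F, h, ε => by simp [Wf]
  | k + 1, a, F, h, ε => by
    have ih := Wf_mul_p k (fun i => a i.succ) F h.succ (fun i => ε i.succ)
    have hev := Wf_commute (y := a 0 * star (a 0)) k (fun i => a i.succ) (fun i => ε i.succ)
      (fun i => (h.even i).1) (fun i => (h.even i).2)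
    have hc := wl_commute (h.comm 0) (h.scomm 0) (ε 0)
    have hl : F * (wl (a 0) (ε 0) * (a 0 * star (a 0))) = F * wl (a 0) (ε 0) := by
      unfold wl
      split_ifs
      · exact (h.idem 0).2
      · exact (h.idem 0).1
    rw [Wf, Wf]
    simp only [wl, Bool.false_eq_true, if_false]
    change F * (wl (a 0) (ε 0) * _ * (_ * _)) = F * (wl (a 0) (ε 0) * _)
    set U := Wf k (fun i => a i.succ) (fun i => ε i.succ)
    set p := Wf k (fun i => a i.succ) (fun _ => false)
    set w := wl (a 0) (ε 0)
    calc F * (w * U * (a 0 * star (a 0) * p))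
        = F * w * (U * (a 0 * star (a 0))) * p := by noncomm_ring
      _ = (F * (w * (a 0 * star (a 0)))) * (U * p) := by rw [← hev.1.eq]; noncomm_ring
      _ = w * (F * (U * p)) := by rw [hl, hc.1.eq]; noncomm_ring
      _ = F * (w * U) := by rw [ih, ← mul_assoc, ← hc.1.eq]; noncomm_ring

theorem Wf_p_star : ∀ (k : ℕ) (a : Fin k → E) (F : E), CutRel a F →
    star (Wf k a (fun _ => false)) = Wf k a (fun _ => false)
  | 0, a, F, h => by simp [Wf]
  | k + 1, a, F, h => by
    have ih := Wf_p_star k (fun i => a i.succ) F h.succ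
    have hev := Wf_commute (y := a 0 * star (a 0)) k (fun i => a i.succ) (fun _ => false)
      (fun i => (h.even i).1) (fun i => (h.even i).2)
    rw [Wf, star_mul, ih]
    simp only [wl, Bool.false_eq_true, if_false, star_mul, star_star]
    exact hev.1.eq.symm

theorem Wf_p_mul {x : E} : ∀ (k : ℕ) (a : Fin k → E), (∀ i, a i * star (a i) * x = x) →
    Wf k a (fun _ => false) * x = x
  | 0, a, _ => by simp [Wf]
  | k + 1, a, h => by
    have ih := Wf_p_mul k (fun i => a i.succ) (fun i => h _)
    rw [Wf, mul_assoc, ih]
    simp only [wl, Bool.false_eq_true, if_false]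
    exact h 0

end units

end Vale.Agent.P101
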