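import Vale.Agent.P101.DimDrop

/-! `I(2,3)` has no characters; passing from nonzero `*`-homomorphisms to unital ones. -/

open scoped Kronecker

namespace Vale.Agent.P101

open Matrix

/-- the element `(1-t) a ⊗ 1` -/
noncomputable def Xel (a : Matrix (Fin 2) (Fin 2) ℂ) : dimDrop23 :=
  ⟨⟨fun t => ((1 - (t : ℝ) : ℝ) : ℂ) • (a ⊗ₖ (1 : Matrix (Fin 3) (Fin 3) ℂ)), by fun_prop⟩, by
    refine ⟨⟨a, ?_⟩, ⟨0, ?_⟩⟩
    · simp
    · simp⟩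

/-- the element `t 1 ⊗ b` -/
noncomputable def Yel (b : Matrix (Fin 3) (Fin 3) ℂ) : dimDrop23 :=
  ⟨⟨fun t => (((t : ℝ) : ℝ) : ℂ) • ((1 : Matrix (Fin 2) (Fin 2) ℂ) ⊗ₖ b), by fun_prop⟩, by
    refine ⟨⟨0, ?_⟩, ⟨b, ?_⟩⟩
    · simp
    · simp⟩

/-- the scalar function `x + y t` -/
noncomputable def Sel (x y : ℂ) : dimDrop23 :=
  ⟨⟨fun t => (x + y * ((t : ℝ) : ℂ)) • (1 : Matrix (Fin 2 × Fin 3) (Fin 2 × Fin 3) ℂ),
    by fun_prop⟩, by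
    refine ⟨⟨x • 1, ?_⟩, ⟨(x + y) • 1, ?_⟩⟩
    · simp [Matrix.smul_kronecker]
    · simp [Matrix.kronecker_smul]⟩

theorem Xel_mul (a a' : Matrix (Fin 2) (Fin 2) ℂ) (t : unitInterval) :
    (Xel a * Xel a').1 t
      = (((1 - (t : ℝ) : ℝ) : ℂ) ^ 2) • ((a * a') ⊗ₖ (1 : Matrix (Fin 3) (Fin 3) ℂ)) := by
  change (((1 - (t : ℝ) : ℝ) : ℂ) • (a ⊗ₖ (1 : Matrix (Fin 3) (Fin 3) ℂ)))
    * (((1 - (t : ℝ) : ℝ) : ℂ) • (a' ⊗ₖ (1 : Matrix (Fin 3) (Fin 3) ℂ))) = _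
  rw [smul_mul_smul_comm, ← Matrix.mul_kronecker_mul, one_mul, sq]

theorem Yel_mul (a a' : Matrix (Fin 3) (Fin 3) ℂ) (t : unitInterval) :
    (Yel a * Yel a').1 t
      = ((((t : ℝ) : ℝ) : ℂ) ^ 2) • ((1 : Matrix (Fin 2) (Fin 2) ℂ) ⊗ₖ (a * a')) := by
  change ((((t : ℝ) : ℝ) : ℂ) • ((1 : Matrix (Fin 2) (Fin 2) ℂ) ⊗ₖ a))
    * ((((t : ℝ) : ℝ) : ℂ) • ((1 : Matrix (Fin 2) (Fin 2) ℂ) ⊗ₖ a')) = _
  rw [smul_mul_smul_comm, ← Matrix.mul_kronecker_mul, one_mul, sq]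

theorem Xel_zero {χ : dimDrop23 →⋆ₐ[ℂ] ℂ} {a : Matrix (Fin 2) (Fin 2) ℂ} (ha : a * a = 0) :
    χ (Xel a) = 0 := by
  have h : Xel a * Xel a = 0 := by
    apply Subtype.ext
    ext t : 1
    rw [Xel_mul, ha]
    simp
  have h2 : χ (Xel a) * χ (Xel a) = 0 := by rw [← map_mul, h, map_zero]
  exact mul_self_eq_zero.1 h2

theorem Yel_zero {χ : dimDrop23 →⋆ₐ[ℂ] ℂ} {a : Matrix (Fin 3) (Fin 3) ℂ} (ha : a * a = 0) :
    χ (Yel a) = 0 := by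
  have h : Yel a * Yel a = 0 := by
    apply Subtype.ext
    ext t : 1
    rw [Yel_mul, ha]
    simp
  have h2 : χ (Yel a) * χ (Yel a) = 0 := by rw [← map_mul, h, map_zero]
  exact mul_self_eq_zero.1 h2

theorem dimDrop23_no_character (χ : dimDrop23 →⋆ₐ[ℂ] ℂ) : False := by
  let e2 : Fin 2 → Fin 2 → Matrix (Fin 2) (Fin 2) ℂ := fun i j => Matrix.single i j 1
  let e3 : Fin 3 → Fin 3 → Matrix (Fin 3) (Fin 3) ℂ := fun i j => Matrix.single i j 1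
  have z2 : ∀ i j, i ≠ j → χ (Xel (e2 i j)) = 0 := fun i j h =>
    Xel_zero (by simp [e2, Matrix.single_mul_single_of_ne, h.symm])
  have z3 : ∀ i j, i ≠ j → χ (Yel (e3 i j)) = 0 := fun i j h =>
    Yel_zero (by simp [e3, Matrix.single_mul_single_of_ne, h.symm])
  have hone : (1 : dimDrop23) = (Xel (e2 0 1) * Xel (e2 1 0) + Xel (e2 1 0) * Xel (e2 0 1))
      * Sel 1 2 + (Yel (e3 0 1) * Yel (e3 1 0) + Yel (e3 1 0) * Yel (e3 0 1)
        + Yel (e3 2 0) * Yel (e3 0 2)) * Sel 3 (-2) := by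
    apply Subtype.ext
    ext t : 1
    change (1 : Matrix (Fin 2 × Fin 3) (Fin 2 × Fin 3) ℂ)
      = ((Xel (e2 0 1) * Xel (e2 1 0)).1 t + (Xel (e2 1 0) * Xel (e2 0 1)).1 t)
        * ((1 + 2 * ((t : ℝ) : ℂ)) • 1)
        + ((Yel (e3 0 1) * Yel (e3 1 0)).1 t + (Yel (e3 1 0) * Yel (e3 0 1)).1 t
        + (Yel (e3 2 0) * Yel (e3 0 2)).1 t) * ((3 + -2 * ((t : ℝ) : ℂ)) • 1)
    rw [Xel_mul, Xel_mul, Yel_mul, Yel_mul, Yel_mul]
    have h2 : e2 0 1 * e2 1 0 + e2 1 0 * e2 0 1 = 1 := by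
      ext i j; fin_cases i <;> fin_cases j <;> simp [e2, Matrix.single_mul_single_same]
    have h3 : e3 0 1 * e3 1 0 + e3 1 0 * e3 0 1 + e3 2 0 * e3 0 2 = 1 := by
      ext i j; fin_cases i <;> fin_cases j <;> simp [e3, Matrix.single_mul_single_same]
    rw [← smul_add, ← smul_add, ← smul_add, ← Matrix.add_kronecker, ← Matrix.kronecker_add,
      ← Matrix.kronecker_add, h2, h3, Matrix.one_kronecker_one, smul_mul_smul_comm,
      smul_mul_smul_comm, mul_one, ← add_smul]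
    have : ((1 - (t : ℝ) : ℝ) : ℂ) ^ 2 * (1 + 2 * ((t : ℝ) : ℂ))
        + ((t : ℝ) : ℂ) ^ 2 * (3 + -2 * ((t : ℝ) : ℂ)) = 1 := by
      push_cast; ring
    rw [this, one_smul]
  have h1 : χ 1 = 0 := by
    rw [hone]
    simp only [map_add, map_mul, z2 0 1 (by decide), z2 1 0 (by decide), z3 0 1 (by decide),
      z3 1 0 (by decide), z3 2 0 (by decide)]
    simp
  rw [map_one] at h1
  exact one_ne_zero h1

/-- a nonzero `*`-homomorphism to `ℂ` is unital. -/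
theorem exists_unital {F : Type*} [Ring F] [StarRing F] [Algebra ℂ F] (χ : F →⋆ₙₐ[ℂ] ℂ)
    (hχ : χ ≠ 0) : Nonempty (F →⋆ₐ[ℂ] ℂ) := by
  have h1 : χ 1 = 1 := by
    have h2 : χ 1 * χ 1 = χ 1 := by rw [← map_mul, one_mul]
    rcases eq_or_ne (χ 1) 0 with h | h
    · exfalso
      apply hχ
      ext x
      have : χ x = χ 1 * χ x := by rw [← map_mul, one_mul]
      rw [this, h, zero_mul]; rfl
    · exact mul_left_cancel₀ h (by rw [h2, mul_one])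
  refine ⟨{ toFun := χ, map_one' := h1, map_mul' := map_mul χ, map_zero' := map_zero χ,
            map_add' := map_add χ, commutes' := fun r => ?_, map_star' := map_star χ }⟩
  change χ (algebraMap ℂ F r) = _
  rw [Algebra.algebraMap_eq_smul_one, map_smul, h1]
  simp

end Vale.Agent.P101
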