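import Mathlib

/-! An almost unitary element of a C*-algebra is close to a unitary. -/

namespace Vale.Agent.P101

theorem exists_unitary_near {B : Type*} [CStarAlgebra B] (x : B) (δ : ℝ) (h0 : 0 ≤ δ)
    (hδ : δ ≤ 1 / 2) (h1 : ‖star x * x - 1‖ ≤ δ) (h2 : ‖x * star x - 1‖ ≤ δ) :
    ∃ v ∈ unitary B, ‖v - x‖ ≤ δ := by
  let _ := CStarAlgebra.spectralOrder B
  have _ := CStarAlgebra.spectralOrderedRing B
  set y : B := star x * x with hy
  have hysa : IsSelfAdjoint y := IsSelfAdjoint.star_mul_self x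
  have hid : cfc (fun t : ℝ => t) y = y := cfc_id' ℝ y
  have hsp : ∀ t ∈ spectrum ℝ y, |t - 1| ≤ δ := by
    intro t ht
    have e1 : cfc (fun t : ℝ => t - 1) y = y - 1 := by
      rw [cfc_sub (fun t : ℝ => t) (fun _ => (1 : ℝ)) y continuousOn_id continuousOn_const,
        cfc_const_one ℝ y, hid]
    have e2 := norm_apply_le_norm_cfc (fun t : ℝ => t - 1) y ht (by fun_prop) hysa
    rw [e1, Real.norm_eq_abs] at e2
    exact e2.trans h1
  have hpos : ∀ t ∈ spectrum ℝ y, 1 / 2 ≤ t := fun t ht => by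
    have := abs_le.1 (hsp t ht); linarith [this.1]
  have hsq : ∀ t ∈ spectrum ℝ y, 0 < √t := fun t ht =>
    Real.sqrt_pos.2 (by linarith [hpos t ht])
  have hc1 : ContinuousOn (fun t : ℝ => (√t)⁻¹) (spectrum ℝ y) :=
    (Real.continuous_sqrt.continuousOn).inv₀ fun t ht => (hsq t ht).ne'
  set r : B := cfc (fun t : ℝ => (√t)⁻¹) y with hr
  have hrsa : star r = r := (cfc_predicate (fun t : ℝ => (√t)⁻¹) y).star_eq
  have hryr : r * y * r = 1 := by
    calc r * y * r = cfc (fun t : ℝ => (√t)⁻¹) y * cfc (fun t : ℝ => t) y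
          * cfc (fun t : ℝ => (√t)⁻¹) y := by rw [hid]
      _ = cfc (fun t : ℝ => (√t)⁻¹ * t * (√t)⁻¹) y := by
          rw [← cfc_mul (fun t : ℝ => (√t)⁻¹) (fun t => t) y hc1 continuousOn_id,
            ← cfc_mul (fun t : ℝ => (√t)⁻¹ * t) (fun t => (√t)⁻¹) y
              (hc1.mul continuousOn_id) hc1]
      _ = cfc (fun _ : ℝ => (1 : ℝ)) y := by
          refine cfc_congr fun t ht => ?_
          have h3 := hsq t ht
          have h4 : √t * √t = t := Real.mul_self_sqrt (by linarith [hpos t ht])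
          change (√t)⁻¹ * t * (√t)⁻¹ = 1
          field_simp
          nlinarith
      _ = 1 := cfc_const_one ℝ y
  have hyrr : y * (r * r) = 1 := by
    have hc : Commute r y := by
      have := cfc_commute_cfc (fun t : ℝ => (√t)⁻¹) (fun t : ℝ => t) y
      rwa [hid] at this
    calc y * (r * r) = (y * r) * r := by noncomm_ring
      _ = 1 := by rw [← hc.eq, hryr]
  -- `x x*` is invertible
  have hu : IsUnit (x * star x) := by
    have h3 : ‖1 - x * star x‖ < 1 := by rw [norm_sub_rev]; linarith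
    have := (Units.oneSub _ h3).isUnit
    simpa using this
  have hxx : x * (r * r) * star x = 1 := by
    obtain ⟨w, hw⟩ := hu
    have e1 : x * (r * r) * star x * (x * star x) = x * star x := by
      calc _ = x * ((r * r) * y) * star x := by rw [hy]; noncomm_ring
        _ = x * 1 * star x := by
            congr 2
            have hc : Commute (r * r) y := by
              have h3 := cfc_commute_cfc (fun t : ℝ => (√t)⁻¹) (fun t : ℝ => t) y
              rw [hid] at h3
              exact h3.mul_left h3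
            rw [hc.eq, hyrr]
        _ = _ := by rw [mul_one]
    rw [← hw] at e1
    calc x * (r * r) * star x = x * (r * r) * star x * (w * ↑w⁻¹) := by simp
      _ = (x * (r * r) * star x * w) * ↑w⁻¹ := by noncomm_ring
      _ = 1 := by rw [e1]; simp
  refine ⟨x * r, ?_, ?_⟩
  · rw [Unitary.mem_iff]
    constructor
    · rw [star_mul, hrsa]
      calc r * star x * (x * r) = r * y * r := by rw [hy]; noncomm_ring
        _ = 1 := hryr
    · rw [star_mul, hrsa]
      calc x * r * (r * star x) = x * (r * r) * star x := by noncomm_ring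
        _ = 1 := hxx
  · have e1 : ‖x * r - x‖ * ‖x * r - x‖ ≤ δ * δ := by
      rw [← CStarRing.norm_star_mul_self]
      have e2 : star (x * r - x) * (x * r - x) = r * y * r - y * r - r * y + y := by
        rw [star_sub, star_mul, hrsa, hy]; noncomm_ring
      have e3 : r * y * r - y * r - r * y + y
          = cfc (fun t : ℝ => (√t)⁻¹ * t * (√t)⁻¹ - t * (√t)⁻¹ - (√t)⁻¹ * t + t) y := by
        rw [cfc_add y (fun t : ℝ => (√t)⁻¹ * t * (√t)⁻¹ - t * (√t)⁻¹ - (√t)⁻¹ * t) (fun t => t)
            ((((hc1.mul continuousOn_id).mul hc1).sub (continuousOn_id.mul hc1)).sub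
              (hc1.mul continuousOn_id)) continuousOn_id,
          cfc_sub (fun t : ℝ => (√t)⁻¹ * t * (√t)⁻¹ - t * (√t)⁻¹) (fun t => (√t)⁻¹ * t) y
            (((hc1.mul continuousOn_id).mul hc1).sub (continuousOn_id.mul hc1))
            (hc1.mul continuousOn_id),
          cfc_sub (fun t : ℝ => (√t)⁻¹ * t * (√t)⁻¹) (fun t => t * (√t)⁻¹) y
            ((hc1.mul continuousOn_id).mul hc1) (continuousOn_id.mul hc1),
          cfc_mul (fun t : ℝ => (√t)⁻¹ * t) _ y (hc1.mul continuousOn_id) hc1,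
          cfc_mul (fun t : ℝ => (√t)⁻¹) (fun t => t) y hc1 continuousOn_id,
          cfc_mul (fun t : ℝ => t) (fun t => (√t)⁻¹) y continuousOn_id hc1, hid]
      rw [e2, e3]
      refine norm_cfc_le (mul_nonneg h0 h0) fun t ht => ?_
      have h3 := hsq t ht
      have h4 : √t * √t = t := Real.mul_self_sqrt (by linarith [hpos t ht])
      have h5 : (√t)⁻¹ * √t = 1 := inv_mul_cancel₀ h3.ne'
      have h6 : (√t)⁻¹ * t * (√t)⁻¹ - t * (√t)⁻¹ - (√t)⁻¹ * t + t = (1 - √t) ^ 2 := by
        have h7 : (√t)⁻¹ * t = √t := by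
          nth_rewrite 2 [← h4]
          rw [← mul_assoc, h5, one_mul]
        have h8 : t * (√t)⁻¹ = √t := by rw [mul_comm, h7]
        rw [h7, h8, mul_inv_cancel₀ h3.ne']
        nlinarith
      rw [h6, Real.norm_eq_abs, abs_of_nonneg (sq_nonneg _)]
      have h7 := abs_le.1 (hsp t ht)
      have h8 : |1 - √t| ≤ δ := by
        have h9 : (1 - √t) * (1 + √t) = 1 - t := by nlinarith
        have h10 : |1 - √t| * (1 + √t) = |t - 1| := by
          rw [abs_sub_comm t 1, ← h9, abs_mul, abs_of_pos (show 0 < 1 + √t by linarith)]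
        nlinarith [hsp t ht, abs_nonneg (1 - √t)]
      calc (1 - √t) ^ 2 = |1 - √t| ^ 2 := (sq_abs _).symm
        _ ≤ δ ^ 2 := by gcongr
        _ = δ * δ := sq δ
    exact abs_le_of_sq_le_sq' (by nlinarith [norm_nonneg (x * r - x)]) h0 |>.2

end Vale.Agent.P101
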