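import Vale.Agent.P101.Defs

/-! # `A_ω` and `F_ω(A)` are C⋆-algebras -/

open Filter Topology BoundedContinuousFunction

noncomputable section

namespace Vale.Agent.P101

variable {A : Type*} [CStarAlgebra A] {ω : Ultrafilter ℕ}

theorem exists_tendsto_norm (a : ℕ →ᵇ A) : ∃ L, Tendsto (fun n => ‖a n‖) ω (𝓝 L) := by
  have hc : IsCompact (Set.Icc (0:ℝ) ‖a‖) := isCompact_Icc
  have := hc.ultrafilter_le_nhds' (ω.map (fun n => ‖a n‖)) (by
    refine Filter.mem_map.mpr (Filter.univ_mem' fun n => ?_)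
    exact ⟨norm_nonneg _, a.norm_coe_le_norm n⟩)
  obtain ⟨L, -, hL⟩ := this
  exact ⟨L, hL⟩

instance nullIdeal.isClosed : IsClosed ((nullIdeal A ω : Ideal (ℕ →ᵇ A)) : Set (ℕ →ᵇ A)) := by
  rw [← isSeqClosed_iff_isClosed]
  intro u a hu hua
  rw [SetLike.mem_coe, mem_nullIdeal, Metric.tendsto_nhds]
  intro ε hε
  rw [Metric.tendsto_nhds] at hua
  obtain ⟨k, hk⟩ := (hua (ε/2) (half_pos hε)).exists
  have h1 := hu k
  rw [SetLike.mem_coe, mem_nullIdeal, Metric.tendsto_nhds] at h1
  filter_upwards [h1 (ε/2) (half_pos hε)] with n hn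
  simp only [dist_zero_right, norm_norm] at *
  have h2 : ‖a n - u k n‖ ≤ dist (u k) a := by
    rw [dist_comm, dist_eq_norm]
    simpa using (a - u k).norm_coe_le_norm n
  calc ‖a n‖ = ‖u k n + (a n - u k n)‖ := by congr 1; abel
    _ ≤ ‖u k n‖ + ‖a n - u k n‖ := norm_add_le _ _
    _ < ε := by linarith

instance SeqAlg.instNormedAddCommGroup : NormedAddCommGroup (SeqAlg A ω) :=
  Submodule.Quotient.normedAddCommGroup _

theorem exists_lift_norm_lt (x : SeqAlg A ω) {ε : ℝ} (hε : 0 < ε) :
    ∃ b : ℕ →ᵇ A, cls ω b = x ∧ ‖b‖ < ‖x‖ + ε :=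
  Submodule.Quotient.norm_mk_lt x hε

theorem norm_cls_le (a : ℕ →ᵇ A) : ‖cls ω a‖ ≤ ‖a‖ := Submodule.Quotient.norm_mk_le _ a

/-- The norm on `A_ω` is the limit of the norms. -/
theorem tendsto_norm_cls (a : ℕ →ᵇ A) : Tendsto (fun n => ‖a n‖) ω (𝓝 ‖cls ω a‖) := by
  obtain ⟨L, hL⟩ := exists_tendsto_norm (ω := ω) a
  have h1 : L ≤ ‖cls ω a‖ := by
    refine le_of_forall_pos_le_add fun ε hε => ?_
    obtain ⟨b, hb, hb2⟩ := exists_lift_norm_lt (cls ω a) hε
    replace hb : cls ω b = cls ω a := hb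
    have h3 : Tendsto (fun n => ‖b n‖) ω (𝓝 L) := by
      have h4 := cls_eq_cls.1 hb
      have h5 : Tendsto (fun n => ‖b n‖ - ‖a n‖) ω (𝓝 0) := by
        rw [tendsto_zero_iff_abs_tendsto_zero]
        exact squeeze_zero (fun n => abs_nonneg _) (fun n => abs_norm_sub_norm_le _ _) h4
      simpa using h5.add hL
    refine le_trans (le_of_tendsto h3 (Filter.Eventually.of_forall fun n => b.norm_coe_le_norm n)) hb2.le
  have h2 : ‖cls ω a‖ ≤ L := by
    refine le_of_forall_pos_le_add fun ε hε => ?_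
    have hU : ∀ᶠ n in ω, ‖a n‖ ≤ L + ε := by
      filter_upwards [hL.eventually (gt_mem_nhds (show L < L + ε by linarith))] with n hn using hn.le
    classical
    have hL0 : 0 ≤ L := ge_of_tendsto hL (Filter.Eventually.of_forall fun n => norm_nonneg _)
    let b : ℕ →ᵇ A := BoundedContinuousFunction.ofNormedAddCommGroup
      (fun n => if ‖a n‖ ≤ L + ε then a n else 0) continuous_of_discreteTopology (L + ε) (by
        intro n
        split_ifs with h
        · exact h
        · rw [norm_zero]; linarith)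
    have hb : cls ω a = cls ω b := by
      rw [cls_eq_cls]
      refine tendsto_const_nhds.congr' ?_
      filter_upwards [hU] with n hn
      simp [b, hn]
    rw [hb]
    refine (norm_cls_le b).trans ?_
    exact BoundedContinuousFunction.norm_ofNormedAddCommGroup_le _ (by linarith) _
  rw [le_antisymm h2 h1]
  exact hL

instance SeqAlg.instNormedRing : NormedRing (SeqAlg A ω) where
  dist_eq := fun x y => rfl
  norm_mul_le := by
    intro x y
    obtain ⟨a, rfl⟩ := Ideal.Quotient.mk_surjective x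
    obtain ⟨b, rfl⟩ := Ideal.Quotient.mk_surjective y
    rw [← map_mul]
    refine le_of_tendsto_of_tendsto (tendsto_norm_cls (a * b))
      ((tendsto_norm_cls a).mul (tendsto_norm_cls b)) (Filter.Eventually.of_forall fun n => ?_)
    exact norm_mul_le _ _

/-- `A_ω` is a C⋆-algebra. -/
instance SeqAlg.instCStarAlgebra : CStarAlgebra (SeqAlg A ω) where
  norm_mul_self_le := by
    intro x
    obtain ⟨a, rfl⟩ := Ideal.Quotient.mk_surjective x
    rw [star_cls, ← map_mul]
    refine le_of_tendsto_of_tendsto ((tendsto_norm_cls a).mul (tendsto_norm_cls a))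
      (tendsto_norm_cls (star a * a)) (Filter.Eventually.of_forall fun n => ?_)
    simp [CStarRing.norm_star_mul_self]
  norm_smul_le := by
    intro c x
    obtain ⟨a, rfl⟩ := Ideal.Quotient.mk_surjective x
    rw [smul_cls]
    refine le_of_tendsto_of_tendsto (tendsto_norm_cls (c • a))
      ((tendsto_norm_cls a).const_mul ‖c‖) (Filter.Eventually.of_forall fun n => ?_)
    simp [norm_smul]

theorem mem_centralSeq {x : SeqAlg A ω} :
    x ∈ centralSeq A ω ↔ ∀ a : A, Commute (constSeq A ω a) x := by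
  rw [centralSeq, StarSubalgebra.mem_centralizer_iff]
  constructor
  · intro h a
    exact (h _ ⟨a, rfl⟩).1
  · rintro h _ ⟨a, rfl⟩
    refine ⟨h a, ?_⟩
    rw [← map_star]
    exact h (star a)

instance centralSeq.isClosed :
    IsClosed ((centralSeq A ω : StarSubalgebra ℂ (SeqAlg A ω)) : Set (SeqAlg A ω)) := by
  have : ((centralSeq A ω : StarSubalgebra ℂ (SeqAlg A ω)) : Set (SeqAlg A ω)) =
      ⋂ a : A, {x | constSeq A ω a * x = x * constSeq A ω a} := by
    ext x
    simp only [SetLike.mem_coe, mem_centralSeq, Set.mem_iInter]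
    rfl
  rw [this]
  exact isClosed_iInter fun a => isClosed_eq (continuous_const_mul _) (continuous_mul_const _)

/-- `F_ω(A)` is a C⋆-algebra. -/
instance centralSeq.instCStarAlgebra : CStarAlgebra (centralSeq A ω) :=
  StarSubalgebra.cstarAlgebra (centralSeq A ω)

end Vale.Agent.P101
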