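import Vale.Agent.P101.GenOne

/-! Stage 0: from a full commutator ideal to the commutator ideal of ONE selfadjoint element. -/

namespace Vale.Agent.P101

universe u

/-- commutators with the letters `c j` -/
def Comm {E : Type u} [Ring E] {k : ℕ} (c : Fin k → E) : Set E :=
  {z | ∃ j q, z = c j * q - q * c j}

section key
variable {Q : Type*} [Ring Q]

theorem term_zero {a u t b a' v t' b' : Q} (h1 : Commute u t) (h2 : Commute u a')
    (h3 : Commute b a') (h4 : Commute b v) (huv : u * v = 0) :
    (a * (u * t) * b) * (a' * (v * t') * b') = 0 := by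
  have e1 : (a * (u * t) * b) * (a' * (v * t') * b')
      = a * (u * t) * (b * a') * v * t' * b' := by noncomm_ring
  rw [e1, h3.eq, h1.eq]
  have e2 : a * (t * u) * (a' * b) * v * t' * b' = a * t * (u * a') * (b * v) * t' * b' := by
    noncomm_ring
  rw [e2, h2.eq, h4.eq]
  have e3 : a * t * (a' * u) * (v * b) * t' * b' = a * t * a' * (u * v) * b * t' * b' := by
    noncomm_ring
  rw [e3, huv]
  simp

theorem rel_aux {A B c D x : Q} (e : (A + B + c * D) * x = x * (A + B + c * D))
    (e1 : x * B = B * x) (e2 : x * D = D * x) : A * x - x * A = -((c * x - x * c) * D) := by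
  have h : A * x - x * A + (c * x - x * c) * D
      = ((A + B + c * D) * x - x * (A + B + c * D)) + (x * B - B * x) + c * (x * D - D * x) := by
    noncomm_ring
  rw [e, e1, e2] at h
  rw [eq_neg_iff_add_eq_zero, h]
  simp

end key

section merge

variable {E : Type u} [Ring E] [StarRing E] [Algebra ℂ E] [StarModule ℂ E]

theorem merge_two (hcp : HasCopies E) {k : ℕ} (c : Fin (k + 2) → E)
    (hc : ∀ j, IsSelfAdjoint (c j)) (h : GenOne (Comm c)) :
    ∃ c' : Fin (k + 1) → E, (∀ j, IsSelfAdjoint (c' j)) ∧ GenOne (Comm c') := by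
  classical
  obtain ⟨n, a, s, b, hs, h1⟩ := h
  choose j q hjq using hs
  set S : Set E := Set.range c ∪ Set.range a ∪ Set.range b ∪ Set.range q with hS
  have hSf : S.Finite :=
    (((Set.finite_range c).union (Set.finite_range a)).union (Set.finite_range b)).union
      (Set.finite_range q)
  obtain ⟨ρ, hρ⟩ := hcp S hSf
  have hsub : S ⊆ (StarAlgebra.adjoin ℂ S : Set E) := StarAlgebra.subset_adjoin ℂ S
  let C : Fin (k + 2) → StarAlgebra.adjoin ℂ S := fun i =>
    ⟨c i, hsub (Or.inl (Or.inl (Or.inl ⟨i, rfl⟩)))⟩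
  let A' : Fin n → StarAlgebra.adjoin ℂ S := fun i =>
    ⟨a i, hsub (Or.inl (Or.inl (Or.inr ⟨i, rfl⟩)))⟩
  let B' : Fin n → StarAlgebra.adjoin ℂ S := fun i =>
    ⟨b i, hsub (Or.inl (Or.inr ⟨i, rfl⟩))⟩
  let Q' : Fin n → StarAlgebra.adjoin ℂ S := fun i =>
    ⟨q i, hsub (Or.inr ⟨i, rfl⟩)⟩
  have hC : ∀ i, IsSelfAdjoint (C i) := fun i => Subtype.ext (hc i)
  have hone : ∑ i, A' i * (C (j i) * Q' i - Q' i * C (j i)) * B' i = 1 := by
    apply Subtype.ext
    push_cast
    rw [← h1]
    exact Finset.sum_congr rfl fun i _ => by rw [hjq i]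
  have hcomm : ∀ x y, Commute (ρ 0 x) (ρ 1 y) := hρ 0 1 (by norm_num)
  let H : E := ρ 0 (C 1) + ρ 1 (C 1) + ρ 0 (C 0) * ρ 1 (C 0)
  let c' : Fin (k + 1) → E := Fin.cons H fun i => ρ 0 (C i.succ.succ) + ρ 1 (C i.succ.succ)
  have hsa : ∀ m i, IsSelfAdjoint (ρ m (C i)) := fun m i => (hC i).map (ρ m)
  refine ⟨c', ?_, ?_⟩
  · intro i
    refine Fin.cases ?_ (fun i => ?_) i
    · simp only [c', Fin.cons_zero, H]
      refine ((hsa 0 1).add (hsa 1 1)).add ?_
      rw [IsSelfAdjoint, star_mul, (hsa 0 0).star_eq, (hsa 1 0).star_eq]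
      exact ((hcomm _ _).eq).symm
    · simp only [c', Fin.cons_succ]
      exact (hsa 0 _).add (hsa 1 _)
  · refine genOne_of_hom fun Q _ π hπ => ?_
    -- centrality of the new letters in Q
    have hH : ∀ x : E, π H * π x = π x * π H := fun x => by
      have := hπ (H * x - x * H) ⟨0, x, by simp [c']⟩
      rw [map_sub, map_mul, map_mul, sub_eq_zero] at this
      exact this
    have hL : ∀ (i : Fin k) (x : E), π (ρ 0 (C i.succ.succ) + ρ 1 (C i.succ.succ)) * π x
        = π x * π (ρ 0 (C i.succ.succ) + ρ 1 (C i.succ.succ)) := fun i x => by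
      have := hπ ((ρ 0 (C i.succ.succ) + ρ 1 (C i.succ.succ)) * x
        - x * (ρ 0 (C i.succ.succ) + ρ 1 (C i.succ.succ))) ⟨i.succ, x, by simp [c']⟩
      rw [map_sub, map_mul, map_mul, sub_eq_zero] at this
      exact this
    let φ : StarAlgebra.adjoin ℂ S →+* Q := π.comp (ρ 0 : StarAlgebra.adjoin ℂ S →+* E)
    let ψ : StarAlgebra.adjoin ℂ S →+* Q := π.comp (ρ 1 : StarAlgebra.adjoin ℂ S →+* E)
    have hφψ : ∀ x y, Commute (φ x) (ψ y) := fun x y => (hcomm x y).map π
    have hHe : π H = φ (C 1) + ψ (C 1) + φ (C 0) * ψ (C 0) := by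
      simp [H, φ, ψ]
    -- first-order relations
    have r0 : ∀ x, φ (C 1 * x - x * C 1) = - (φ (C 0 * x - x * C 0) * ψ (C 0)) := by
      intro x
      have e := hH (ρ 0 x)
      rw [hHe] at e
      change _ * φ x = φ x * _ at e
      have e1 := (hφψ x (C 1)).eq
      have e2 := (hφψ x (C 0)).eq
      rw [map_sub, map_mul, map_mul, map_sub, map_mul, map_mul]
      exact rel_aux e e1 e2
    have r1 : ∀ x, ψ (C 1 * x - x * C 1) = - (ψ (C 0 * x - x * C 0) * φ (C 0)) := by
      intro x
      have e := hH (ρ 1 x)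
      rw [hHe] at e
      change _ * ψ x = ψ x * _ at e
      have e1 := (hφψ (C 1) x).eq
      have e2 := (hφψ (C 0) x).eq
      have e0 := (hφψ (C 0) (C 0)).eq
      rw [map_sub, map_mul, map_mul, map_sub, map_mul, map_mul]
      rw [add_comm (φ (C 1)), e0] at e
      exact rel_aux e e1.symm e2.symm
    have l0 : ∀ (i : Fin k) x, φ (C i.succ.succ * x - x * C i.succ.succ) = 0 := by
      intro i x
      have e := hL i (ρ 0 x)
      rw [map_add] at e
      change (φ (C i.succ.succ) + ψ (C i.succ.succ)) * φ x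
        = φ x * (φ (C i.succ.succ) + ψ (C i.succ.succ)) at e
      have e1 := (hφψ x (C i.succ.succ)).eq
      rw [add_mul, mul_add, e1] at e
      rw [map_sub, map_mul, map_mul, sub_eq_zero]
      exact add_right_cancel e
    have l1 : ∀ (i : Fin k) x, ψ (C i.succ.succ * x - x * C i.succ.succ) = 0 := by
      intro i x
      have e := hL i (ρ 1 x)
      rw [map_add] at e
      change (φ (C i.succ.succ) + ψ (C i.succ.succ)) * ψ x
        = ψ x * (φ (C i.succ.succ) + ψ (C i.succ.succ)) at e
      have e1 := (hφψ (C i.succ.succ) x).eq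
      rw [add_mul, mul_add, e1] at e
      rw [map_sub, map_mul, map_mul, sub_eq_zero]
      exact add_left_cancel e
    -- double commutator
    have dc : ∀ x y, φ (C 0 * x - x * C 0) * ψ (C 0 * y - y * C 0) = 0 := by
      intro x y
      have e := r0 x
      have e1 : Commute (φ (C 0 * x - x * C 0) * ψ (C 0)) (ψ y) := by
        have := hφψ (C 1 * x - x * C 1) y
        rw [e] at this
        exact (Commute.neg_left_iff).1 this
      have e2 := (hφψ (C 0 * x - x * C 0) y).eq
      have e3 := e1.eq
      rw [← mul_assoc, ← e2] at e3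
      rw [map_sub ψ, map_mul, map_mul, mul_sub, ← mul_assoc, ← mul_assoc, sub_eq_zero]
      exact e3
    let tB : Fin n → Q := fun i => if j i = 0 then 1 else if j i = 1 then - ψ (C 0) else 0
    let tA : Fin n → Q := fun i => if j i = 0 then 1 else if j i = 1 then - φ (C 0) else 0
    have kA : ∀ i, φ (C (j i) * Q' i - Q' i * C (j i))
        = φ (C 0 * Q' i - Q' i * C 0) * tB i := by
      intro i
      by_cases h0 : j i = 0
      · simp [tB, h0]
      · by_cases h1' : j i = 1
        · rw [h1', r0]; simp [tB, h1']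
        · obtain ⟨l, hl⟩ : ∃ l : Fin k, j i = l.succ.succ := by
            obtain ⟨l1, hl1⟩ := Fin.exists_succ_eq.2 h0
            have : l1 ≠ 0 := by
              rintro rfl; exact h1' hl1.symm
            obtain ⟨l2, hl2⟩ := Fin.exists_succ_eq.2 this
            exact ⟨l2, by rw [hl2, hl1]⟩
          rw [hl, l0]
          have : tB i = 0 := by simp only [tB, if_neg h0, if_neg h1']
          rw [this, mul_zero]
    have kB : ∀ i, ψ (C (j i) * Q' i - Q' i * C (j i))
        = ψ (C 0 * Q' i - Q' i * C 0) * tA i := by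
      intro i
      by_cases h0 : j i = 0
      · simp [tA, h0]
      · by_cases h1' : j i = 1
        · rw [h1', r1]; simp [tA, h1']
        · obtain ⟨l, hl⟩ : ∃ l : Fin k, j i = l.succ.succ := by
            obtain ⟨l1, hl1⟩ := Fin.exists_succ_eq.2 h0
            have : l1 ≠ 0 := by
              rintro rfl; exact h1' hl1.symm
            obtain ⟨l2, hl2⟩ := Fin.exists_succ_eq.2 this
            exact ⟨l2, by rw [hl2, hl1]⟩
          rw [hl, l1]
          have : tA i = 0 := by simp only [tA, if_neg h0, if_neg h1']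
          rw [this, mul_zero]
    have oneA : ∑ i, φ (A' i) * (φ (C 0 * Q' i - Q' i * C 0) * tB i) * φ (B' i) = 1 := by
      rw [← map_one φ, ← hone, map_sum]
      exact Finset.sum_congr rfl fun i _ => by rw [map_mul, map_mul, kA]
    have oneB : ∑ i, ψ (A' i) * (ψ (C 0 * Q' i - Q' i * C 0) * tA i) * ψ (B' i) = 1 := by
      rw [← map_one ψ, ← hone, map_sum]
      exact Finset.sum_congr rfl fun i _ => by rw [map_mul, map_mul, kB]
    have htB : ∀ i x, Commute (φ x) (tB i) := by
      intro i x
      simp only [tB]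
      split_ifs
      · exact Commute.one_right _
      · exact (hφψ _ _).neg_right
      · exact Commute.zero_right _
    calc (1 : Q) = 1 * 1 := by rw [one_mul]
      _ = (∑ i, φ (A' i) * (φ (C 0 * Q' i - Q' i * C 0) * tB i) * φ (B' i)) *
          (∑ i, ψ (A' i) * (ψ (C 0 * Q' i - Q' i * C 0) * tA i) * ψ (B' i)) := by
            rw [oneA, oneB]
      _ = 0 := by
        rw [Finset.sum_mul_sum]
        refine Finset.sum_eq_zero fun i _ => Finset.sum_eq_zero fun l _ => ?_
        exact term_zero (htB i _) (hφψ _ _) (hφψ _ _) (hφψ _ _) (dc _ _)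

theorem merge_all (hcp : HasCopies E) : ∀ (k : ℕ) (c : Fin (k + 1) → E),
    (∀ j, IsSelfAdjoint (c j)) → GenOne (Comm c) →
    ∃ H : E, IsSelfAdjoint H ∧ GenOne {z : E | ∃ q, z = H * q - q * H} := by
  intro k
  induction k with
  | zero =>
    intro c hc h
    refine ⟨c 0, hc 0, ?_⟩
    obtain ⟨n, a, s, b, hs, h1⟩ := h
    refine ⟨n, a, s, b, fun i => ?_, h1⟩
    obtain ⟨j, q, hq⟩ := hs i
    have : j = 0 := Fin.ext (by omega)
    subst this
    exact ⟨q, hq⟩
  | succ k ih =>
    intro c hc h
    obtain ⟨c', hc', h'⟩ := merge_two hcp c hc h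
    exact ih c' hc' h'

end merge

/-- **Stage 0.** -/
theorem stage0 {E : Type u} [CStarAlgebra E] (hcp : HasCopies E)
    (h : GenOne {z : E | ∃ x y, z = x * y - y * x}) :
    ∃ H : E, IsSelfAdjoint H ∧ GenOne {z : E | ∃ q, z = H * q - q * H} := by
  obtain ⟨n, a, s, b, hs, h1⟩ := h
  choose x y hxy using hs
  let c : Fin (n + n + 1) → E := Fin.cons 0
    (Fin.append (fun i => ((realPart (x i) : selfAdjoint E) : E))
      (fun i => ((imaginaryPart (x i) : selfAdjoint E) : E)))
  refine merge_all hcp (n + n) c ?_ ?_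
  · intro j
    refine Fin.cases ?_ (fun j => ?_) j
    · simp [c]
    · refine Fin.addCases (fun i => ?_) (fun i => ?_) j
      · simp only [c, Fin.cons_succ, Fin.append_left]
        exact (realPart (x i)).2
      · simp only [c, Fin.cons_succ, Fin.append_right]
        exact (imaginaryPart (x i)).2
  · refine genOne_of_hom fun Q _ π hπ => ?_
    have hR : ∀ i (t : E), π ((realPart (x i) : selfAdjoint E) : E) * π t
        = π t * π ((realPart (x i) : selfAdjoint E) : E) := fun i t => by
      have := hπ (((realPart (x i) : selfAdjoint E) : E) * t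
        - t * ((realPart (x i) : selfAdjoint E) : E))
        ⟨(Fin.castAdd n i).succ, t, by simp only [c, Fin.cons_succ, Fin.append_left]⟩
      rw [map_sub, map_mul, map_mul, sub_eq_zero] at this
      exact this
    have hI : ∀ i (t : E), π ((imaginaryPart (x i) : selfAdjoint E) : E) * π t
        = π t * π ((imaginaryPart (x i) : selfAdjoint E) : E) := fun i t => by
      have := hπ (((imaginaryPart (x i) : selfAdjoint E) : E) * t
        - t * ((imaginaryPart (x i) : selfAdjoint E) : E))
        ⟨(Fin.natAdd n i).succ, t, by simp only [c, Fin.cons_succ, Fin.append_right]⟩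
      rw [map_sub, map_mul, map_mul, sub_eq_zero] at this
      exact this
    have hX : ∀ i (t : E), π (x i) * π t = π t * π (x i) := by
      intro i t
      have e := realPart_add_I_smul_imaginaryPart (x i)
      rw [← e, map_add, add_mul, mul_add, hR]
      congr 1
      have e2 : (Complex.I • ((imaginaryPart (x i) : selfAdjoint E) : E))
          = (algebraMap ℂ E Complex.I) * ((imaginaryPart (x i) : selfAdjoint E) : E) :=
        Algebra.smul_def _ _
      have e3 : π (algebraMap ℂ E Complex.I) * π t = π t * π (algebraMap ℂ E Complex.I) := by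
        rw [← map_mul, ← map_mul, Algebra.commutes]
      rw [e2, map_mul, mul_assoc, hI, ← mul_assoc, e3, mul_assoc]
    refine (show GenOne {z : E | ∃ x' ∈ Set.range x, ∃ y', z = x' * y' - y' * x'} from
      ⟨n, a, s, b, fun i => ⟨x i, ⟨i, rfl⟩, y i, hxy i⟩, h1⟩).hom π ?_
    rintro z ⟨x', ⟨i, rfl⟩, y', rfl⟩
    rw [map_sub, map_mul, map_mul, hX, sub_self]

end Vale.Agent.P101
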