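import Vale.Agent.P101.TensorInj
import Vale.Agent.P101.Copies

/-! # Homomorphisms out of tensor products -/

open scoped TensorProduct

noncomputable section

universe u

namespace Vale.Agent.P101

/-- `tensorMap` as a `*`-homomorphism. -/
def tensorStar {A B T : Type*} [CStarAlgebra A] [CStarAlgebra B] [CStarAlgebra T]
    (i : A →⋆ₐ[ℂ] T) (j : B →⋆ₐ[ℂ] T) (h : ∀ a b, Commute (i a) (j b)) :
    A ⊗[ℂ] B →⋆ₐ[ℂ] T :=
  { Algebra.TensorProduct.lift i.toAlgHom j.toAlgHom h with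
    map_star' := by
      intro x
      induction x with
      | zero => simp
      | add x y hx hy => simpa using congrArg₂ (· + ·) hx hy
      | tmul a b =>
        change Algebra.TensorProduct.lift i.toAlgHom j.toAlgHom h (star a ⊗ₜ star b) =
          star (Algebra.TensorProduct.lift i.toAlgHom j.toAlgHom h (a ⊗ₜ b))
        rw [Algebra.TensorProduct.lift_tmul, Algebra.TensorProduct.lift_tmul]
        change i (star a) * j (star b) = star (i a * j b)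
        rw [star_mul, map_star, map_star, ← map_star, ← map_star, (h _ _).eq] }

theorem tensorStar_apply {A B T : Type u} [CStarAlgebra A] [CStarAlgebra B] [CStarAlgebra T]
    (i : A →⋆ₐ[ℂ] T) (j : B →⋆ₐ[ℂ] T) (h : ∀ a b, Commute (i a) (j b)) (x : A ⊗[ℂ] B) :
    tensorStar i j h x = tensorMap i j h x := rfl

/-- Extension of a homomorphism from a dense image. -/
theorem exists_ext {R P Q : Type*} [Ring R] [StarRing R] [Algebra ℂ R] [StarModule ℂ R]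
    [CStarAlgebra P] [CStarAlgebra Q] (π : R →⋆ₐ[ℂ] P) (Φ : R →⋆ₐ[ℂ] Q) (hπ : DenseRange π)
    (h : ∀ x, ‖Φ x‖ ≤ ‖π x‖) :
    ∃ ψ : P →⋆ₐ[ℂ] Q, (∀ x, ψ (π x) = Φ x) ∧ (∀ c, ψ c ∈ closure (Set.range Φ)) := by
  let D : StarSubalgebra ℂ (P × Q) := (π.prod Φ).range
  obtain ⟨ψ, -, h2, h3⟩ := exists_hom_of_norm_le (StarAlgHom.fst ℂ P Q) (StarAlgHom.snd ℂ P Q) D
    (by
      rintro _ ⟨x, rfl⟩
      exact h x) ⊤ (by
      intro c _
      have h4 : StarAlgHom.fst ℂ P Q '' (D : Set (P × Q)) = Set.range π := by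
        ext y
        constructor
        · rintro ⟨_, ⟨x, rfl⟩, rfl⟩
          exact ⟨x, rfl⟩
        · rintro ⟨x, rfl⟩
          exact ⟨_, ⟨x, rfl⟩, rfl⟩
      rw [h4]
      exact hπ c)
  have h5 : StarAlgHom.snd ℂ P Q '' (D : Set (P × Q)) = Set.range Φ := by
    ext y
    constructor
    · rintro ⟨_, ⟨x, rfl⟩, rfl⟩
      exact ⟨x, rfl⟩
    · rintro ⟨x, rfl⟩
      exact ⟨_, ⟨x, rfl⟩, rfl⟩
  rw [h5] at h3
  refine ⟨ψ.comp ((StarAlgHom.id ℂ P).codRestrict ⊤ (fun _ => trivial)), fun x => ?_, fun c => h3 _⟩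
  exact h2 ((π.prod Φ) x) ⟨x, rfl⟩ trivial

variable {A B Z T Q : Type u} [CStarAlgebra A] [CStarAlgebra B] [CStarAlgebra Z] [CStarAlgebra T]
  [CStarAlgebra Q]

theorem tensorMap_left (i : A →⋆ₐ[ℂ] T) (j : B →⋆ₐ[ℂ] T) (h : ∀ a b, Commute (i a) (j b)) (a : A) :
    tensorMap i j h (a ⊗ₜ 1) = i a := by
  rw [tensorMap, Algebra.TensorProduct.lift_tmul, map_one, mul_one]
  rfl

theorem tensorMap_right (i : A →⋆ₐ[ℂ] T) (j : B →⋆ₐ[ℂ] T) (h : ∀ a b, Commute (i a) (j b)) (b : B) :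
    tensorMap i j h (1 ⊗ₜ b) = j b := by
  rw [tensorMap, Algebra.TensorProduct.lift_tmul, map_one, one_mul]
  rfl

theorem tensorMap_tmul (i : A →⋆ₐ[ℂ] T) (j : B →⋆ₐ[ℂ] T) (h : ∀ a b, Commute (i a) (j b)) (a : A)
    (b : B) : tensorMap i j h (a ⊗ₜ b) = i a * j b := by
  rw [tensorMap, Algebra.TensorProduct.lift_tmul]
  rfl

theorem exists_tensor_hom (i : A →⋆ₐ[ℂ] T) (j : B →⋆ₐ[ℂ] T) (hT : IsTensorCompletion i j)
    (i' : A →⋆ₐ[ℂ] Q) (j' : B →⋆ₐ[ℂ] Q) (h' : ∀ a b, Commute (i' a) (j' b))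
    (hn : ∀ x, ‖tensorMap i' j' h' x‖ ≤ ‖tensorMap i j hT.comm x‖) :
    ∃ Ψ : T →⋆ₐ[ℂ] Q, (∀ a, Ψ (i a) = i' a) ∧ (∀ b, Ψ (j b) = j' b) ∧
      ∀ t, Ψ t ∈ closure (Set.range (tensorMap i' j' h')) := by
  obtain ⟨ψ, h1, h2⟩ := exists_ext (tensorStar i j hT.comm) (tensorStar i' j' h') hT.denseRange hn
  refine ⟨ψ, fun a => ?_, fun b => ?_, h2⟩
  · have := h1 (a ⊗ₜ 1)
    rw [tensorStar_apply, tensorStar_apply, tensorMap_left, tensorMap_left] at this
    exact this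
  · have := h1 (1 ⊗ₜ b)
    rw [tensorStar_apply, tensorStar_apply, tensorMap_right, tensorMap_right] at this
    exact this

/-- The C⋆-algebra generated by the ranges of `i'` and `j'`. -/
def tensorRange (i' : A →⋆ₐ[ℂ] Q) (j' : B →⋆ₐ[ℂ] Q) (h' : ∀ a b, Commute (i' a) (j' b)) :
    StarSubalgebra ℂ Q := (tensorStar i' j' h').range.topologicalClosure

instance (i' : A →⋆ₐ[ℂ] Q) (j' : B →⋆ₐ[ℂ] Q) (h' : ∀ a b, Commute (i' a) (j' b)) :
    IsClosed (tensorRange i' j' h' : Set Q) := isClosed_closure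

instance (i' : A →⋆ₐ[ℂ] Q) (j' : B →⋆ₐ[ℂ] Q) (h' : ∀ a b, Commute (i' a) (j' b)) :
    CStarAlgebra (tensorRange i' j' h') := StarSubalgebra.cstarAlgebra _

theorem tensorMap_mem_tensorRange (i' : A →⋆ₐ[ℂ] Q) (j' : B →⋆ₐ[ℂ] Q)
    (h' : ∀ a b, Commute (i' a) (j' b)) (x : A ⊗[ℂ] B) :
    tensorMap i' j' h' x ∈ tensorRange i' j' h' :=
  subset_closure ⟨x, rfl⟩

def tensorRangeLeft (i' : A →⋆ₐ[ℂ] Q) (j' : B →⋆ₐ[ℂ] Q) (h' : ∀ a b, Commute (i' a) (j' b)) :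
    A →⋆ₐ[ℂ] tensorRange i' j' h' :=
  i'.codRestrict _ (fun a => by
    rw [← tensorMap_left i' j' h']; exact tensorMap_mem_tensorRange _ _ _ _)

def tensorRangeRight (i' : A →⋆ₐ[ℂ] Q) (j' : B →⋆ₐ[ℂ] Q) (h' : ∀ a b, Commute (i' a) (j' b)) :
    B →⋆ₐ[ℂ] tensorRange i' j' h' :=
  j'.codRestrict _ (fun b => by
    rw [← tensorMap_right i' j' h']; exact tensorMap_mem_tensorRange _ _ _ _)

@[simp] theorem coe_tensorRangeLeft (i' : A →⋆ₐ[ℂ] Q) (j' : B →⋆ₐ[ℂ] Q)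
    (h' : ∀ a b, Commute (i' a) (j' b)) (a : A) :
    (tensorRangeLeft i' j' h' a : Q) = i' a := rfl

@[simp] theorem coe_tensorRangeRight (i' : A →⋆ₐ[ℂ] Q) (j' : B →⋆ₐ[ℂ] Q)
    (h' : ∀ a b, Commute (i' a) (j' b)) (b : B) :
    (tensorRangeRight i' j' h' b : Q) = j' b := rfl

theorem tensorRange_comm (i' : A →⋆ₐ[ℂ] Q) (j' : B →⋆ₐ[ℂ] Q)
    (h' : ∀ a b, Commute (i' a) (j' b)) (a : A) (b : B) :
    Commute (tensorRangeLeft i' j' h' a) (tensorRangeRight i' j' h' b) :=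
  Subtype.ext (h' a b)

theorem coe_tensorMap_range (i' : A →⋆ₐ[ℂ] Q) (j' : B →⋆ₐ[ℂ] Q)
    (h' : ∀ a b, Commute (i' a) (j' b)) (x : A ⊗[ℂ] B) :
    (tensorMap (tensorRangeLeft i' j' h') (tensorRangeRight i' j' h')
      (tensorRange_comm i' j' h') x : Q) = tensorMap i' j' h' x := by
  induction x with
  | zero => simp
  | add x y hx hy => simp only [map_add, AddMemClass.coe_add, hx, hy]
  | tmul a b =>
    rw [tensorMap_tmul, tensorMap_tmul]
    rfl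

theorem isTensorCompletion_range (i' : A →⋆ₐ[ℂ] Q) (j' : B →⋆ₐ[ℂ] Q)
    (h' : ∀ a b, Commute (i' a) (j' b)) (hinj : Function.Injective (tensorMap i' j' h')) :
    IsTensorCompletion (tensorRangeLeft i' j' h') (tensorRangeRight i' j' h') where
  comm := tensorRange_comm i' j' h'
  injective := by
    intro x y hxy
    apply hinj
    rw [← coe_tensorMap_range i' j' h' x, ← coe_tensorMap_range i' j' h' y, hxy]
  denseRange := by
    rintro ⟨c, hc⟩
    rw [Metric.mem_closure_iff]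
    intro ε hε
    obtain ⟨_, ⟨x, rfl⟩, hx⟩ := Metric.mem_closure_iff.1 hc ε hε
    refine ⟨_, ⟨x, rfl⟩, ?_⟩
    rw [Subtype.dist_eq, coe_tensorMap_range]
    exact hx

/-- A pair of commuting homomorphisms `B → Q` (injective), `Z → Q` with `Z` simple and nuclear
extends to any C⋆-tensor product of `B` and `Z`. -/
theorem exists_hom_of_nuclear [IsSimpleRing Z] (hZ : IsNuclear Z) (i : B →⋆ₐ[ℂ] T)
    (j : Z →⋆ₐ[ℂ] T) (hT : IsTensorCompletion i j) (i' : B →⋆ₐ[ℂ] Q) (j' : Z →⋆ₐ[ℂ] Q)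
    (h' : ∀ a b, Commute (i' a) (j' b)) (hi' : Function.Injective i') :
    ∃ Ψ : T →⋆ₐ[ℂ] Q, (∀ a, Ψ (i a) = i' a) ∧ (∀ b, Ψ (j b) = j' b) ∧
      ∀ t, Ψ t ∈ closure (Set.range (tensorMap i' j' h')) := by
  have hinj : Function.Injective (tensorMap i' j' h') :=
    tensor_injective_of_simple i'.toAlgHom j'.toAlgHom h' hi'
  refine exists_tensor_hom i j hT i' j' h' fun x => ?_
  have h1 := hZ B T _ i j _ _ hT (isTensorCompletion_range i' j' h' hinj) x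
  rw [h1, ← coe_tensorMap_range i' j' h' x]
  exact le_rfl

/-- For `Z` simple and nuclear, the C⋆-algebra generated by an injective copy of `A` and a
commuting copy of `Z` is the minimal tensor product. -/
theorem isMinTensor_range [IsSimpleRing Z] (hZ : IsNuclear Z) (i' : A →⋆ₐ[ℂ] Q) (j' : Z →⋆ₐ[ℂ] Q)
    (h' : ∀ a b, Commute (i' a) (j' b)) (hi' : Function.Injective i') :
    IsMinCompletion (tensorRangeLeft i' j' h') (tensorRangeRight i' j' h') where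
  toIsTensorCompletion := isTensorCompletion_range i' j' h'
    (tensor_injective_of_simple i'.toAlgHom j'.toAlgHom h' hi')
  minimal := by
    intro T' _ i'' j'' hT x
    exact (hZ _ _ _ _ _ _ _ (isTensorCompletion_range i' j' h'
      (tensor_injective_of_simple i'.toAlgHom j'.toAlgHom h' hi')) hT x).le

end Vale.Agent.P101
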