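import Mathlib

/-!
# Minimal tensor products and tensorial absorption (version used in the proofs)

A C⋆-tensor product of two unital C⋆-algebras `A` and `B` is described by a C⋆-algebra `T`
together with unital `*`-homomorphisms `i : A → T` and `j : B → T` whose ranges commute, such that
the induced map `A ⊙ B → T`, `a ⊗ b ↦ i a * j b` on the algebraic tensor product is injective and
has dense range. Equivalently, `T` is the completion of `A ⊙ B` with respect to a C⋆-norm.
-/

open scoped TensorProduct ComplexOrder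

noncomputable section

universe u

namespace Vale.Agent.P101

variable {A B T : Type u} [CStarAlgebra A] [CStarAlgebra B] [CStarAlgebra T]

/-- The map `A ⊙ B → T`, `a ⊗ b ↦ i a * j b`, induced by two unital `*`-homomorphisms
`i : A → T` and `j : B → T` with commuting ranges. -/
abbrev tensorMap (i : A →⋆ₐ[ℂ] T) (j : B →⋆ₐ[ℂ] T) (h : ∀ a b, Commute (i a) (j b)) :
    A ⊗[ℂ] B →ₐ[ℂ] T :=
  Algebra.TensorProduct.lift i.toAlgHom j.toAlgHom h

/-- `T` is the completion of the algebraic tensor product `A ⊙ B` for some C⋆-norm; the canonical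
maps are `i` and `j`. -/
structure IsTensorCompletion (i : A →⋆ₐ[ℂ] T) (j : B →⋆ₐ[ℂ] T) : Prop where
  comm : ∀ a b, Commute (i a) (j b)
  injective : Function.Injective (tensorMap i j comm)
  denseRange : DenseRange (tensorMap i j comm)

/-- `T` is the minimal tensor product of `A` and `B` (with canonical maps `i` and `j`): the
completion of `A ⊙ B` for the smallest C⋆-norm. By a theorem of Takesaki the smallest C⋆-norm
is the spatial one. -/
structure IsMinCompletion (i : A →⋆ₐ[ℂ] T) (j : B →⋆ₐ[ℂ] T) : Prop extends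
    IsTensorCompletion i j where
  minimal : ∀ (T' : Type u) [CStarAlgebra T'] (i' : A →⋆ₐ[ℂ] T') (j' : B →⋆ₐ[ℂ] T')
    (h' : IsTensorCompletion i' j') (x : A ⊗[ℂ] B),
    ‖tensorMap i j comm x‖ ≤ ‖tensorMap i' j' h'.comm x‖

/-- `A ≅ A ⊗ Z`, for the minimal tensor product. -/
def CompletionAbsorbs (A Z : Type u) [CStarAlgebra A] [CStarAlgebra Z] : Prop :=
  ∃ (T : Type u) (_ : CStarAlgebra T) (i : A →⋆ₐ[ℂ] T) (j : Z →⋆ₐ[ℂ] T),
    IsMinCompletion i j ∧ Nonempty (A ≃⋆ₐ[ℂ] T)

/-- Nuclearity of `Z`: for every C⋆-algebra `B` there is only one C⋆-norm on `B ⊙ Z`. -/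
def IsNuclear (Z : Type u) [CStarAlgebra Z] : Prop :=
  ∀ (B T T' : Type u) [CStarAlgebra B] [CStarAlgebra T] [CStarAlgebra T']
    (i : B →⋆ₐ[ℂ] T) (j : Z →⋆ₐ[ℂ] T) (i' : B →⋆ₐ[ℂ] T') (j' : Z →⋆ₐ[ℂ] T')
    (h : IsTensorCompletion i j) (h' : IsTensorCompletion i' j') (x : B ⊗[ℂ] Z),
    ‖tensorMap i j h.comm x‖ = ‖tensorMap i' j' h'.comm x‖

/-- `Z` has approximately inner half flip: the two canonical maps `Z → Z ⊗ Z` (minimal tensor
product) are approximately unitarily equivalent. -/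
def HasApproxInnerHalfFlip (Z : Type u) [CStarAlgebra Z] : Prop :=
  ∃ (T : Type u) (_ : CStarAlgebra T) (i : Z →⋆ₐ[ℂ] T) (j : Z →⋆ₐ[ℂ] T),
    IsMinCompletion i j ∧ ∀ (F : Finset Z) (ε : ℝ), 0 < ε →
      ∃ v ∈ unitary T, ∀ z ∈ F, ‖v * i z * star v - j z‖ < ε

end Vale.Agent.P101
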