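import Vale.Agent.P101.TensorDefs
import Vale.Agent.P101.GenOne

/-! # Injectivity of `A ⊙ Z → T` for simple `Z` -/

open scoped TensorProduct

noncomputable section

universe u

namespace Vale.Agent.P101

/-- The centre of a simple unital C⋆-algebra consists of the scalars. -/
theorem exists_eq_algebraMap_of_central {Z : Type*} [CStarAlgebra Z] [IsSimpleRing Z] (z : Z)
    (hz : ∀ w, w * z = z * w) : ∃ c : ℂ, z = c • (1 : Z) := by
  have : Nontrivial Z := inferInstance
  obtain ⟨c, hc⟩ := spectrum.nonempty (A := Z) z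
  refine ⟨c, ?_⟩
  rw [← Algebra.algebraMap_eq_smul_one]
  by_contra hne
  rw [spectrum.mem_iff] at hc
  apply hc
  have hne' : algebraMap ℂ Z c - z ≠ 0 := fun h => hne (sub_eq_zero.1 h).symm
  set d := algebraMap ℂ Z c - z with hd
  have hdc : ∀ w, w * d = d * w := by
    intro w
    rw [hd, mul_sub, sub_mul, hz, Algebra.commutes]
  -- the ideal generated by d
  obtain ⟨w, hw⟩ : ∃ w, d * w = 1 := by
    have hI : (Ideal.span {d}).IsTwoSided := ⟨by
      intro a b ha
      rw [Ideal.mem_span_singleton'] at *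
      obtain ⟨e, rfl⟩ := ha
      exact ⟨e * b, by rw [mul_assoc, mul_assoc, hdc]⟩⟩
    have h2 := (isSimpleRing_iff_isTwoSided_imp.1 ‹IsSimpleRing Z›).2 (Ideal.span {d}) hI
    rcases h2 with h2 | h2
    · exact absurd (Ideal.span_singleton_eq_bot.1 h2) hne'
    · have h3 : (1 : Z) ∈ Ideal.span {d} := h2 ▸ Submodule.mem_top
      rw [Ideal.mem_span_singleton'] at h3
      obtain ⟨e, he⟩ := h3
      exact ⟨e, by rw [← hdc, he]⟩
  exact ⟨⟨d, w, hw, by rw [hdc, hw]⟩, rfl⟩

/-- In a simple ring, the ideal generated by a nonzero element contains `1`. -/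
theorem exists_sum_eq_one {Z : Type*} [Ring Z] [IsSimpleRing Z] (z : Z) (hz : z ≠ 0) :
    ∃ (n : ℕ) (p q : Fin n → Z), ∑ l, p l * z * q l = 1 := by
  have h1 := IsSimpleRing.one_mem_of_ne_zero_mem (TwoSidedIdeal.span {z}) hz
    (TwoSidedIdeal.subset_span rfl)
  obtain ⟨n, a, s, b, hs, h⟩ := isGen_of_mem_span h1
  refine ⟨n, a, b, ?_⟩
  rw [← h]
  exact Finset.sum_congr rfl fun l _ => by rw [Set.mem_singleton_iff.1 (hs l)]

theorem tensor_injective_of_simple {A Z T : Type*} [Ring A] [Algebra ℂ A] [CStarAlgebra Z]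
    [Ring T] [Algebra ℂ T] [IsSimpleRing Z] (i : A →ₐ[ℂ] T) (j : Z →ₐ[ℂ] T)
    (h : ∀ a b, Commute (i a) (j b)) (hi : Function.Injective i) :
    Function.Injective (Algebra.TensorProduct.lift i j h) := by
  classical
  let ℬ := Module.Basis.ofVectorSpace ℂ A
  let e := TensorProduct.equivFinsuppOfBasisLeft (N := Z) ℬ
  set Φ := Algebra.TensorProduct.lift i j h with hΦ
  have hmul : ∀ (p q : Z) (x : A ⊗[ℂ] Z) b, e (((1 : A) ⊗ₜ[ℂ] p) * x * ((1 : A) ⊗ₜ[ℂ] q)) b =
      p * e x b * q := by
    intro p q x b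
    induction x with
    | zero => simp
    | add x y hx hy => simp only [mul_add, add_mul, map_add, Finsupp.add_apply, hx, hy]
    | tmul a z =>
      simp only [Algebra.TensorProduct.tmul_mul_tmul, one_mul, mul_one, e,
        TensorProduct.equivFinsuppOfBasisLeft_apply_tmul_apply]
      rw [mul_smul_comm, smul_mul_assoc]
  rw [injective_iff_map_eq_zero]
  by_contra hcon
  push Not at hcon
  obtain ⟨x₀, hx₀, hx₀'⟩ := hcon
  -- minimal support
  have hex : ∃ n, ∃ x, Φ x = 0 ∧ x ≠ 0 ∧ (e x).support.card = n := ⟨_, x₀, hx₀, hx₀', rfl⟩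
  obtain ⟨x, hx, hxne, hxcard⟩ := Nat.find_spec hex
  have hmin : ∀ y, Φ y = 0 → (e y).support.card < (e x).support.card → y = 0 := by
    intro y hy hlt
    by_contra hyne
    rw [hxcard] at hlt
    exact Nat.find_min hex hlt ⟨y, hy, hyne, rfl⟩
  have hexne : e x ≠ 0 := fun h0 => hxne ((map_eq_zero_iff e e.injective).1 h0)
  obtain ⟨b₀, hb₀⟩ := Finsupp.support_nonempty_iff.2 hexne
  obtain ⟨n, p, q, hpq⟩ := exists_sum_eq_one (e x b₀) (Finsupp.mem_support_iff.1 hb₀)
  set x' := ∑ l, ((1 : A) ⊗ₜ[ℂ] p l) * x * ((1 : A) ⊗ₜ[ℂ] q l) with hx'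
  have hx'0 : Φ x' = 0 := by
    rw [hx', map_sum]
    exact Finset.sum_eq_zero fun l _ => by rw [map_mul, map_mul, hx, mul_zero, zero_mul]
  have hex' : ∀ b, e x' b = ∑ l, p l * e x b * q l := by
    intro b
    rw [hx', map_sum, Finsupp.finsetSum_apply]
    exact Finset.sum_congr rfl fun l _ => hmul _ _ _ _
  have hb₀1 : e x' b₀ = 1 := by rw [hex', hpq]
  have hsupp : (e x').support ⊆ (e x).support := by
    intro b hb
    rw [Finsupp.mem_support_iff] at *
    intro h0
    apply hb
    rw [hex', h0]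
    simp
  have hcent : ∀ w b, w * e x' b = e x' b * w := by
    intro w b
    have hy : ((1 : A) ⊗ₜ[ℂ] w) * x' - x' * ((1 : A) ⊗ₜ[ℂ] w) = 0 := by
      apply hmin
      · rw [map_sub, map_mul, map_mul, hx'0, mul_zero, zero_mul, sub_zero]
      · have hsub : (e (((1 : A) ⊗ₜ[ℂ] w) * x' - x' * ((1 : A) ⊗ₜ[ℂ] w))).support ⊆
            (e x).support.erase b₀ := by
          intro b hb
          have h1 := hmul w 1 x' b
          have h2 := hmul 1 w x' b
          rw [← Algebra.TensorProduct.one_def, mul_one, mul_one] at h1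
          rw [← Algebra.TensorProduct.one_def, one_mul, one_mul] at h2
          rw [Finsupp.mem_support_iff, map_sub, Finsupp.sub_apply, h1, h2] at hb
          rw [Finset.mem_erase]
          constructor
          · rintro rfl
            apply hb
            rw [hb₀1, mul_one, one_mul, sub_self]
          · apply hsupp
            rw [Finsupp.mem_support_iff]
            intro h0
            apply hb
            rw [h0, mul_zero, zero_mul, sub_zero]
        exact (Finset.card_le_card hsub).trans_lt (Finset.card_erase_lt_of_mem hb₀)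
    have h1 := hmul w 1 x' b
    have h2 := hmul 1 w x' b
    rw [← Algebra.TensorProduct.one_def, mul_one, mul_one] at h1
    rw [← Algebra.TensorProduct.one_def, one_mul, one_mul] at h2
    rw [← h1, ← h2, sub_eq_zero.1 hy]
  choose c hc using fun b => exists_eq_algebraMap_of_central (e x' b) (fun w => hcent w b)
  set a : A := ∑ b ∈ (e x').support, c b • ℬ b with ha
  have hx'a : x' = a ⊗ₜ[ℂ] (1 : Z) := by
    rw [← e.symm_apply_apply x', TensorProduct.equivFinsuppOfBasisLeft_symm_apply, Finsupp.sum, ha,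
      TensorProduct.sum_tmul]
    refine Finset.sum_congr rfl fun b _ => ?_
    rw [hc b, TensorProduct.tmul_smul, TensorProduct.smul_tmul']
  have ha0 : a = 0 := by
    apply hi
    have h3 := hx'0
    rw [hx'a, hΦ, Algebra.TensorProduct.lift_tmul, map_one, mul_one] at h3
    rw [h3, map_zero]
  have : e x' b₀ = 0 := by rw [hx'a, ha0, TensorProduct.zero_tmul, map_zero]; rfl
  rw [hb₀1] at this
  exact one_ne_zero this

end Vale.Agent.P101
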