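import Mathlib
import Vale.Agent.P101.Statement
import Vale.Agent.P101.Defs
import Vale.Agent.P101.DimDropGen

/-!
# The two descriptions of `F_ω(A)` agree
-/

open Filter Topology BoundedContinuousFunction
open scoped Kronecker

noncomputable section

namespace Vale.Agent.P101

variable (A : Type*) [CStarAlgebra A] (ω : Ultrafilter ℕ)

/-- The map `SeqAlg A ω → SeqQ A ω`. -/
def toQ : SeqAlg A ω →+* SeqQ A ω :=
  Ideal.Quotient.lift (nullIdeal A ω) (toSeqQ A ω) (by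
    intro a ha
    have h : NullRel A ω a 0 := by
      unfold NullRel
      simpa using mem_nullIdeal.1 ha
    have h2 : toSeqQ A ω a = toSeqQ A ω 0 := RingQuot.mkRingHom_rel h
    rw [h2, map_zero])

/-- The map `SeqQ A ω → SeqAlg A ω`. -/
def ofQ : SeqQ A ω →+* SeqAlg A ω :=
  RingQuot.lift ⟨cls ω, fun _ _ h => cls_eq_cls.mpr h⟩

theorem toQ_cls (a : ℕ →ᵇ A) : toQ A ω (cls ω a) = toSeqQ A ω a := rfl

theorem ofQ_toSeqQ (a : ℕ →ᵇ A) : ofQ A ω (toSeqQ A ω a) = cls ω a :=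
  RingQuot.lift_mkRingHom_apply _ _ _

theorem ofQ_toQ (x : SeqAlg A ω) : ofQ A ω (toQ A ω x) = x := by
  obtain ⟨a, rfl⟩ := Ideal.Quotient.mk_surjective x
  rw [toQ_cls, ofQ_toSeqQ]

theorem toQ_ofQ (x : SeqQ A ω) : toQ A ω (ofQ A ω x) = x := by
  obtain ⟨a, rfl⟩ := toSeqQ_surjective A ω x
  rw [ofQ_toSeqQ, toQ_cls]

theorem toQ_star (x : SeqAlg A ω) : toQ A ω (star x) = star (toQ A ω x) := by
  obtain ⟨a, rfl⟩ := Ideal.Quotient.mk_surjective x
  rw [star_cls, toQ_cls, toQ_cls, star_toSeqQ]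

theorem toQ_smul (c : ℂ) (x : SeqAlg A ω) : toQ A ω (c • x) = c • toQ A ω x := by
  obtain ⟨a, rfl⟩ := Ideal.Quotient.mk_surjective x
  rw [smul_cls, toQ_cls, toQ_cls, smul_toSeqQ]

theorem toQ_injective : Function.Injective (toQ A ω) :=
  Function.LeftInverse.injective (ofQ_toQ A ω)

theorem toQ_mem_iff (x : SeqAlg A ω) : toQ A ω x ∈ centralQ A ω ↔ x ∈ centralSeq A ω := by
  unfold centralQ centralSeq
  rw [StarSubalgebra.mem_centralizer_iff, StarSubalgebra.mem_centralizer_iff]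
  simp only [Set.forall_mem_range]
  refine forall_congr' fun a => ?_
  have h1 : toSeqQ A ω (BoundedContinuousFunction.const ℕ a) = toQ A ω (constSeq A ω a) := rfl
  rw [h1, ← toQ_star, ← map_mul, ← map_mul, ← map_mul, ← map_mul,
    (toQ_injective A ω).eq_iff, (toQ_injective A ω).eq_iff]

/-- `F_ω(A)` in the two descriptions. -/
def centralEquiv : centralSeq A ω ≃⋆ₐ[ℂ] FSeq A ω where
  toFun x := (⟨toQ A ω x.1, (toQ_mem_iff A ω x.1).2 x.2⟩ : centralQ A ω)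
  invFun (y : centralQ A ω) := ⟨ofQ A ω y.1, (toQ_mem_iff A ω _).1 (by
    rw [toQ_ofQ]; exact y.2)⟩
  left_inv x := Subtype.ext (ofQ_toQ A ω x.1)
  right_inv (y : centralQ A ω) :=
    show (⟨toQ A ω (ofQ A ω y.1), _⟩ : centralQ A ω) = y from Subtype.ext (toQ_ofQ A ω y.1)
  map_mul' x y := Subtype.ext (map_mul (toQ A ω) x.1 y.1)
  map_add' x y := Subtype.ext (map_add (toQ A ω) x.1 y.1)
  map_star' x := Subtype.ext (toQ_star A ω x.1)
  map_smul' c x := Subtype.ext (toQ_smul A ω c x.1)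

theorem dimDropQ_eq (p q : ℕ) : dimDropQ p q = dimDrop p q :=
  StarAlgebra.adjoin_eq (dimDrop p q)

theorem characters_iff :
    (∀ χ : FSeq A ω →⋆ₙₐ[ℂ] ℂ, χ = 0) ↔ ∀ χ : centralSeq A ω →⋆ₙₐ[ℂ] ℂ, χ = 0 := by
  constructor
  · intro h χ
    have h1 := h (χ.comp ((centralEquiv A ω).symm : FSeq A ω →⋆ₙₐ[ℂ] centralSeq A ω))
    ext x
    have h2 := DFunLike.congr_fun h1 (centralEquiv A ω x)
    simpa using h2
  · intro h χ
    have h1 := h (χ.comp ((centralEquiv A ω) : centralSeq A ω →⋆ₙₐ[ℂ] FSeq A ω))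
    ext x
    have h2 := DFunLike.congr_fun h1 ((centralEquiv A ω).symm x)
    simpa using h2

theorem hom_iff (p q : ℕ) : Nonempty (dimDropQ p q →⋆ₐ[ℂ] FSeq A ω) ↔
    Nonempty (dimDrop p q →⋆ₐ[ℂ] centralSeq A ω) := by
  rw [dimDropQ_eq]
  constructor
  · rintro ⟨f⟩
    exact ⟨((centralEquiv A ω).symm : FSeq A ω →⋆ₐ[ℂ] centralSeq A ω).comp f⟩
  · rintro ⟨f⟩
    exact ⟨((centralEquiv A ω) : centralSeq A ω →⋆ₐ[ℂ] FSeq A ω).comp f⟩

end Vale.Agent.P101
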